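import Crest.Agent.R75.Defs

/-! The trapezoid kernel reproduces locally modulated functions. -/

set_option autoImplicit false

namespace Crest.Agent.R75

open Real

namespace Kernel

open Finset

/-- Dirichlet-type sum -/
noncomputable def D (n : ℕ) (h : ℝ) : ℂ := ∑ a ∈ range n, ee ((a : ℝ) * h)

@[fun_prop] lemma continuous_D (n : ℕ) : Continuous (D n) := by
  unfold D; fun_prop

lemma int_ee (m : ℤ) :
    ∫ h in (-1 / 2 : ℝ)..(1 / 2), ee ((m : ℝ) * h) = if m = 0 then 1 else 0 := by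
  split_ifs with hm
  · subst hm; norm_num
  · have hm' : (m : ℂ) ≠ 0 := by exact_mod_cast hm
    have hc : (2 * π * Complex.I * m : ℂ) ≠ 0 := by
      have := Real.pi_ne_zero
      simp [hm', this]
    have key : ∀ h : ℝ, HasDerivAt (fun h : ℝ => ee ((m : ℝ) * h) / (2 * π * Complex.I * m))
        (ee ((m : ℝ) * h)) h := by
      intro h
      have h1 : HasDerivAt (fun h : ℝ => (m : ℝ) * h) (m : ℝ) h := by
        simpa using (hasDerivAt_id h).const_mul (m : ℝ)
      have h2 := ((hasDerivAt_ee ((m : ℝ) * h)).scomp h h1).div_const (2 * π * Complex.I * m)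
      refine h2.congr_deriv ?_
      rw [div_eq_iff hc]
      simp
      ring
    rw [intervalIntegral.integral_eq_sub_of_hasDerivAt (fun h _ => key h)
      (by apply Continuous.intervalIntegrable; fun_prop)]
    have : ee ((m : ℝ) * (1 / 2)) = ee ((m : ℝ) * (-1 / 2)) := by
      rw [← ee_add_int ((m : ℝ) * (-1 / 2)) m]; congr 1; ring
    rw [this, sub_self]

lemma int_DD (A B t : ℕ) (ht : t + A ≤ B) :
    ∫ h in (-1 / 2 : ℝ)..(1 / 2), ee (-((t : ℝ) * h)) * (D A (-h) * D B h) = A := by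
  have e : ∀ h : ℝ, ee (-((t : ℝ) * h)) * (D A (-h) * D B h)
      = ∑ a ∈ range A, ∑ b ∈ range B, ee ((((b : ℤ) - a - t : ℤ) : ℝ) * h) := by
    intro h
    rw [D, D, Finset.sum_mul_sum]
    simp only [Finset.mul_sum, ← ee_add]
    refine Finset.sum_congr rfl fun a _ => Finset.sum_congr rfl fun b _ => ?_
    congr 1; push_cast; ring
  simp only [e]
  rw [intervalIntegral.integral_finsetSum
    (fun a _ => by apply Continuous.intervalIntegrable; fun_prop)]
  have : ∀ a ∈ range A, (∫ h in (-1 / 2 : ℝ)..(1 / 2),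
      ∑ b ∈ range B, ee ((((b : ℤ) - a - t : ℤ) : ℝ) * h)) = 1 := by
    intro a ha
    rw [intervalIntegral.integral_finsetSum
      (fun a _ => by apply Continuous.intervalIntegrable; fun_prop)]
    simp only [int_ee]
    rw [Finset.sum_eq_single (a + t)]
    · simp
    · intro b _ hb
      rw [if_neg]; omega
    · intro h; exfalso; apply h; simp at ha ⊢; omega
  rw [Finset.sum_congr rfl this]; simp

lemma D_neg (n : ℕ) (h : ℝ) : D n (-h) = (starRingEnd ℂ) (D n h) := by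
  simp only [D, map_sum, conj_ee, mul_neg]

lemma norm_D_neg (n : ℕ) (h : ℝ) : ‖D n (-h)‖ = ‖D n h‖ := by
  rw [D_neg, Complex.norm_conj]

lemma parseval (n : ℕ) : ∫ h in (-1 / 2 : ℝ)..(1 / 2), ‖D n h‖ ^ 2 = n := by
  have h1 := int_DD n n 0 (by omega)
  have e : ∀ h : ℝ, ee (-(((0 : ℕ) : ℝ) * h)) * (D n (-h) * D n h) = ((‖D n h‖ ^ 2 : ℝ) : ℂ) := by
    intro h
    rw [D_neg, Complex.conj_mul']
    simp
  simp only [e] at h1
  rw [intervalIntegral.integral_ofReal] at h1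
  exact_mod_cast h1

lemma norm_D_mul_le (n : ℕ) (h : ℝ) (hh : |h| ≤ 1 / 2) : ‖D n h‖ * |h| ≤ 1 / 2 := by
  have h1 : D n h * (ee h - 1) = ee h ^ n - 1 := by
    simp only [D, ee_nat_mul]
    exact geom_sum_mul _ _
  have h2 : ‖ee h ^ n - 1‖ ≤ 2 := by
    refine (norm_sub_le _ _).trans ?_
    simp; norm_num
  have h3 : 4 * |h| ≤ ‖ee h - 1‖ := by
    rw [ee, mul_comm _ Complex.I, Complex.norm_exp_I_mul_ofReal_sub_one, norm_mul,
      Real.norm_eq_abs, Real.norm_eq_abs, show 2 * π * h / 2 = π * h by ring]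
    have hp := Real.pi_pos
    have := Real.mul_abs_le_abs_sin (x := π * h) (by
      rw [abs_mul, abs_of_pos hp]; nlinarith)
    rw [abs_mul, abs_of_pos hp, show 2 / π * (π * |h|) = 2 * |h| by field_simp] at this
    rw [abs_of_pos (by norm_num : (0 : ℝ) < 2)]
    linarith
  rw [← h1, norm_mul] at h2
  nlinarith [norm_nonneg (D n h)]

/-- the weights of the trapezoid kernel -/
noncomputable def kap (N A : ℕ) (j : Fin N) : ℝ :=
  (1 / A : ℝ) * ∑ a ∈ range A, ∑ b ∈ range (N - A), if (j : ℕ) + a = A + b then 1 else 0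

lemma kap_mem (N A : ℕ) (hA : 0 < A) (j : Fin N) : 0 ≤ kap N A j ∧ kap N A j ≤ 1 := by
  have hA' : (0 : ℝ) < A := by exact_mod_cast hA
  constructor
  · unfold kap
    refine mul_nonneg (by positivity) (Finset.sum_nonneg fun a _ => Finset.sum_nonneg fun b _ => ?_)
    split_ifs <;> norm_num
  · unfold kap
    have : ∑ a ∈ range A, ∑ b ∈ range (N - A), (if (j : ℕ) + a = A + b then (1 : ℝ) else 0)
        ≤ ∑ _a ∈ range A, (1 : ℝ) := by
      refine Finset.sum_le_sum fun a _ => ?_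
      rw [Finset.sum_boole]
      have : ((range (N - A)).filter (fun b => (j : ℕ) + a = A + b)).card ≤ 1 := by
        rw [Finset.card_le_one]
        intro x hx y hy
        simp only [Finset.mem_filter] at hx hy
        omega
      exact_mod_cast this
    simp only [Finset.sum_const, card_range, nsmul_eq_mul, mul_one] at this
    rw [one_div, inv_mul_le_iff₀ hA']
    simpa using this

lemma kap_sum (N A : ℕ) (h : ℝ) :
    ∑ j : Fin N, (kap N A j : ℂ) * ee ((((j : ℕ) : ℝ) - A) * h)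
      = (1 / A : ℂ) * (D A (-h) * D (N - A) h) := by
  simp only [kap, D, Finset.sum_mul_sum, ← ee_add]
  push_cast
  simp only [mul_assoc, ← Finset.mul_sum]
  congr 1
  simp only [Finset.sum_mul]
  rw [Finset.sum_comm]
  refine Finset.sum_congr rfl fun a ha => ?_
  rw [Finset.sum_comm]
  refine Finset.sum_congr rfl fun b hb => ?_
  simp only [Finset.mem_range] at ha hb
  rw [Finset.sum_eq_single (⟨A + b - a, by omega⟩ : Fin N)]
  · rw [if_pos (by simp only []; omega)]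
    simp only [Complex.ofReal_one, one_mul]
    congr 1
    rw [Nat.cast_sub (by omega)]
    push_cast; ring
  · intro j _ hj
    rw [if_neg]
    · simp
    · intro hh; apply hj; ext; simp only []; omega
  · intro hh; exact absurd (Finset.mem_univ _) hh

lemma main (N A t : ℕ) (hA : 0 < A) (ht : t + A ≤ N - A) (H δ : ℝ) (hH : 0 < H) (hδ : 0 ≤ δ)
    (u : ℝ → ℂ) (hu : Continuous u) (hu1 : ∀ h, ‖u h‖ ≤ 1)
    (hloc : ∀ h, |h| ≤ H → ‖u h - u 0 * ee (-((t : ℝ) * h))‖ ≤ δ) :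
    ‖(∫ h in (-1 / 2 : ℝ)..(1 / 2),
        u h * ∑ j : Fin N, (kap N A j : ℂ) * ee ((((j : ℕ) : ℝ) - A) * h)) - u 0‖
      ≤ δ * N / (2 * A) + π / (A * H) := by
  have hA' : (0 : ℝ) < A := by exact_mod_cast hA
  have hAc : (A : ℂ) ≠ 0 := by exact_mod_cast hA.ne'
  simp only [kap_sum]
  have h0 : u 0 = ∫ h in (-1 / 2 : ℝ)..(1 / 2),
      u 0 * ee (-((t : ℝ) * h)) * ((1 / A : ℂ) * (D A (-h) * D (N - A) h)) := by
    have e : ∀ h : ℝ, u 0 * ee (-((t : ℝ) * h)) * ((1 / A : ℂ) * (D A (-h) * D (N - A) h))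
        = (u 0 * (1 / A : ℂ)) * (ee (-((t : ℝ) * h)) * (D A (-h) * D (N - A) h)) := by
      intro h; ring
    simp only [e]
    rw [intervalIntegral.integral_const_mul, int_DD _ _ _ ht]
    field_simp
  conv_lhs => rw [h0]
  rw [← intervalIntegral.integral_sub (by apply Continuous.intervalIntegrable; fun_prop)
    (by apply Continuous.intervalIntegrable; fun_prop)]
  have hc : Continuous fun h : ℝ => (H ^ 2 + h ^ 2)⁻¹ :=
    Continuous.inv₀ (by fun_prop) (fun h => by positivity)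
  refine (intervalIntegral.norm_integral_le_of_norm_le (g := fun h =>
    δ / (2 * A) * (‖D A h‖ ^ 2 + ‖D (N - A) h‖ ^ 2) + 1 / A * (H ^ 2 + h ^ 2)⁻¹) (by norm_num)
    (Filter.Eventually.of_forall fun h hh => ?_)
    (by apply Continuous.intervalIntegrable; fun_prop)).trans ?_
  · have hh' : |h| ≤ 1 / 2 := abs_le.2 ⟨by linarith [hh.1], hh.2⟩
    rw [← sub_mul, norm_mul, norm_mul, norm_mul, norm_D_neg, norm_div, norm_one,
      Complex.norm_natCast]
    have hx := norm_nonneg (D A h)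
    have hy := norm_nonneg (D (N - A) h)
    have hx' := norm_D_mul_le A h hh'
    have hy' := norm_D_mul_le (N - A) h hh'
    set x := ‖D A h‖
    set y := ‖D (N - A) h‖
    by_cases hle : |h| ≤ H
    · have h1 := hloc h hle
      have h2 : x * y ≤ (x ^ 2 + y ^ 2) / 2 := by nlinarith [sq_nonneg (x - y)]
      calc _ ≤ δ * (1 / A * ((x ^ 2 + y ^ 2) / 2)) := by gcongr
        _ = δ / (2 * A) * (x ^ 2 + y ^ 2) := by field_simp
        _ ≤ _ := le_add_of_nonneg_right (by positivity)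
    · push Not at hle
      have h1 : ‖u h - u 0 * ee (-((t : ℝ) * h))‖ ≤ 2 := by
        refine (norm_sub_le _ _).trans ?_
        rw [norm_mul, norm_ee, mul_one]
        linarith [hu1 h, hu1 0]
      have hpos : 0 < |h| := hH.trans hle
      have h2 : x * y * h ^ 2 ≤ 1 / 4 := by
        have : x * y * h ^ 2 = (x * |h|) * (y * |h|) := by rw [← sq_abs h]; ring
        rw [this]
        nlinarith [mul_nonneg hx hpos.le, mul_nonneg hy hpos.le]
      have h3 : H ^ 2 ≤ h ^ 2 := by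
        rw [← sq_abs h]; gcongr
      have h4 : x * y ≤ (H ^ 2 + h ^ 2)⁻¹ / 2 := by
        rw [le_div_iff₀ (by norm_num), ← one_div, le_div_iff₀ (by positivity)]
        nlinarith [mul_nonneg hx hy]
      calc _ ≤ 2 * (1 / A * ((H ^ 2 + h ^ 2)⁻¹ / 2)) := by gcongr
        _ = 1 / A * (H ^ 2 + h ^ 2)⁻¹ := by ring
        _ ≤ _ := le_add_of_nonneg_left (by positivity)
  · rw [intervalIntegral.integral_add (by apply Continuous.intervalIntegrable; fun_prop)
      (by apply Continuous.intervalIntegrable; fun_prop), intervalIntegral.integral_const_mul,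
      intervalIntegral.integral_const_mul,
      intervalIntegral.integral_add (by apply Continuous.intervalIntegrable; fun_prop)
      (by apply Continuous.intervalIntegrable; fun_prop), parseval, parseval,
      integral_inv_sq_add_sq hH.ne', Nat.cast_sub (by omega)]
    have h1 := Real.arctan_lt_pi_div_two (1 / 2 / H)
    have h2 := Real.neg_pi_div_two_lt_arctan (-1 / 2 / H)
    have h3 : arctan (1 / 2 / H) - arctan (-1 / 2 / H) ≤ π := by linarith
    calc _ ≤ δ / (2 * A) * (A + (N - A)) + 1 / A * (H⁻¹ * π) := by gcongr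
      _ = _ := by field_simp; ring

end Kernel

theorem kernel (ρ : ℝ) (hρ : 0 < ρ) (hρ' : ρ < 1 / 4) (C ε : ℝ) (hε : 0 < ε) :
    ∃ N0 : ℕ, ∀ N : ℕ, N0 ≤ N → ∃ (κ : Fin N → ℝ) (A : ℕ), (∀ j, 0 ≤ κ j ∧ κ j ≤ 1) ∧
      ∀ (u : ℝ → ℂ) (τ : ℝ), Continuous u → (∀ h, ‖u h‖ ≤ 1) → 0 ≤ τ → τ ≤ (1 - 2 * ρ) * N →
        (∀ h, ‖u h - u 0 * ee (-(τ * h))‖ ≤ C * (N * h ^ 2 + |h|)) →
        ‖(∫ h in (-1 / 2 : ℝ)..(1 / 2),
            u h * ∑ j : Fin N, (κ j : ℂ) * ee ((((j : ℕ) : ℝ) - A) * h)) - u 0‖ ≤ ε := by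
  have hp := Real.pi_pos
  obtain ⟨T, hT⟩ : ∃ T : ℝ, T = 4 * π / (ρ * ε) := ⟨_, rfl⟩
  have hT0 : 0 < T := by rw [hT]; positivity
  obtain ⟨M, hM⟩ : ∃ M : ℝ, M = |C| * (T ^ 2 + T) + 2 * π * T := ⟨_, rfl⟩
  have hM0 : 0 < M := by rw [hM]; positivity
  refine ⟨⌈2 / ρ + 2 * M / (ρ * ε)⌉₊, fun N hN => ?_⟩
  have hN' : 2 / ρ + 2 * M / (ρ * ε) ≤ N := Nat.ceil_le.1 hN
  have h1 : 0 < 2 / ρ := by positivity
  have h2 : 0 < 2 * M / (ρ * ε) := by positivity
  have hN0 : (0 : ℝ) < N := by linarith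
  have hN1 : 2 ≤ ρ * N := by
    have : 2 / ρ ≤ N := by linarith
    rw [div_le_iff₀ hρ] at this; linarith
  have hN2 : 2 * M ≤ ρ * N * ε := by
    have : 2 * M / (ρ * ε) ≤ N := by linarith
    rw [div_le_iff₀ (by positivity)] at this; linarith
  obtain ⟨A, hA⟩ : ∃ A : ℕ, A = ⌊ρ * N⌋₊ := ⟨_, rfl⟩
  have hA1 : (A : ℝ) ≤ ρ * N := by rw [hA]; exact Nat.floor_le (by positivity)
  have hA2 : ρ * N / 2 ≤ A := by
    have := Nat.lt_floor_add_one (ρ * N)
    rw [← hA] at this; linarith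
  have hA0 : (0 : ℝ) < A := by linarith
  have hA0' : 0 < A := by exact_mod_cast hA0
  refine ⟨Kernel.kap N A, A, Kernel.kap_mem N A hA0', fun u τ hu hu1 hτ0 hτ hloc => ?_⟩
  have ht1 : (⌊τ⌋₊ : ℝ) ≤ τ := Nat.floor_le hτ0
  have ht2 : τ < ⌊τ⌋₊ + 1 := Nat.lt_floor_add_one τ
  have ht : ⌊τ⌋₊ + A ≤ N - A := by
    have : ((⌊τ⌋₊ + A + A : ℕ) : ℝ) ≤ N := by push_cast; nlinarith
    have : ⌊τ⌋₊ + A + A ≤ N := by exact_mod_cast this
    omega
  refine (Kernel.main N A ⌊τ⌋₊ hA0' ht (T / N) (M / N) (by positivity) (by positivity) u hu hu1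
    fun h hh => ?_).trans ?_
  · have e : u h - u 0 * ee (-((⌊τ⌋₊ : ℝ) * h))
        = (u h - u 0 * ee (-(τ * h))) + u 0 * (ee (-(τ * h)) - ee (-((⌊τ⌋₊ : ℝ) * h))) := by ring
    rw [e]
    refine (norm_add_le _ _).trans ?_
    have h3 : ‖u h - u 0 * ee (-(τ * h))‖ ≤ |C| * (N * (T / N) ^ 2 + T / N) := by
      refine (hloc h).trans ?_
      rw [← sq_abs h]
      gcongr
      exact le_abs_self C
    have h4 : ‖u 0 * (ee (-(τ * h)) - ee (-((⌊τ⌋₊ : ℝ) * h)))‖ ≤ 1 * (2 * π * (1 * (T / N))) := by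
      rw [norm_mul]
      gcongr
      · exact hu1 0
      · refine (norm_ee_sub_ee_le _ _).trans ?_
        rw [show -(τ * h) - -((⌊τ⌋₊ : ℝ) * h) = ((⌊τ⌋₊ : ℝ) - τ) * h by ring, abs_mul]
        gcongr
        exact abs_le.2 ⟨by linarith, by linarith⟩
    refine (add_le_add h3 h4).trans (le_of_eq ?_)
    rw [hM]; field_simp
  · have h3 : M / N * N / (2 * A) ≤ ε / 2 := by
      rw [div_mul_cancel₀ _ hN0.ne', div_le_iff₀ (by positivity)]
      nlinarith
    have h4 : π / (A * (T / N)) ≤ ε / 2 := by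
      rw [div_le_iff₀ (by positivity)]
      calc π = ε / 2 * (ρ * N / 2 * (T / N)) := by rw [hT]; field_simp; ring
        _ ≤ _ := by gcongr
    linarith

end Crest.Agent.R75
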