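import Crest.Agent.R75.Defs

/-! Tiling facts for `cellMap`. -/

set_option autoImplicit false

namespace Crest.Agent.R75

open Real

namespace Tiling

lemma cell_false (P d : ℤ) (t : ℕ) : cell P d t false = -1 - cell P d t true := by
  simp [cell]

lemma cellMap_not {J : Type} (L : ℕ) (P d : J → ℤ) (x : Σ I : J, Fin (d I).natAbs) (ε : Bool) :
    cellMap L P d (x, !ε) = -1 - cellMap L P d (x, ε) := by
  cases ε <;> simp [cellMap, cell_false]

lemma no_fix (L : ℕ) [NeZero L] (hLe : Even L) (z : ZMod L) : z.val ≠ (-1 - z).val := by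
  intro h
  have h1 : z = -1 - z := ZMod.val_injective L h
  have h2 : ((2 * z.val + 1 : ℕ) : ZMod L) = 0 := by
    push_cast
    rw [ZMod.natCast_zmod_val]
    linear_combination h1
  rw [ZMod.natCast_eq_zero_iff] at h2
  have h3 : 2 ∣ 2 * z.val + 1 := (even_iff_two_dvd.1 hLe).trans h2
  omega

lemma card_dom {J : Type} [Fintype J] (d : J → ℤ) :
    Fintype.card ((Σ I : J, Fin (d I).natAbs) × Bool) = 2 * ∑ I, (d I).natAbs := by
  simp [Fintype.card_prod, Fintype.card_sigma, mul_comm]

lemma arc_integral (k p μ : ℝ) :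
    (2 * π * Complex.I * k) * ((μ : ℂ) * ∫ y in (0 : ℝ)..1, ee (k * (p + μ * y)))
      = ee (k * (p + μ)) - ee (k * p) := by
  have h : ∀ y ∈ Set.uIcc (0 : ℝ) 1, HasDerivAt (fun y : ℝ => ee (k * (p + μ * y)))
      ((2 * π * Complex.I * k * μ) * ee (k * (p + μ * y))) y := by
    intro y _
    have h1 : HasDerivAt (fun y : ℝ => k * (p + μ * y)) (k * μ) y := by
      simpa using (((hasDerivAt_id y).const_mul μ).const_add p).const_mul k
    have h2 := (hasDerivAt_ee (k * (p + μ * y))).scomp y h1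
    refine HasDerivAt.congr_deriv h2 ?_
    rw [Complex.real_smul]
    push_cast
    ring
  have := intervalIntegral.integral_eq_sub_of_hasDerivAt h
    (Continuous.intervalIntegrable (by fun_prop) _ _)
  rw [intervalIntegral.integral_const_mul] at this
  simp only [mul_one, mul_zero, add_zero] at this
  rw [← this]
  ring

lemma arc_sum (L : ℕ) (hL : 0 < L) (k : ℝ) (P d : ℤ) :
    (2 * π * Complex.I * k) * (((|(d / L : ℝ)| : ℝ) : ℂ) *
      ∫ y in (0 : ℝ)..1, ee (k * (P / L + d / L * y)))
      = ∑ t : Fin d.natAbs, (ee (k * ((cell P d t true + 1 : ℤ) / L)) -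
          ee (k * ((cell P d t true : ℤ) / L))) := by
  have hL' : (0 : ℝ) < L := by exact_mod_cast hL
  rw [Fin.sum_univ_eq_sum_range (fun t => ee (k * ((cell P d t true + 1 : ℤ) / L)) -
          ee (k * ((cell P d t true : ℤ) / L)))]
  have hI := arc_integral k (P / L) (d / L)
  by_cases hd : 0 < d
  · have h0 : (0 : ℝ) ≤ d / L := by
      have : (0 : ℝ) < d := by exact_mod_cast hd
      positivity
    rw [abs_of_nonneg h0, hI]
    have := Finset.sum_range_sub (fun t : ℕ => ee (k * ((P + t : ℤ) / L))) d.natAbs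
    have e : ((d.natAbs : ℕ) : ℤ) = d := by omega
    rw [e] at this
    simp only [cell, if_true, hd]
    convert this.symm using 3
    · push_cast; ring
    · simp
    · push_cast; ring_nf
  · have h0 : (d / L : ℝ) ≤ 0 := by
      have : (d : ℝ) ≤ 0 := by exact_mod_cast not_lt.1 hd
      exact div_nonpos_of_nonpos_of_nonneg this hL'.le
    rw [abs_of_nonpos h0, Complex.ofReal_neg, neg_mul, mul_neg, hI]
    have := Finset.sum_range_sub' (fun t : ℕ => ee (k * ((P - t : ℤ) / L))) d.natAbs
    have e : ((d.natAbs : ℕ) : ℤ) = -d := by omega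
    rw [e] at this
    simp only [cell, if_true, hd, if_false]
    rw [neg_sub]
    convert this.symm using 3
    · simp
    · push_cast; ring
    · push_cast; ring_nf
    · push_cast; ring_nf

lemma ee_val (L : ℕ) [NeZero L] (k c : ℤ) :
    ee (k * (((c : ZMod L).val : ℝ) / L)) = ee (k * ((c : ℝ) / L)) := by
  have hL' : (L : ℝ) ≠ 0 := by exact_mod_cast NeZero.ne L
  have h : (((c : ZMod L).val : ℕ) : ℤ) = c % L := ZMod.val_intCast c
  have h2 : (((c : ZMod L).val : ℕ) : ℝ) = c - L * (c / L : ℤ) := by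
    have := Int.emod_def c L
    rw [← h] at this
    exact_mod_cast this
  rw [h2, ← ee_add_int _ (k * (c / L))]
  congr 1
  push_cast
  field_simp
  ring

lemma floor_cell (P d : ℤ) (hd : d ≠ 0) (y : ℝ) (hy : 0 < y ∧ y < 1) (e : Bool) :
    ∃ t : Fin d.natAbs, ⌊(if e then 1 else -1) * ((P : ℝ) + d * y)⌋ = cell P d t e := by
  have key : ∀ (x : ℝ) (a b : ℤ), (a : ℝ) < x → x < b → a ≤ ⌊x⌋ ∧ ⌊x⌋ < b := fun x a b h1 h2 =>
    ⟨Int.le_floor.2 h1.le, Int.floor_lt.2 h2⟩
  obtain ⟨hy0, hy1⟩ := hy
  by_cases hp : 0 < d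
  · have hp' : (0 : ℝ) < d := by exact_mod_cast hp
    have h1 : 0 < d * y := mul_pos hp' hy0
    have h2 : d * y < d := by nlinarith
    cases e
    · obtain ⟨a, b⟩ := key (-1 * ((P : ℝ) + d * y)) (-P - d) (-P) (by push_cast; linarith)
        (by push_cast; linarith)
      refine ⟨⟨(-1 - P - ⌊-1 * ((P : ℝ) + d * y)⌋).toNat, by omega⟩, ?_⟩
      simp only [cell, hp, if_true, Bool.false_eq_true, if_false]
      omega
    · obtain ⟨a, b⟩ := key (1 * ((P : ℝ) + d * y)) P (P + d) (by linarith)
        (by push_cast; linarith)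
      refine ⟨⟨(⌊1 * ((P : ℝ) + d * y)⌋ - P).toNat, by omega⟩, ?_⟩
      simp only [cell, hp, if_true]
      omega
  · have hn : d < 0 := by omega
    have hn' : (d : ℝ) < 0 := by exact_mod_cast hn
    have h1 : d * y < 0 := mul_neg_of_neg_of_pos hn' hy0
    have h2 : d < d * y := by nlinarith
    cases e
    · obtain ⟨a, b⟩ := key (-1 * ((P : ℝ) + d * y)) (-P) (-P - d) (by push_cast; linarith)
        (by push_cast; linarith)
      refine ⟨⟨(⌊-1 * ((P : ℝ) + d * y)⌋ + P).toNat, by omega⟩, ?_⟩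
      simp only [cell, hp, Bool.false_eq_true, if_false]
      omega
    · obtain ⟨a, b⟩ := key (1 * ((P : ℝ) + d * y)) (P + d) P (by push_cast; linarith)
        (by linarith)
      refine ⟨⟨(P - 1 - ⌊1 * ((P : ℝ) + d * y)⌋).toNat, by omega⟩, ?_⟩
      simp only [cell, hp, if_true, if_false]
      omega

end Tiling

open Tiling

theorem complete_tiling {J : Type} [Fintype J] (L : ℕ) (hL : 0 < L) (hLe : Even L) (P d : J → ℤ)
    (hinj : Function.Injective (cellMap L P d)) :
    ∃ (R : ℕ) (Pf : Fin R → ℤ), 2 * (∑ I, (d I).natAbs) + 2 * R = L ∧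
      Function.Bijective (cellMap (J := J ⊕ Fin R) L (Sum.elim P Pf) (Sum.elim d fun _ => 1)) := by
  classical
  have : NeZero L := ⟨hL.ne'⟩
  set F : Finset (ZMod L) :=
    Finset.univ.filter (fun z => z ∉ Set.range (cellMap L P d) ∧ z.val < (-1 - z).val) with hF
  let e : Fin F.card ≃ F := F.equivFin.symm
  let Pf : Fin F.card → ℤ := fun f => (((e f : F) : ZMod L).val : ℤ)
  have hmem : ∀ f, ((e f : F) : ZMod L) ∉ Set.range (cellMap L P d) ∧
      ((e f : F) : ZMod L).val < (-1 - ((e f : F) : ZMod L)).val := fun f =>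
    (Finset.mem_filter.1 (e f).2).2
  have hstab : ∀ z, -1 - z ∈ Set.range (cellMap L P d) → z ∈ Set.range (cellMap L P d) := by
    rintro z ⟨⟨x, ε⟩, hx⟩
    exact ⟨(x, !ε), by rw [cellMap_not, hx]; ring⟩
  have hl : ∀ (I : J) (t : Fin (d I).natAbs) (ε : Bool),
      cellMap (J := J ⊕ Fin F.card) L (Sum.elim P Pf) (Sum.elim d fun _ => 1) (⟨.inl I, t⟩, ε)
        = cellMap L P d (⟨I, t⟩, ε) := fun _ _ _ => rfl
  have hr : ∀ (f : Fin F.card) (t : Fin (1 : ℤ).natAbs) (ε : Bool),
      cellMap (J := J ⊕ Fin F.card) L (Sum.elim P Pf) (Sum.elim d fun _ => 1) (⟨.inr f, t⟩, ε)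
        = if ε then ((e f : F) : ZMod L) else -1 - ((e f : F) : ZMod L) := by
    intro f t ε
    have ht : (t : ℕ) = 0 := by have := t.2; simp at this; omega
    change ((cell (Pf f) 1 t ε : ℤ) : ZMod L) = _
    rw [ht]
    cases ε <;> simp [cell, Pf]
  have hbij : Function.Bijective
      (cellMap (J := J ⊕ Fin F.card) L (Sum.elim P Pf) (Sum.elim d fun _ => 1)) := by
    constructor
    · rintro ⟨⟨I | f, t⟩, ε⟩ ⟨⟨I' | f', t'⟩, ε'⟩ h
      · rw [hl, hl] at h
        have := hinj h
        simp only [Prod.mk.injEq, Sigma.mk.injEq] at this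
        obtain ⟨⟨rfl, h2⟩, rfl⟩ := this
        rw [eq_of_heq h2]
      · exfalso
        rw [hl, hr] at h
        cases ε'
        · exact (hmem f').1 (hstab _ ⟨_, by simpa using h⟩)
        · exact (hmem f').1 ⟨_, by simpa using h⟩
      · exfalso
        rw [hl, hr] at h
        cases ε
        · exact (hmem f).1 (hstab _ ⟨_, by simpa using h.symm⟩)
        · exact (hmem f).1 ⟨_, by simpa using h.symm⟩
      · rw [hr, hr] at h
        have ht : ∀ s s' : Fin (1 : ℤ).natAbs, s = s' := fun s s' => by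
          ext
          have := s.2
          have := s'.2
          simp at *
        have h1 := (hmem f).2
        have h2 := (hmem f').2
        cases ε <;> cases ε' <;> simp only [Bool.false_eq_true, if_false, if_true] at h
        · have : e f = e f' := Subtype.ext (by linear_combination -h)
          obtain rfl := e.injective this
          rw [ht t t']
        · exfalso
          have h' : ((e f : F) : ZMod L) = -1 - ((e f' : F) : ZMod L) := by linear_combination -h
          rw [h] at h1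
          rw [← h'] at h2
          omega
        · exfalso
          have h' : ((e f' : F) : ZMod L) = -1 - ((e f : F) : ZMod L) := by linear_combination h
          rw [← h'] at h1
          rw [← h] at h2
          omega
        · have : e f = e f' := Subtype.ext h
          obtain rfl := e.injective this
          rw [ht t t']
    · intro z
      by_cases hz : z ∈ Set.range (cellMap L P d)
      · obtain ⟨⟨⟨I, t⟩, ε⟩, hx⟩ := hz
        exact ⟨(⟨.inl I, t⟩, ε), by rw [hl, hx]⟩
      · rcases lt_or_gt_of_ne (no_fix L hLe z) with h | h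
        · have hzF : z ∈ F := Finset.mem_filter.2 ⟨Finset.mem_univ _, hz, h⟩
          refine ⟨(⟨.inr (e.symm ⟨z, hzF⟩), ⟨0, by simp⟩⟩, true), ?_⟩
          rw [hr]; simp
        · have hzF : -1 - z ∈ F := Finset.mem_filter.2 ⟨Finset.mem_univ _,
            fun h' => hz (hstab _ h'), by simpa using h⟩
          refine ⟨(⟨.inr (e.symm ⟨-1 - z, hzF⟩), ⟨0, by simp⟩⟩, false), ?_⟩
          rw [hr]; simp
  refine ⟨F.card, Pf, ?_, hbij⟩
  have := Fintype.card_of_bijective hbij
  rw [card_dom, ZMod.card, Fintype.sum_sum_type] at this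
  simpa [mul_add] using this

theorem tiling_sum {J : Type} [Fintype J] (L : ℕ) (hL : 0 < L) (P d : J → ℤ)
    (htile : Function.Bijective (cellMap L P d)) (k : ℤ) :
    2 * (∑ I, ((|(d I / L : ℝ)| : ℝ) : ℂ) *
      ∫ y in (0 : ℝ)..1, ee (k * (P I / L + d I / L * y))).re = if k = 0 then 1 else 0 := by
  classical
  have : NeZero L := ⟨hL.ne'⟩
  have hL' : (0 : ℝ) < L := by exact_mod_cast hL
  split_ifs with hk
  · subst hk
    have hc := Fintype.card_of_bijective htile
    rw [card_dom, ZMod.card] at hc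
    simp only [Int.cast_zero, zero_mul, ee_zero, intervalIntegral.integral_const, sub_zero,
      one_smul, mul_one, Complex.re_sum, Complex.ofReal_re]
    simp_rw [abs_div, abs_of_pos hL']
    rw [← Finset.sum_div, ← mul_div_assoc, div_eq_one_iff_eq hL'.ne', ← hc]
    push_cast
    simp
  · set X := ∑ I, ((|(d I / L : ℝ)| : ℝ) : ℂ) *
      ∫ y in (0 : ℝ)..1, ee (k * (P I / L + d I / L * y)) with hX
    set c : ℂ := 2 * π * Complex.I * (k : ℝ) with hc
    have hc0 : c ≠ 0 := by
      have h1 : ((π : ℝ) : ℂ) ≠ 0 := by exact_mod_cast pi_ne_zero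
      have h2 : (((k : ℝ)) : ℂ) ≠ 0 := by exact_mod_cast hk
      exact mul_ne_zero (mul_ne_zero (mul_ne_zero two_ne_zero h1) Complex.I_ne_zero) h2
    have hcc : (starRingEnd ℂ) c = -c := by
      simp only [hc, map_mul, Complex.conj_ofReal, Complex.conj_I, map_ofNat]; ring
    let g : ZMod L → ℂ := fun z => ee (k * ((z.val : ℝ) / L))
    have hg : ∀ c : ℤ, g (c : ZMod L) = ee (k * ((c : ℝ) / L)) := fun c => ee_val L k c
    let H : ZMod L → ℂ := fun z => g (z + 1) - g z
    have hH : ∀ c : ℤ, H (c : ZMod L) = ee (k * (((c + 1 : ℤ) : ℝ) / L)) - ee (k * ((c : ℝ) / L)) := by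
      intro c
      rw [← hg, ← hg]
      simp [H]
    have hsum : ∑ z, H z = 0 := by
      rw [Finset.sum_sub_distrib, sub_eq_zero]
      exact Equiv.sum_comp (Equiv.addRight (1 : ZMod L)) g
    have h1 : c * X = ∑ x : (Σ I : J, Fin (d I).natAbs), H (cellMap L P d (x, true)) := by
      rw [hX, Finset.mul_sum, Fintype.sum_sigma]
      refine Finset.sum_congr rfl fun I _ => ?_
      rw [hc, arc_sum L hL]
      exact Finset.sum_congr rfl fun t _ => (hH _).symm
    have h2 : c * (starRingEnd ℂ) X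
        = ∑ x : (Σ I : J, Fin (d I).natAbs), H (cellMap L P d (x, false)) := by
      have : c * (starRingEnd ℂ) X = -(starRingEnd ℂ) (c * X) := by rw [map_mul, hcc]; ring
      rw [this, h1, map_sum, ← Finset.sum_neg_distrib]
      refine Finset.sum_congr rfl fun x _ => ?_
      simp only [cellMap]
      rw [hH, hH, map_sub, conj_ee, conj_ee, cell_false, neg_sub]
      congr 2 <;> push_cast <;> ring
    have h3 : c * (X + (starRingEnd ℂ) X) = 0 := by
      rw [mul_add, h1, h2, ← hsum, ← htile.sum_comp H, Fintype.sum_prod_type,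
        ← Finset.sum_add_distrib]
      simp
    have h4 := (mul_eq_zero.1 h3).resolve_left hc0
    rw [Complex.add_conj] at h4
    exact_mod_cast h4

theorem tiling_unique {J : Type} (L : ℕ) (hL : 0 < L) (P d : J → ℤ) (hd : ∀ I, d I ≠ 0)
    (hinj : Function.Injective (cellMap L P d)) (θ : ℝ) (I I' : J) (e e' : Bool) (n n' : ℤ)
    (y y' : ℝ) (hy : 0 < y ∧ y < 1) (hy' : 0 < y' ∧ y' < 1)
    (h : θ + n = (if e then 1 else -1) * (P I / L + d I / L * y))
    (h' : θ + n' = (if e' then 1 else -1) * (P I' / L + d I' / L * y')) :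
    I = I' ∧ e = e' ∧ n = n' := by
  have hL' : (L : ℝ) ≠ 0 := by exact_mod_cast hL.ne'
  obtain ⟨t, ht⟩ := floor_cell (P I) (d I) (hd I) y hy e
  obtain ⟨t', ht'⟩ := floor_cell (P I') (d I') (hd I') y' hy' e'
  have e1 : (if e then 1 else -1) * ((P I : ℝ) + d I * y) = θ * L + ((n * L : ℤ) : ℝ) := by
    push_cast
    rw [← add_mul, h]
    field_simp
  have e2 : (if e' then 1 else -1) * ((P I' : ℝ) + d I' * y') = θ * L + ((n' * L : ℤ) : ℝ) := by
    push_cast
    rw [← add_mul, h']
    field_simp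
  rw [e1, Int.floor_add_intCast] at ht
  rw [e2, Int.floor_add_intCast] at ht'
  have hc : cellMap L P d (⟨I, t⟩, e) = cellMap L P d (⟨I', t'⟩, e') := by
    simp only [cellMap]
    rw [← ht, ← ht']
    simp
  have := hinj hc
  simp only [Prod.mk.injEq, Sigma.mk.injEq] at this
  obtain ⟨⟨rfl, h2⟩, rfl⟩ := this
  obtain rfl := eq_of_heq h2
  refine ⟨rfl, rfl, ?_⟩
  have h3 : n * (L : ℤ) = n' * L := by omega
  exact mul_right_cancel₀ (by exact_mod_cast hL.ne') h3

end Crest.Agent.R75
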