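import Crest.Agent.R75.ArcSystemCore
import Crest.Agent.R75.Kernel
import Crest.Agent.R75.Tiling

/-! The smoothed arc system has modulus `1 + o(1)`. -/

set_option autoImplicit false

namespace Crest.Agent.R75

open Real

theorem arc_system {J : Type} [Fintype J] (L : ℕ) (hL : 0 < L) (P d : J → ℤ) (hd : ∀ I, d I ≠ 0)
    (htile : Function.Bijective (cellMap L P d)) (ρ : ℝ) (hρ : 0 < ρ) (hρ' : ρ < 1 / 4)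
    (s : J → ℝ → ℝ) (K : ℝ) (hsK : ∀ I y y', |s I y - s I y'| ≤ K * |y - y'|)
    (hs0 : ∀ I y, y ≤ 0 ∨ 1 ≤ y → s I y = 0) (hs1 : ∀ I y, 0 ≤ s I y ∧ s I y ≤ 1 - 2 * ρ)
    (ε : ℝ) (hε : 0 < ε) :
    ∃ N0 : ℕ, ∀ N : ℕ, N0 ≤ N → ∀ χ : J → ℝ → ℝ,
      (∀ I y y', |χ I y - χ I y'| ≤ K * |y - y'|) → (∀ I y, y ≤ 0 → χ I y = 0) →
      (∀ I y, 1 ≤ y → χ I y = χ I 1) →
      (∀ I, ∃ z : ℤ, (d I / L : ℝ) * N * (∫ t in (0 : ℝ)..1, s I t) + χ I 1 = z) →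
      ∃ (κ : Fin N → ℝ) (A : ℕ), (∀ j, 0 ≤ κ j ∧ κ j ≤ 1) ∧ ∀ z : ℂ, ‖z‖ = 1 →
        |‖∑ j : Fin N, ((κ j * (2 * (∑ I, arcCoeff (P I / L) (d I / L) N (s I) (χ I)
          (((j : ℕ) : ℝ) - A)).re) : ℝ) : ℂ) * z ^ (j : ℕ)‖ - 1| ≤ ε :=
  ArcSystem.core L hL P d hd ρ hρ' (fun C ε hε => kernel ρ hρ hρ' C ε hε)
    (tiling_sum L hL P d htile) (tiling_unique L hL P d hd htile.1) s K hsK hs0 hs1 ε hε

end Crest.Agent.R75
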