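import Crest.Agent.R75.Defs

/-! The smoothed arc system has modulus `1 + o(1)`: core argument, with the kernel and tiling
facts as hypotheses. -/

set_option autoImplicit false

namespace Crest.Agent.R75

open Real

namespace ArcSystem

/-- sign attached to a Boolean -/
noncomputable def sg (e : Bool) : ℝ := if e then 1 else -1

lemma sg_mul_self (e : Bool) : sg e * sg e = 1 := by cases e <;> simp [sg]

lemma abs_sg (e : Bool) : |sg e| = 1 := by cases e <;> simp [sg]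

/-- the phase of an arc -/
noncomputable def psi (p μ N : ℝ) (s χ : ℝ → ℝ) (x : ℝ) : ℝ :=
  μ * N * (∫ t in (0 : ℝ)..((x - p) / μ), s t) + χ ((x - p) / μ)

/-- the unimodular function carried by an arc or by its mirror image -/
noncomputable def U (p μ N : ℝ) (s χ : ℝ → ℝ) (e : Bool) (x : ℝ) : ℂ :=
  ee (-(sg e * psi p μ N s χ (sg e * x)))

lemma cont_of_lip {s : ℝ → ℝ} {K : ℝ} (h : ∀ y y', |s y - s y'| ≤ K * |y - y'|) :
    Continuous s := by
  have : LipschitzWith (Real.toNNReal K) s :=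
    LipschitzWith.of_dist_le' (fun x y => by simpa [Real.dist_eq] using h x y)
  exact this.continuous

lemma prim_taylor {s : ℝ → ℝ} {K : ℝ} (h : ∀ y y', |s y - s y'| ≤ K * |y - y'|) (y t : ℝ) :
    |(∫ r in (0 : ℝ)..(y + t), s r) - (∫ r in (0 : ℝ)..y, s r) - t * s y| ≤ |K| * t ^ 2 := by
  have hc := cont_of_lip h
  rw [intervalIntegral.integral_interval_sub_left (hc.intervalIntegrable _ _)
    (hc.intervalIntegrable _ _)]
  have h1 : t * s y = ∫ _ in y..(y + t), s y := by simp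
  rw [h1, ← intervalIntegral.integral_sub (hc.intervalIntegrable _ _)
    (continuous_const.intervalIntegrable _ _)]
  have h2 := intervalIntegral.norm_integral_le_of_norm_le_const (a := y) (b := y + t)
    (C := |K| * |t|) (f := fun r => s r - s y) (fun r hr => by
      rw [Real.norm_eq_abs]
      refine (h r y).trans ?_
      have h3 : |r - y| ≤ |t| := by
        rcases Set.mem_uIoc.1 hr with h4 | h4
        · rw [abs_le]; constructor <;> linarith [le_abs_self t, neg_abs_le t, h4.1, h4.2]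
        · rw [abs_le]; constructor <;> linarith [le_abs_self t, neg_abs_le t, h4.1, h4.2]
      calc K * |r - y| ≤ |K| * |r - y| := by gcongr; exact le_abs_self K
        _ ≤ |K| * |t| := by gcongr)
  rw [Real.norm_eq_abs] at h2
  refine h2.trans (le_of_eq ?_)
  rw [add_sub_cancel_left, mul_assoc, abs_mul_abs_self, sq]

lemma psi_est {s χ : ℝ → ℝ} {K : ℝ} (hs : ∀ y y', |s y - s y'| ≤ K * |y - y'|)
    (hχ : ∀ y y', |χ y - χ y'| ≤ K * |y - y'|) {p μ N L : ℝ} (hN : 0 ≤ N) (hL : 1 ≤ L * |μ|)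
    (x h : ℝ) :
    |psi p μ N s χ (x + h) - psi p μ N s χ x - N * s ((x - p) / μ) * h| ≤
      |K| * L * (N * h ^ 2 + |h|) := by
  have hμ : μ ≠ 0 := by rintro rfl; simp at hL; linarith
  have hμ' : 0 < |μ| := abs_pos.2 hμ
  have hL' : 1 / |μ| ≤ L := by rw [div_le_iff₀ hμ']; exact hL
  have e1 : (x + h - p) / μ = (x - p) / μ + h / μ := by ring
  set y := (x - p) / μ with hy
  have e2 : psi p μ N s χ (x + h) - psi p μ N s χ x - N * s y * h =
      μ * N * ((∫ r in (0 : ℝ)..(y + h / μ), s r) - (∫ r in (0 : ℝ)..y, s r) - h / μ * s y) +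
        (χ (y + h / μ) - χ y) := by
    simp only [psi, e1, ← hy]
    field_simp
    ring
  rw [e2]
  refine (abs_add_le _ _).trans ?_
  have h1 := prim_taylor hs y (h / μ)
  have h2 := hχ (y + h / μ) y
  rw [add_sub_cancel_left, abs_div] at h2
  have h3 : |μ * N * ((∫ r in (0 : ℝ)..(y + h / μ), s r) - (∫ r in (0 : ℝ)..y, s r) -
      h / μ * s y)| ≤ |K| * L * (N * h ^ 2) := by
    rw [abs_mul, abs_mul, abs_of_nonneg hN]
    calc |μ| * N * _ ≤ |μ| * N * (|K| * (h / μ) ^ 2) := by gcongr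
      _ = |K| * (1 / |μ|) * (N * h ^ 2) := by
        rw [div_pow, ← sq_abs μ]; field_simp
      _ ≤ |K| * L * (N * h ^ 2) := by gcongr
  have h4 : |χ (y + h / μ) - χ y| ≤ |K| * L * |h| := by
    calc _ ≤ K * (|h| / |μ|) := h2
      _ ≤ |K| * (|h| / |μ|) := by gcongr; exact le_abs_self K
      _ = |K| * (1 / |μ|) * |h| := by ring
      _ ≤ |K| * L * |h| := by gcongr
  linarith

lemma U_est {s χ : ℝ → ℝ} {K : ℝ} (hs : ∀ y y', |s y - s y'| ≤ K * |y - y'|)
    (hχ : ∀ y y', |χ y - χ y'| ≤ K * |y - y'|) {p μ N L : ℝ} (hN : 0 ≤ N) (hL : 1 ≤ L * |μ|)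
    (e : Bool) (x h : ℝ) :
    ‖U p μ N s χ e (x + h) - U p μ N s χ e x * ee (-(N * s ((sg e * x - p) / μ) * h))‖ ≤
      2 * π * (|K| * L) * (N * h ^ 2 + |h|) := by
  rw [U, U, ← ee_add]
  refine (norm_ee_sub_ee_le _ _).trans ?_
  have h1 := psi_est hs hχ (p := p) hN hL (sg e * x) (sg e * h)
  have e1 : -(sg e * psi p μ N s χ (sg e * (x + h))) -
      (-(sg e * psi p μ N s χ (sg e * x)) + -(N * s ((sg e * x - p) / μ) * h)) =
      -sg e * (psi p μ N s χ (sg e * x + sg e * h) - psi p μ N s χ (sg e * x) -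
        N * s ((sg e * x - p) / μ) * (sg e * h)) := by
    rw [mul_add]
    have := sg_mul_self e
    linear_combination (-(N * s ((sg e * x - p) / μ) * h)) * this
  rw [e1, abs_mul, abs_neg, abs_sg, one_mul, mul_assoc (2 * π)]
  have e2 : (sg e * h) ^ 2 = h ^ 2 := by rw [mul_pow, sq (sg e), sg_mul_self, one_mul]
  rw [e2, abs_mul (sg e), abs_sg, one_mul] at h1
  gcongr

lemma continuous_U {s χ : ℝ → ℝ} (hs : Continuous s) (hχ : Continuous χ) (p μ N : ℝ) (e : Bool) :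
    Continuous (U p μ N s χ e) := by
  have h1 : Continuous fun y : ℝ => ∫ t in (0 : ℝ)..y, s t :=
    intervalIntegral.continuous_primitive (fun a b => hs.intervalIntegrable a b) 0
  unfold U psi
  refine continuous_ee.comp ?_
  have h2 : Continuous fun x : ℝ => (sg e * x - p) / μ := by fun_prop
  exact (continuous_const.mul ((continuous_const.mul (h1.comp h2)).add (hχ.comp h2))).neg

lemma norm_U (p μ N : ℝ) (s χ : ℝ → ℝ) (e : Bool) (x : ℝ) : ‖U p μ N s χ e x‖ = 1 := norm_ee _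

lemma U_eq_one {s χ : ℝ → ℝ} (hs : Continuous s) (hs0 : ∀ y, y ≤ 0 ∨ 1 ≤ y → s y = 0)
    (hχ0 : ∀ y, y ≤ 0 → χ y = 0) (hχ1 : ∀ y, 1 ≤ y → χ y = χ 1) {p μ N : ℝ}
    (hz : ∃ z : ℤ, μ * N * (∫ t in (0 : ℝ)..1, s t) + χ 1 = z) (e : Bool) (x : ℝ)
    (hx : ¬ (0 < (sg e * x - p) / μ ∧ (sg e * x - p) / μ < 1)) : U p μ N s χ e x = 1 := by
  set y := (sg e * x - p) / μ with hy
  have key : ∃ z : ℤ, psi p μ N s χ (sg e * x) = z := by
    by_cases h0 : y ≤ 0
    · refine ⟨0, ?_⟩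
      have : ∫ t in (0 : ℝ)..y, s t = ∫ _ in (0 : ℝ)..y, (0 : ℝ) := by
        refine intervalIntegral.integral_congr (fun t ht => hs0 t (Or.inl ?_))
        rw [Set.uIcc_of_ge h0] at ht
        exact ht.2
      simp [psi, ← hy, this, hχ0 y h0]
    · have h1 : 1 ≤ y := by
        by_contra h1
        exact hx ⟨not_le.1 h0, not_le.1 h1⟩
      obtain ⟨z, hz⟩ := hz
      refine ⟨z, ?_⟩
      have h2 : ∫ t in (1 : ℝ)..y, s t = ∫ _ in (1 : ℝ)..y, (0 : ℝ) := by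
        refine intervalIntegral.integral_congr (fun t ht => hs0 t (Or.inr ?_))
        rw [Set.uIcc_of_le h1] at ht
        exact ht.1
      have h3 : ∫ t in (0 : ℝ)..y, s t = ∫ t in (0 : ℝ)..1, s t := by
        rw [← intervalIntegral.integral_add_adjacent_intervals (b := 1)
          (hs.intervalIntegrable _ _) (hs.intervalIntegrable _ _), h2]
        simp
      simp only [psi, ← hy, h3, hχ1 y h1, hz]
  obtain ⟨z, hz⟩ := key
  rw [U, hz]
  cases e
  · simp [sg]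
  · simpa [sg] using ee_intCast (-z)

/-- change of variables from the parameter of an arc to a long interval -/
lemma arc_integral {F : ℝ → ℂ} {p μ T₁ T₂ : ℝ} (hμ : μ ≠ 0)
    (hF : ∀ x, ¬ (0 < (x - p) / μ ∧ (x - p) / μ < 1) → F x = 0)
    (h₁ : T₁ ≤ p - |μ|) (h₂ : p + |μ| ≤ T₂) :
    ((|μ| : ℝ) : ℂ) * ∫ y in (0 : ℝ)..1, F (p + μ * y) = ∫ x in T₁..T₂, F x := by
  rw [intervalIntegral.integral_eq_integral_of_support_subset (a := T₁),
    intervalIntegral.integral_eq_integral_of_support_subset (a := 0)]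
  · rw [MeasureTheory.Measure.integral_comp_mul_left (fun x => F (p + x)) μ,
      MeasureTheory.integral_add_left_eq_self F p, Complex.real_smul, ← mul_assoc,
      ← Complex.ofReal_mul, ← abs_mul, mul_inv_cancel₀ hμ]
    simp
  · intro y hy
    by_contra hy'
    refine hy (hF _ ?_)
    rw [add_sub_cancel_left, mul_div_cancel_left₀ _ hμ]
    exact fun h => hy' ⟨h.1, h.2.le⟩
  · intro x hx
    have h : 0 < (x - p) / μ ∧ (x - p) / μ < 1 := by
      by_contra h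
      exact hx (hF x h)
    have h3 : |x - p| < |μ| := by
      have : x - p = μ * ((x - p) / μ) := by field_simp
      rw [this, abs_mul, abs_of_pos h.1]
      exact mul_lt_of_lt_one_right (abs_pos.2 hμ) h.2
    rw [abs_lt] at h3
    constructor <;> linarith [h3.1, h3.2]

/-- cutting a long interval into unit intervals -/
lemma cut_integral {V : ℝ → ℂ} (hV : Continuous V) (θ : ℝ) (n₀ : ℕ) (k : ℤ) :
    ee (-(k * θ)) * ∫ x in (θ - n₀ - 1 / 2)..(θ + n₀ + 1 / 2), ee (k * x) * V x =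
      ∑ m ∈ Finset.range (2 * n₀ + 1),
        ∫ h in (-1 / 2 : ℝ)..(1 / 2), V (θ + (((m : ℤ) - n₀ : ℤ) : ℝ) + h) * ee (k * h) := by
  have hc : Continuous fun x => ee (k * x) * V x := by fun_prop
  have h1 := intervalIntegral.sum_integral_adjacent_intervals
    (a := fun m : ℕ => θ - n₀ - 1 / 2 + m) (n := 2 * n₀ + 1) (μ := MeasureTheory.volume)
    (f := fun x => ee (k * x) * V x) (fun _ _ => hc.intervalIntegrable _ _)
  have e1 : θ - n₀ - 1 / 2 + ((0 : ℕ) : ℝ) = θ - n₀ - 1 / 2 := by simp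
  have e2 : θ - n₀ - 1 / 2 + ((2 * n₀ + 1 : ℕ) : ℝ) = θ + n₀ + 1 / 2 := by push_cast; ring
  simp only [e1, e2] at h1
  rw [← h1, Finset.mul_sum]
  refine Finset.sum_congr rfl (fun m _ => ?_)
  have h2 := intervalIntegral.integral_comp_add_left (a := -1 / 2) (b := 1 / 2)
    (fun x => ee (k * x) * V x) (θ + (((m : ℤ) - n₀ : ℤ) : ℝ))
  have e3 : θ + (((m : ℤ) - n₀ : ℤ) : ℝ) + -1 / 2 = θ - n₀ - 1 / 2 + m := by push_cast; ring
  have e4 : θ + (((m : ℤ) - n₀ : ℤ) : ℝ) + 1 / 2 = θ - n₀ - 1 / 2 + ((m + 1 : ℕ) : ℝ) := by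
    push_cast; ring
  rw [e3, e4] at h2
  rw [← h2, ← intervalIntegral.integral_const_mul]
  refine intervalIntegral.integral_congr (fun h _ => ?_)
  have e5 : (k : ℝ) * (θ + (((m : ℤ) - n₀ : ℤ) : ℝ) + h) =
      k * θ + k * h + ((k * ((m : ℤ) - n₀) : ℤ) : ℝ) := by push_cast; ring
  rw [e5, ee_add_int, ← mul_assoc, ← ee_add, neg_add_cancel_left, mul_comm]

lemma integral_ee_int (k : ℤ) :
    ∫ h in (-1 / 2 : ℝ)..(1 / 2), ee (k * h) = if k = 0 then 1 else 0 := by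
  split_ifs with hk
  · simp [hk]; norm_num
  · have hk' : (k : ℂ) ≠ 0 := by exact_mod_cast hk
    have hπ : (π : ℂ) ≠ 0 := by exact_mod_cast pi_ne_zero
    have hd : ∀ x : ℝ, HasDerivAt (fun h : ℝ => ee (k * h) / (2 * π * Complex.I * k))
        (ee (k * x)) x := by
      intro x
      have h1 := (hasDerivAt_ee (k * x)).scomp x ((hasDerivAt_id x).const_mul (k : ℝ))
      have h2 := h1.div_const (2 * π * Complex.I * k)
      have h3 : ((k : ℝ) * 1) • (2 * (π : ℂ) * Complex.I * ee (k * x)) /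
          (2 * π * Complex.I * k) = ee (k * x) := by
        simp only [mul_one, Complex.real_smul, Complex.ofReal_intCast]
        field_simp
      rw [h3] at h2
      exact h2
    rw [intervalIntegral.integral_eq_sub_of_hasDerivAt (fun x _ => hd x)
      ((by fun_prop : Continuous fun h : ℝ => ee (k * h)).intervalIntegrable _ _)]
    have e1 : (k : ℝ) * (1 / 2) = k * (-1 / 2) + k := by ring
    rw [e1, ee_add_int, sub_self]

lemma two_re_eq (f : ℝ → ℝ) (c : ℝ) :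
    ((2 * ((c : ℂ) * ∫ y in (0 : ℝ)..1, ee (f y)).re : ℝ) : ℂ) =
      ∑ e : Bool, (c : ℂ) * ∫ y in (0 : ℝ)..1, ee (sg e * f y) := by
  rw [← Complex.add_conj, Fintype.sum_bool]
  congr 1
  · simp [sg]
  · rw [map_mul, Complex.conj_ofReal, intervalIntegral.integral_of_le zero_le_one,
      intervalIntegral.integral_of_le zero_le_one, ← integral_conj]
    simp [sg, conj_ee]

lemma coeff_sub {s χ : ℝ → ℝ} (hs : Continuous s) (hχ : Continuous χ)
    (hs0 : ∀ y, y ≤ 0 ∨ 1 ≤ y → s y = 0)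
    (hχ0 : ∀ y, y ≤ 0 → χ y = 0) (hχ1 : ∀ y, 1 ≤ y → χ y = χ 1) {p μ N : ℝ} (hμ : μ ≠ 0)
    (hz : ∃ z : ℤ, μ * N * (∫ t in (0 : ℝ)..1, s t) + χ 1 = z) {T₁ T₂ : ℝ}
    (h₁ : T₁ ≤ -(|p| + |μ|)) (h₂ : |p| + |μ| ≤ T₂) (k : ℝ) (e : Bool) :
    ((|μ| : ℝ) : ℂ) * ∫ y in (0 : ℝ)..1,
        ee (sg e * (k * (p + μ * y) - μ * N * (∫ t in (0 : ℝ)..y, s t) - χ y)) =
      (((|μ| : ℝ) : ℂ) * ∫ y in (0 : ℝ)..1, ee (sg e * (k * (p + μ * y)))) +
        ∫ x in T₁..T₂, ee (k * x) * (U p μ N s χ e x - 1) := by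
  have hse : sg e ≠ 0 := by cases e <;> simp [sg]
  have habs : |sg e * μ| = |μ| := by rw [abs_mul, abs_sg, one_mul]
  have habs' : |sg e * p| = |p| := by rw [abs_mul, abs_sg, one_mul]
  have hU := continuous_U hs hχ p μ N e
  rw [← arc_integral (F := fun x => ee (k * x) * (U p μ N s χ e x - 1)) (p := sg e * p)
    (μ := sg e * μ) (mul_ne_zero hse hμ), habs, ← mul_add, ← intervalIntegral.integral_add]
  · congr 1
    refine intervalIntegral.integral_congr (fun y _ => ?_)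
    have e1 : sg e * (sg e * p + sg e * μ * y) = p + μ * y := by
      linear_combination (p + μ * y) * sg_mul_self e
    have e2 : (p + μ * y - p) / μ = y := by rw [add_sub_cancel_left, mul_div_cancel_left₀ _ hμ]
    have e3 : k * (sg e * p + sg e * μ * y) = sg e * (k * (p + μ * y)) := by ring
    simp only [U, psi, e1, e2, e3]
    rw [mul_sub (ee _), mul_one, add_sub_cancel, ← ee_add]
    congr 1
    ring
  · exact (by fun_prop : Continuous fun y : ℝ => ee (sg e * (k * (p + μ * y)))).intervalIntegrable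
      _ _
  · exact (by fun_prop : Continuous fun y : ℝ => ee (k * (sg e * p + sg e * μ * y)) *
      (U p μ N s χ e (sg e * p + sg e * μ * y) - 1)).intervalIntegrable _ _
  · intro x hx
    have e1 : (x - sg e * p) / (sg e * μ) = (sg e * x - p) / μ := by
      rw [div_eq_div_iff (mul_ne_zero hse hμ) hμ]
      linear_combination (-x * μ) * sg_mul_self e
    rw [e1] at hx
    rw [U_eq_one hs hs0 hχ0 hχ1 hz e x hx, sub_self, mul_zero]
  · rw [habs]; linarith [neg_abs_le (sg e * p)]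
  · rw [habs]; linarith [le_abs_self (sg e * p)]

lemma norm_one_add_sum {ι : Type} (S : Finset ι) (u : ι → ℂ) (hu : ∀ i, ‖u i‖ = 1)
    (h : ∀ i ∈ S, ∀ j ∈ S, u i ≠ 1 → u j ≠ 1 → i = j) : ‖1 + ∑ i ∈ S, (u i - 1)‖ = 1 := by
  by_cases h0 : ∃ i ∈ S, u i ≠ 1
  · obtain ⟨i, hi, hi'⟩ := h0
    rw [Finset.sum_eq_single_of_mem i hi, add_sub_cancel, hu]
    intro j hj hji
    by_contra hj'
    exact hji (h j hj i hi (fun h => hj' (by rw [h, sub_self])) hi')
  · push Not at h0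
    rw [Finset.sum_eq_zero (fun i hi => by rw [h0 i hi, sub_self]), add_zero, norm_one]

theorem core {J : Type} [Fintype J] (L : ℕ) (hL : 0 < L) (P d : J → ℤ) (hd : ∀ I, d I ≠ 0)
    (ρ : ℝ) (hρ' : ρ < 1 / 4)
    (hker : ∀ C ε : ℝ, 0 < ε → ∃ N0 : ℕ, ∀ N : ℕ, N0 ≤ N →
      ∃ (κ : Fin N → ℝ) (A : ℕ), (∀ j, 0 ≤ κ j ∧ κ j ≤ 1) ∧
      ∀ (u : ℝ → ℂ) (τ : ℝ), Continuous u → (∀ h, ‖u h‖ ≤ 1) → 0 ≤ τ → τ ≤ (1 - 2 * ρ) * N →
        (∀ h, ‖u h - u 0 * ee (-(τ * h))‖ ≤ C * (N * h ^ 2 + |h|)) →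
        ‖(∫ h in (-1 / 2 : ℝ)..(1 / 2),
            u h * ∑ j : Fin N, (κ j : ℂ) * ee ((((j : ℕ) : ℝ) - A) * h)) - u 0‖ ≤ ε)
    (hsum : ∀ k : ℤ, 2 * (∑ I, ((|(d I / L : ℝ)| : ℝ) : ℂ) *
      ∫ y in (0 : ℝ)..1, ee (k * (P I / L + d I / L * y))).re = if k = 0 then 1 else 0)
    (huniq : ∀ (θ : ℝ) (I I' : J) (e e' : Bool) (n n' : ℤ) (y y' : ℝ), (0 < y ∧ y < 1) →
      (0 < y' ∧ y' < 1) → θ + n = (if e then 1 else -1) * (P I / L + d I / L * y) →
      θ + n' = (if e' then 1 else -1) * (P I' / L + d I' / L * y') → I = I' ∧ e = e' ∧ n = n')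
    (s : J → ℝ → ℝ) (K : ℝ) (hsK : ∀ I y y', |s I y - s I y'| ≤ K * |y - y'|)
    (hs0 : ∀ I y, y ≤ 0 ∨ 1 ≤ y → s I y = 0) (hs1 : ∀ I y, 0 ≤ s I y ∧ s I y ≤ 1 - 2 * ρ)
    (ε : ℝ) (hε : 0 < ε) :
    ∃ N0 : ℕ, ∀ N : ℕ, N0 ≤ N → ∀ χ : J → ℝ → ℝ,
      (∀ I y y', |χ I y - χ I y'| ≤ K * |y - y'|) → (∀ I y, y ≤ 0 → χ I y = 0) →
      (∀ I y, 1 ≤ y → χ I y = χ I 1) →
      (∀ I, ∃ z : ℤ, (d I / L : ℝ) * N * (∫ t in (0 : ℝ)..1, s I t) + χ I 1 = z) →
      ∃ (κ : Fin N → ℝ) (A : ℕ), (∀ j, 0 ≤ κ j ∧ κ j ≤ 1) ∧ ∀ z : ℂ, ‖z‖ = 1 →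
        |‖∑ j : Fin N, ((κ j * (2 * (∑ I, arcCoeff (P I / L) (d I / L) N (s I) (χ I)
          (((j : ℕ) : ℝ) - A)).re) : ℝ) : ℂ) * z ^ (j : ℕ)‖ - 1| ≤ ε := by
  classical
  have hL1 : (1 : ℝ) ≤ L := by exact_mod_cast hL
  have hL0 : (0 : ℝ) < L := by linarith
  -- the cut-off
  set n₀ : ℕ := (∑ I, ((P I).natAbs + (d I).natAbs)) + 1 with hn₀
  have hn : ∀ I, |(P I / L : ℝ)| + |(d I / L : ℝ)| + 1 ≤ n₀ := by
    intro I
    have h1 : (P I).natAbs + (d I).natAbs ≤ ∑ I, ((P I).natAbs + (d I).natAbs) :=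
      Finset.single_le_sum (f := fun I => (P I).natAbs + (d I).natAbs)
        (fun _ _ => Nat.zero_le _) (Finset.mem_univ I)
    have h2 : ((P I).natAbs + (d I).natAbs + 1 : ℕ) ≤ n₀ := by omega
    have h3 : (((P I).natAbs + (d I).natAbs + 1 : ℕ) : ℝ) ≤ n₀ := by exact_mod_cast h2
    push_cast [Nat.cast_natAbs] at h3
    rw [abs_div, abs_div, abs_of_pos hL0]
    have h4 : |(P I : ℝ)| / L ≤ |(P I : ℝ)| := div_le_self (abs_nonneg _) hL1
    have h5 : |(d I : ℝ)| / L ≤ |(d I : ℝ)| := div_le_self (abs_nonneg _) hL1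
    linarith
  have hμ : ∀ I, (d I / L : ℝ) ≠ 0 := fun I =>
    div_ne_zero (by exact_mod_cast hd I) hL0.ne'
  have hLμ : ∀ I, (1 : ℝ) ≤ L * |(d I / L : ℝ)| := by
    intro I
    rw [abs_div, abs_of_pos hL0, mul_div_cancel₀ _ hL0.ne']
    have : (1 : ℤ) ≤ |d I| := Int.one_le_abs (hd I)
    exact_mod_cast this
  set S : Finset (J × Bool × ℕ) := Finset.univ ×ˢ Finset.univ ×ˢ Finset.range (2 * n₀ + 1)
    with hS
  set ε' : ℝ := ε / (1 + 2 * S.card) with hε'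
  have hε'0 : 0 < ε' := by positivity
  obtain ⟨N0, hN0⟩ := hker (2 * π * (|K| * L)) ε' hε'0
  refine ⟨N0, fun N hN χ hχK hχ0 hχ1 hz => ?_⟩
  obtain ⟨κ, A, hκ, hK⟩ := hN0 N hN
  refine ⟨κ, A, hκ, fun z hz1 => ?_⟩
  obtain ⟨θ', hθ0, hθ1, rfl⟩ := exists_ee_of_norm_one hz1
  set θ : ℝ := -θ' with hθ
  have hN0' : (0 : ℝ) ≤ N := Nat.cast_nonneg N
  set Kn : ℝ → ℂ := fun h => ∑ j : Fin N, (κ j : ℂ) * ee ((((j : ℕ) : ℝ) - A) * h) with hKn
  have hKc : Continuous Kn := by simp only [hKn]; fun_prop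
  set u : J × Bool × ℕ → ℝ → ℂ := fun i h =>
    U (P i.1 / L) (d i.1 / L) N (s i.1) (χ i.1) i.2.1
      (θ + (((i.2.2 : ℤ) - n₀ : ℤ) : ℝ) + h) with hu
  have hsc : ∀ I, Continuous (s I) := fun I => cont_of_lip (hsK I)
  have hχc : ∀ I, Continuous (χ I) := fun I => cont_of_lip (hχK I)
  have huc : ∀ i, Continuous (u i) := fun i =>
    (continuous_U (hsc _) (hχc _) _ _ _ _).comp (by fun_prop)
  -- kernel estimates
  have hK1 : ‖(∫ h in (-1 / 2 : ℝ)..(1 / 2), Kn h) - 1‖ ≤ ε' := by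
    have := hK (fun _ => 1) 0 continuous_const (fun _ => by simp) le_rfl
      (mul_nonneg (by linarith) hN0') (fun h => by simp; positivity)
    simpa using this
  have hK2 : ∀ i, ‖(∫ h in (-1 / 2 : ℝ)..(1 / 2), u i h * Kn h) - u i 0‖ ≤ ε' := by
    intro i
    refine hK (u i) (N * s i.1 ((sg i.2.1 * (θ + (((i.2.2 : ℤ) - n₀ : ℤ) : ℝ)) - P i.1 / L) /
      (d i.1 / L))) (huc i) (fun h => (norm_U _ _ _ _ _ _ _).le)
      (mul_nonneg hN0' (hs1 _ _).1) ?_ (fun h => ?_)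
    · rw [mul_comm]; exact mul_le_mul_of_nonneg_right (hs1 _ _).2 hN0'
    · simp only [hu, add_zero]
      exact U_est (hsK _) (hχK _) hN0' (hLμ _) _ _ _
  have hK3 : ∀ i, ‖(∫ h in (-1 / 2 : ℝ)..(1 / 2), (u i h - 1) * Kn h) - (u i 0 - 1)‖ ≤
      2 * ε' := by
    intro i
    have e1 : (∫ h in (-1 / 2 : ℝ)..(1 / 2), (u i h - 1) * Kn h) - (u i 0 - 1) =
        ((∫ h in (-1 / 2 : ℝ)..(1 / 2), u i h * Kn h) - u i 0) -
          ((∫ h in (-1 / 2 : ℝ)..(1 / 2), Kn h) - 1) := by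
      simp only [sub_mul, one_mul]
      rw [intervalIntegral.integral_sub (f := fun h => u i h * Kn h)
        (((huc i).mul hKc).intervalIntegrable _ _) (hKc.intervalIntegrable _ _)]
      ring
    rw [e1]
    refine (norm_sub_le _ _).trans ?_
    linarith [hK2 i]
  -- the coefficients
  have hcoef : ∀ k : ℤ, ee (-(k * θ)) *
      ((2 * (∑ I, arcCoeff (P I / L) (d I / L) N (s I) (χ I) k).re : ℝ) : ℂ) =
      (∫ h in (-1 / 2 : ℝ)..(1 / 2), ee (k * h)) +
        ∑ i ∈ S, ∫ h in (-1 / 2 : ℝ)..(1 / 2), (u i h - 1) * ee (k * h) := by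
    intro k
    have e1 : ((2 * (∑ I, arcCoeff (P I / L) (d I / L) N (s I) (χ I) k).re : ℝ) : ℂ) =
        (if k = 0 then 1 else 0) + ∑ I, ∑ e : Bool,
          ∫ x in (θ - n₀ - 1 / 2)..(θ + n₀ + 1 / 2),
            ee (k * x) * (U (P I / L) (d I / L) N (s I) (χ I) e x - 1) := by
      have e2 : ((if k = 0 then 1 else 0 : ℂ)) = ((if k = 0 then 1 else 0 : ℝ) : ℂ) := by
        split_ifs <;> simp
      rw [e2, ← hsum k, Complex.re_sum, Complex.re_sum, Finset.mul_sum, Finset.mul_sum,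
        Complex.ofReal_sum, Complex.ofReal_sum, ← Finset.sum_add_distrib]
      refine Finset.sum_congr rfl (fun I _ => ?_)
      rw [arcCoeff, two_re_eq, two_re_eq, ← Finset.sum_add_distrib]
      refine Finset.sum_congr rfl (fun e _ => ?_)
      exact coeff_sub (hsc I) (hχc I) (hs0 I) (hχ0 I) (hχ1 I) (hμ I) (hz I)
        (by linarith [hn I]) (by linarith [hn I]) k e
    rw [e1, mul_add, integral_ee_int, hS, Finset.sum_product, Finset.mul_sum]
    congr 1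
    · split_ifs with hk <;> simp [hk]
    · refine Finset.sum_congr rfl (fun I _ => ?_)
      rw [Finset.sum_product, Finset.mul_sum]
      refine Finset.sum_congr rfl (fun e _ => ?_)
      exact cut_integral (V := fun x => U (P I / L) (d I / L) N (s I) (χ I) e x - 1)
        ((continuous_U (hsc _) (hχc _) _ _ _ _).sub continuous_const) θ n₀ k
  have hpoly : ∑ j : Fin N, ((κ j * (2 * (∑ I, arcCoeff (P I / L) (d I / L) N (s I) (χ I)
      (((j : ℕ) : ℝ) - A)).re) : ℝ) : ℂ) * ee θ' ^ (j : ℕ) =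
      ee (A * θ') * ((∫ h in (-1 / 2 : ℝ)..(1 / 2), Kn h) +
        ∑ i ∈ S, ∫ h in (-1 / 2 : ℝ)..(1 / 2), (u i h - 1) * Kn h) := by
    have e1 : ∀ f : ℝ → ℂ, Continuous f → ∫ h in (-1 / 2 : ℝ)..(1 / 2), f h * Kn h =
        ∑ j : Fin N, (κ j : ℂ) *
          ∫ h in (-1 / 2 : ℝ)..(1 / 2), f h * ee ((((j : ℕ) : ℝ) - A) * h) := by
      intro f hf
      simp only [hKn, Finset.mul_sum]
      rw [intervalIntegral.integral_finsetSum (fun j _ => Continuous.intervalIntegrable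
        (by fun_prop) _ _)]
      refine Finset.sum_congr rfl (fun j _ => ?_)
      rw [← intervalIntegral.integral_const_mul]
      refine intervalIntegral.integral_congr (fun h _ => ?_)
      ring
    have e2 := e1 (fun _ => 1) continuous_const
    simp only [one_mul] at e2
    rw [e2, Finset.sum_congr rfl (fun i _ => e1 (fun h => u i h - 1)
      ((huc i).sub continuous_const)), Finset.sum_comm, ← Finset.sum_add_distrib, Finset.mul_sum]
    refine Finset.sum_congr rfl (fun j _ => ?_)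
    have e3 := hcoef ((j : ℕ) - A)
    push_cast at e3
    rw [← Finset.mul_sum, ← mul_add, ← e3, ← ee_nat_mul]
    have e4 : ee (((j : ℕ) : ℝ) * θ') = ee (A * θ') * ee (-((((j : ℕ) : ℝ) - A) * θ)) := by
      rw [← ee_add]; congr 1; rw [hθ]; ring
    rw [e4]
    push_cast
    ring
  rw [hpoly, norm_mul, norm_ee, one_mul]
  have hone : ‖1 + ∑ i ∈ S, (u i 0 - 1)‖ = 1 := by
    refine norm_one_add_sum S (fun i => u i 0) (fun i => norm_U _ _ _ _ _ _ _) ?_
    have key : ∀ i, u i 0 ≠ 1 → ∃ y : ℝ, (0 < y ∧ y < 1) ∧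
        θ + (((i.2.2 : ℤ) - n₀ : ℤ) : ℝ) =
          (if i.2.1 then 1 else -1) * (P i.1 / L + d i.1 / L * y) := by
      intro i hi
      refine ⟨(sg i.2.1 * (θ + (((i.2.2 : ℤ) - n₀ : ℤ) : ℝ)) - P i.1 / L) / (d i.1 / L), ?_, ?_⟩
      · by_contra h
        refine hi ?_
        simp only [hu, add_zero]
        exact U_eq_one (hsc _) (hs0 _) (hχ0 _) (hχ1 _) (hz _) _ _ h
      · rw [mul_div_cancel₀ _ (hμ _), add_sub_cancel, ← mul_assoc]
        change _ = sg i.2.1 * sg i.2.1 * _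
        rw [sg_mul_self, one_mul]
    rintro i - i' - hi hi'
    obtain ⟨y, hy, h⟩ := key i hi
    obtain ⟨y', hy', h'⟩ := key i' hi'
    obtain ⟨h1, h2, h3⟩ := huniq θ _ _ _ _ _ _ y y' hy hy' h h'
    refine Prod.ext h1 (Prod.ext h2 ?_)
    omega
  have hdiff : ‖((∫ h in (-1 / 2 : ℝ)..(1 / 2), Kn h) +
        ∑ i ∈ S, ∫ h in (-1 / 2 : ℝ)..(1 / 2), (u i h - 1) * Kn h) -
        (1 + ∑ i ∈ S, (u i 0 - 1))‖ ≤ ε := by
    rw [add_sub_add_comm, ← Finset.sum_sub_distrib]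
    refine (norm_add_le _ _).trans ?_
    have h1 := (norm_sum_le S _).trans (Finset.sum_le_card_nsmul S _ _ (fun i _ => hK3 i))
    rw [nsmul_eq_mul] at h1
    have h2 : ε' * (1 + 2 * S.card) = ε := div_mul_cancel₀ _ (by positivity)
    nlinarith
  have h3 := abs_norm_sub_norm_le ((∫ h in (-1 / 2 : ℝ)..(1 / 2), Kn h) +
        ∑ i ∈ S, ∫ h in (-1 / 2 : ℝ)..(1 / 2), (u i h - 1) * Kn h) (1 + ∑ i ∈ S, (u i 0 - 1))
  rw [hone] at h3
  exact h3.trans hdiff

end ArcSystem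

end Crest.Agent.R75
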