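import Crest.Agent.R75.Osc

/-! The contribution of one block of arcs, and sums over time slots. -/

set_option autoImplicit false

namespace Crest.Agent.R75

open Real

/-- the prescribed phase depending on the sign of the coefficient and on the direction -/
noncomputable def sgnPhase (f μ : ℝ) : ℝ :=
  (if f < 0 then 1 / 2 else 0) + if 0 < μ then 1 / 8 else -1 / 8

lemma two_re_le (z : ℂ) : |2 * z.re| ≤ 2 * ‖z‖ := by
  rw [abs_mul, abs_two]; gcongr; exact Complex.abs_re_le_norm z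

theorem block_sum {r : ℕ} {ι : Type} [Fintype ι] (m : ι → Fin r → ℤ) (f : ι → ℝ)
    (hF : ∀ φ : Fin r → ℝ, |∑ i, 2 * f i * cos (2 * π * ∑ l, (m i l : ℝ) * φ l)| ≤ 1)
    (n : ι → ℕ) (c : ι → ℤ) (α : Fin r → ℝ) (hα : ∀ i, ∑ l, (m i l : ℝ) * α l = c i / n i)
    (L : ℕ) (hL : 0 < L) (st : ι → ℕ) (hst : ∀ i, st i * n i = L) (k0 ν : Fin r → ℤ)
    (φ : ∀ i, Fin (n i) → ℝ)
    (hφ : ∀ i (k : ℤ), ∑ j : Fin (n i), ee ((k : ℝ) * (j : ℕ) / n i + φ i j) =
      (√(n i) : ℝ) * ee (c i * (k : ℝ) ^ 2 / n i))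
    (δ u : ℝ) (hu : 0 < u) (k : ℤ) (w θ ε₂ : ℝ) (hw0 : 0 ≤ w) (hw1 : w ≤ 1) (O : ι → ℂ)
    (hO : ∀ i, ‖O i - w * ee ((dot (m i) k0 / L : ℝ) * u * θ -
      if 0 < (dot (m i) k0 / L : ℝ) * u then 1 / 8 else -1 / 8)‖ ≤ ε₂)
    (a : ι → ℝ) (β t : ℝ) (hβ : 0 ≤ β) (ht : 0 ≤ t)
    (ha : ∀ i, β * |f i| ≤ √(n i) * a i ∧ √(n i) * a i ≤ (1 + t) * (β * |f i|)) :
    |2 * (∑ i, ∑ j : Fin (n i), (a i : ℂ) *
      ee (k * (((dot (m i) ν + ((j : ℕ) * st i : ℕ) : ℤ) : ℝ) / L + (dot (m i) k0 / L : ℝ) * δ) +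
        (φ i j + sgnPhase (f i) (dot (m i) k0 / L))) * O i).re| ≤
      β + 2 * t * β * ∑ i, |f i| + 2 * ε₂ * (1 + t) * β * ∑ i, |f i| := by
  have hLr : (0 : ℝ) < L := by exact_mod_cast hL
  have hn : ∀ i, (0 : ℝ) < n i := fun i => by
    have : 0 < n i := Nat.pos_of_ne_zero fun h => by have := hst i; rw [h] at this; omega
    exact_mod_cast this
  set Θ : Fin r → ℝ := fun l => k * ν l / L + k * δ * k0 l / L + (k : ℝ) ^ 2 * α l +
    u * θ * k0 l / L with hΘ
  set A : ι → ℝ := fun i => √(n i) * a i with hA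
  set μ : ι → ℝ := fun i => (dot (m i) k0 / L : ℝ) with hμ
  set ph : ι → ℝ := fun i => k * ((dot (m i) ν : ℝ) / L + μ i * δ) + c i * (k : ℝ) ^ 2 / n i +
    sgnPhase (f i) (μ i) with hph
  have hA0 : ∀ i, 0 ≤ A i := fun i => le_trans (by positivity) (ha i).1
  have h1 : ∀ i, ∑ j : Fin (n i), (a i : ℂ) *
      ee (k * (((dot (m i) ν + ((j : ℕ) * st i : ℕ) : ℤ) : ℝ) / L + μ i * δ) +
        (φ i j + sgnPhase (f i) (μ i))) * O i = (A i : ℂ) * ee (ph i) * O i := by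
    intro i
    have : ∀ j : Fin (n i), ee (k * (((dot (m i) ν + ((j : ℕ) * st i : ℕ) : ℤ) : ℝ) / L + μ i * δ) +
        (φ i j + sgnPhase (f i) (μ i))) =
        ee (k * ((dot (m i) ν : ℝ) / L + μ i * δ) + sgnPhase (f i) (μ i)) *
          ee ((k : ℝ) * (j : ℕ) / n i + φ i j) := by
      intro j
      rw [← ee_add]; congr 1
      have h2 : (st i : ℝ) = L / n i := by
        rw [eq_div_iff (hn i).ne']; exact_mod_cast hst i
      have := hn i
      push_cast; rw [h2]; field_simp; ring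
    simp_rw [this]
    rw [← Finset.sum_mul, ← Finset.mul_sum, ← Finset.mul_sum, hφ i k]
    simp only [hA, hph]
    rw [show k * ((dot (m i) ν : ℝ) / L + μ i * δ) + c i * (k : ℝ) ^ 2 / n i + sgnPhase (f i) (μ i)
      = (k * ((dot (m i) ν : ℝ) / L + μ i * δ) + sgnPhase (f i) (μ i)) + c i * (k : ℝ) ^ 2 / n i by
        ring, ee_add _ (c i * (k : ℝ) ^ 2 / n i)]
    push_cast; ring
  have h2 : ∀ i, ee (ph i) * ee (μ i * u * θ - if 0 < μ i * u then 1 / 8 else -1 / 8) =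
      ((if f i < 0 then -1 else 1 : ℝ) : ℂ) * ee (∑ l, (m i l : ℝ) * Θ l) := by
    intro i
    have e1 : ∑ l, (m i l : ℝ) * Θ l = k * ((dot (m i) ν : ℝ) / L + μ i * δ) +
        c i * (k : ℝ) ^ 2 / n i + μ i * u * θ := by
      have e2 : c i * (k : ℝ) ^ 2 / n i = (k : ℝ) ^ 2 * ∑ l, (m i l : ℝ) * α l := by
        rw [hα]; ring
      rw [e2]
      simp only [hΘ, hμ, dot, Int.cast_sum, Int.cast_mul, Finset.mul_sum, Finset.sum_div,
        Finset.sum_mul, mul_add, ← Finset.sum_add_distrib]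
      refine Finset.sum_congr rfl fun l _ => by ring
    have e3 : (0 < μ i * u) ↔ 0 < μ i := by
      constructor
      · intro h; by_contra h'; nlinarith [not_lt.1 h']
      · intro h; positivity
    rw [← ee_add, e1]
    simp only [hph, sgnPhase, e3]
    by_cases hf : f i < 0
    · simp only [hf, if_true]
      rw [show ∀ x y z : ℝ, x + (1 / 2 + y) + (z - y) = 1 / 2 + (x + z) from fun x y z => by ring,
        ee_add, ee_half]
      push_cast; ring
    · simp only [hf, if_false]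
      rw [show ∀ x y z : ℝ, x + (0 + y) + (z - y) = x + z from fun x y z => by ring]
      push_cast; ring
  simp only [hμ] at h1
  simp_rw [h1]
  set sg : ι → ℝ := fun i => if f i < 0 then -1 else 1 with hsg
  have hsgf : ∀ i, sg i * |f i| = f i := fun i => by
    simp only [hsg]; split_ifs with h
    · rw [abs_of_neg h]; ring
    · rw [abs_of_nonneg (not_lt.1 h)]; ring
  have hsg1 : ∀ i, |sg i| = 1 := fun i => by simp only [hsg]; split_ifs <;> simp
  have h3 : ∑ i, (A i : ℂ) * ee (ph i) * O i =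
      (∑ i, ((w * A i * sg i : ℝ) : ℂ) * ee (∑ l, (m i l : ℝ) * Θ l)) +
      ∑ i, (A i : ℂ) * ee (ph i) * (O i - w * ee (μ i * u * θ -
        if 0 < μ i * u then 1 / 8 else -1 / 8)) := by
    rw [← Finset.sum_add_distrib]
    refine Finset.sum_congr rfl fun i _ => ?_
    have := h2 i
    simp only [hsg]
    push_cast at this ⊢
    linear_combination (w * A i) * this
  have h4 : ‖∑ i, (A i : ℂ) * ee (ph i) * (O i - w * ee (μ i * u * θ -
        if 0 < μ i * u then 1 / 8 else -1 / 8))‖ ≤ ε₂ * (1 + t) * β * ∑ i, |f i| := by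
    rw [Finset.mul_sum]
    refine (norm_sum_le _ _).trans (Finset.sum_le_sum fun i _ => ?_)
    rw [norm_mul, norm_mul, norm_ee, Complex.norm_real, Real.norm_of_nonneg (hA0 i), mul_one]
    calc _ ≤ (1 + t) * (β * |f i|) * ε₂ :=
          mul_le_mul (ha i).2 (hO i) (norm_nonneg _) (by positivity)
      _ = _ := by ring
  have h5 : 2 * (∑ i, ((w * A i * sg i : ℝ) : ℂ) * ee (∑ l, (m i l : ℝ) * Θ l)).re =
      w * (β * ∑ i, 2 * f i * cos (2 * π * ∑ l, (m i l : ℝ) * Θ l) +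
        ∑ i, 2 * (A i - β * |f i|) * sg i * cos (2 * π * ∑ l, (m i l : ℝ) * Θ l)) := by
    rw [Complex.re_sum, Finset.mul_sum, Finset.mul_sum, ← Finset.sum_add_distrib, Finset.mul_sum]
    refine Finset.sum_congr rfl fun i _ => ?_
    rw [Complex.re_ofReal_mul, ee_re]
    linear_combination (2 * w * β * cos (2 * π * ∑ l, (m i l : ℝ) * Θ l)) * hsgf i
  have h6 : |∑ i, 2 * (A i - β * |f i|) * sg i * cos (2 * π * ∑ l, (m i l : ℝ) * Θ l)| ≤
      2 * t * β * ∑ i, |f i| := by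
    rw [Finset.mul_sum]
    refine (Finset.abs_sum_le_sum_abs _ _).trans (Finset.sum_le_sum fun i _ => ?_)
    rw [abs_mul, abs_mul, hsg1, mul_one, abs_of_nonneg (by linarith [(ha i).1])]
    have := abs_cos_le_one (2 * π * ∑ l, (m i l : ℝ) * Θ l)
    have h7 : 0 ≤ A i - β * |f i| := by linarith [(ha i).1]
    have h8 : A i - β * |f i| ≤ t * β * |f i| := by linarith [(ha i).2]
    nlinarith
  rw [h3, Complex.add_re, mul_add, h5]
  refine (abs_add_le _ _).trans (add_le_add ?_ ((two_re_le _).trans (by linarith)))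
  rw [abs_mul, abs_of_nonneg hw0]
  have h9 : |β * ∑ i, 2 * f i * cos (2 * π * ∑ l, (m i l : ℝ) * Θ l) +
        ∑ i, 2 * (A i - β * |f i|) * sg i * cos (2 * π * ∑ l, (m i l : ℝ) * Θ l)| ≤
      β + 2 * t * β * ∑ i, |f i| := by
    refine (abs_add_le _ _).trans (add_le_add ?_ h6)
    rw [abs_mul, abs_of_nonneg hβ]
    exact mul_le_of_le_one_right hβ (hF Θ)
  calc _ ≤ 1 * (β + 2 * t * β * ∑ i, |f i|) := mul_le_mul hw1 h9 (abs_nonneg _) zero_le_one
    _ = _ := one_mul _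

/-- at most one time slot is near a given point -/
lemma slot_unique {T : ℕ} (x lo Δ : ℝ) (hΔ : 0 < Δ) (b b' : Fin T)
    (h : lo < x - (b : ℕ) * Δ ∧ x - (b : ℕ) * Δ < lo + Δ)
    (h' : lo < x - (b' : ℕ) * Δ ∧ x - (b' : ℕ) * Δ < lo + Δ) : b = b' := by
  apply Fin.ext
  have h1 : ((b : ℕ) : ℝ) < (b' : ℕ) + 1 := by
    by_contra hc; nlinarith [not_lt.1 hc, h.1, h'.2]
  have h2 : ((b' : ℕ) : ℝ) < (b : ℕ) + 1 := by
    by_contra hc; nlinarith [not_lt.1 hc, h.2, h'.1]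
  have h1' : (b : ℕ) < b' + 1 := by exact_mod_cast h1
  have h2' : (b' : ℕ) < b + 1 := by exact_mod_cast h2
  omega

lemma sum_slots {T : ℕ} (a : Fin T → ℝ) (near : Fin T → Prop) (X Y : ℝ) (hX : 0 ≤ X) (hY : 0 ≤ Y)
    (huniq : ∀ b b', near b → near b' → b = b') (h1 : ∀ b, |a b| ≤ X)
    (h2 : ∀ b, ¬ near b → |a b| ≤ Y) : |∑ b, a b| ≤ X + T * Y := by
  classical
  by_cases h : ∃ b, near b
  · obtain ⟨b, hb⟩ := h
    rw [← Finset.add_sum_erase _ _ (Finset.mem_univ b)]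
    refine (abs_add_le _ _).trans (add_le_add (h1 b) ?_)
    refine (Finset.abs_sum_le_sum_abs _ _).trans ?_
    refine (Finset.sum_le_card_nsmul _ _ Y fun b' hb' => h2 b' fun hn =>
      (Finset.ne_of_mem_erase hb') (huniq _ _ hn hb)).trans ?_
    rw [nsmul_eq_mul]
    gcongr
    exact_mod_cast (Finset.card_le_univ _).trans (by simp)
  · push Not at h
    refine (Finset.abs_sum_le_sum_abs _ _).trans ?_
    refine (Finset.sum_le_card_nsmul _ _ Y fun b' _ => h2 b' (h b')).trans ?_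
    simp only [Finset.card_univ, Fintype.card_fin, nsmul_eq_mul]
    linarith

end Crest.Agent.R75
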