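import Crest.Agent.R75.Defs

/-! The Fresnel integral with a rate. -/

set_option autoImplicit false

namespace Crest.Agent.R75

open Real Filter Topology MeasureTheory

namespace Fresnel

lemma norm_gauss_le {b : ℂ} (hb : 0 ≤ b.re) (u : ℝ) : ‖Complex.exp (-b * (u : ℂ) ^ 2)‖ ≤ 1 := by
  rw [Complex.norm_exp, Real.exp_le_one_iff, ← Complex.ofReal_pow, Complex.re_mul_ofReal,
    Complex.neg_re]
  nlinarith [sq_nonneg u]

lemma tail {b : ℂ} (hb : 0 ≤ b.re) (hb1 : 1 ≤ ‖b‖) {R S : ℝ} (hR : 0 < R) (hRS : R ≤ S) :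
    ‖∫ u in R..S, Complex.exp (-b * (u : ℂ) ^ 2)‖ ≤ 1 / R := by
  have hb0 : b ≠ 0 := by rintro rfl; norm_num at hb1
  have hS : 0 < S := by linarith
  have hpos : ∀ u ∈ Set.uIcc R S, 0 < u := by
    intro u hu
    rw [Set.uIcc_of_le hRS] at hu
    linarith [hu.1]
  have hF : ∀ u ∈ Set.uIcc R S,
      HasDerivAt (fun u : ℝ => Complex.exp (-b * (u : ℂ) ^ 2) / (-2 * b * u))
        (Complex.exp (-b * (u : ℂ) ^ 2) + Complex.exp (-b * (u : ℂ) ^ 2) / (2 * b * u ^ 2)) u := by
    intro u hu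
    have hu0 : (u : ℂ) ≠ 0 := by exact_mod_cast (hpos u hu).ne'
    have h0 : HasDerivAt (fun u : ℝ => (u : ℂ)) 1 u := Complex.ofRealCLM.hasDerivAt
    have h1 := (((h0.pow 2).const_mul (-b)).cexp).div (h0.const_mul (-2 * b))
      (by simp [hb0, hu0])
    refine h1.congr_deriv ?_
    simp only [Pi.pow_apply, Nat.add_one_sub_one, pow_one]
    push_cast
    field_simp
    ring
  have c1 : Continuous fun u : ℝ => Complex.exp (-b * (u : ℂ) ^ 2) := by fun_prop
  have c2 : ContinuousOn (fun u : ℝ => Complex.exp (-b * (u : ℂ) ^ 2) / (2 * b * u ^ 2))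
      (Set.uIcc R S) := by
    refine c1.continuousOn.div (by fun_prop) fun u hu => ?_
    have hu0 : (u : ℂ) ≠ 0 := by exact_mod_cast (hpos u hu).ne'
    simp [hb0, hu0]
  have h1 := intervalIntegral.integral_eq_sub_of_hasDerivAt hF
    ((c1.intervalIntegrable _ _).add c2.intervalIntegrable)
  rw [intervalIntegral.integral_add (c1.intervalIntegrable _ _) c2.intervalIntegrable] at h1
  have hG : ∀ u ∈ Set.uIcc R S, HasDerivAt (fun u : ℝ => -(1 / (2 * u))) (1 / (2 * u ^ 2)) u := by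
    intro u hu
    have hu0 := (hpos u hu).ne'
    have := ((hasDerivAt_const u (1 : ℝ)).div ((hasDerivAt_id u).const_mul 2) (by simpa)).neg
    refine this.congr_deriv ?_
    simp only [id]
    field_simp
    ring
  have c3 : ContinuousOn (fun u : ℝ => 1 / (2 * u ^ 2)) (Set.uIcc R S) := by
    refine continuousOn_const.div (by fun_prop) fun u hu => ?_
    have := hpos u hu
    positivity
  have h2 := intervalIntegral.integral_eq_sub_of_hasDerivAt hG c3.intervalIntegrable
  have h3 : ‖∫ u in R..S, Complex.exp (-b * (u : ℂ) ^ 2) / (2 * b * u ^ 2)‖ ≤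
      ∫ u in R..S, 1 / (2 * u ^ 2) := by
    refine intervalIntegral.norm_integral_le_of_norm_le hRS
      (Eventually.of_forall fun u hu => ?_) c3.intervalIntegrable
    have hu0 : 0 < u := by linarith [hu.1]
    rw [norm_div, norm_mul, norm_mul, norm_pow, Complex.norm_real, Real.norm_eq_abs, sq_abs,
      Complex.norm_ofNat]
    refine div_le_div₀ zero_le_one (norm_gauss_le hb u) (by positivity) ?_
    nlinarith [sq_nonneg u]
  have h4 : ∀ u : ℝ, 0 < u → ‖Complex.exp (-b * (u : ℂ) ^ 2) / (-2 * b * u)‖ ≤ 1 / (2 * u) := by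
    intro u hu0
    rw [norm_div, norm_mul, norm_mul, Complex.norm_real, Real.norm_eq_abs, abs_of_pos hu0, norm_neg,
      Complex.norm_ofNat]
    refine div_le_div₀ zero_le_one (norm_gauss_le hb u) (by positivity) ?_
    nlinarith
  rw [eq_sub_of_add_eq h1]
  refine (norm_sub_le _ _).trans ?_
  have h5 := (norm_sub_le _ _).trans (add_le_add (h4 S hS) (h4 R hR))
  have e : 1 / R = 1 / (2 * R) + 1 / (2 * R) := by field_simp; norm_num
  rw [h2] at h3
  linarith

lemma approx {b : ℂ} (hb : 0 < b.re) (hb1 : 1 ≤ ‖b‖) {R : ℝ} (hR : 0 < R) :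
    ‖(∫ u in (-R)..R, Complex.exp (-b * (u : ℂ) ^ 2)) - ((π : ℂ) / b) ^ (1 / 2 : ℂ)‖ ≤ 2 / R := by
  have c1 : Continuous fun u : ℝ => Complex.exp (-b * (u : ℂ) ^ 2) := by fun_prop
  have hlim := intervalIntegral_tendsto_integral (integrable_cexp_neg_mul_sq hb)
    (tendsto_neg_atTop_atBot (G := ℝ)) tendsto_id
  rw [integral_gaussian_complex hb] at hlim
  refine le_of_tendsto ((hlim.const_sub
    (∫ u in (-R)..R, Complex.exp (-b * (u : ℂ) ^ 2))).norm) ?_
  filter_upwards [eventually_ge_atTop R] with S hS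
  have e1 : (∫ u in (-S)..(-R), Complex.exp (-b * (u : ℂ) ^ 2)) =
      ∫ u in R..S, Complex.exp (-b * (u : ℂ) ^ 2) := by
    rw [← intervalIntegral.integral_comp_neg (fun u : ℝ => Complex.exp (-b * (u : ℂ) ^ 2))]
    simp
  have e2 : (∫ u in (-S)..S, Complex.exp (-b * (u : ℂ) ^ 2)) =
      (∫ u in (-S)..(-R), Complex.exp (-b * (u : ℂ) ^ 2)) +
        (∫ u in (-R)..R, Complex.exp (-b * (u : ℂ) ^ 2)) +
        ∫ u in R..S, Complex.exp (-b * (u : ℂ) ^ 2) := by
    rw [intervalIntegral.integral_add_adjacent_intervals (c1.intervalIntegrable _ _)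
      (c1.intervalIntegrable _ _), intervalIntegral.integral_add_adjacent_intervals
      (c1.intervalIntegrable _ _) (c1.intervalIntegrable _ _)]
  have ht := tail hb.le hb1 hR hS
  simp only [id]
  rw [e2, e1]
  set T := ∫ u in R..S, Complex.exp (-b * (u : ℂ) ^ 2)
  set A := ∫ u in (-R)..R, Complex.exp (-b * (u : ℂ) ^ 2)
  rw [show A - (T + A + T) = -(T + T) by ring, norm_neg]
  have := norm_add_le T T
  have e : 2 / R = 1 / R + 1 / R := by ring
  linarith

end Fresnel

theorem fresnel (R : ℝ) (hR : 0 < R) :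
    ‖(∫ u in (-R)..R, ee (-u ^ 2 / 2)) - ee (-1 / 8)‖ ≤ 2 / R := by
  have hπ : (π : ℂ) ≠ 0 := by exact_mod_cast pi_ne_zero
  have hI : (π : ℂ) / ((0 : ℝ) + π * Complex.I) = -Complex.I := by
    simp only [Complex.ofReal_zero, zero_add]
    field_simp
    simp
  have c1 : Continuous fun s : ℝ =>
      ∫ u in (-R)..R, Complex.exp (-((s : ℂ) + π * Complex.I) * (u : ℂ) ^ 2) :=
    intervalIntegral.continuous_parametric_intervalIntegral_of_continuous' (by fun_prop) _ _
  have c2 : ContinuousAt (fun s : ℝ => ((π : ℂ) / ((s : ℂ) + π * Complex.I)) ^ (1 / 2 : ℂ)) 0 := by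
    refine ContinuousAt.cpow ?_ continuousAt_const ?_
    · refine continuousAt_const.div (by fun_prop) ?_
      simp [pi_ne_zero]
    · rw [hI]
      exact Or.inr (by simp)
  have hlim := ((c1.continuousAt.sub c2).norm.tendsto).mono_left
    (nhdsWithin_le_nhds (s := Set.Ioi (0 : ℝ)))
  have key := le_of_tendsto hlim (b := 2 / R) (by
    filter_upwards [self_mem_nhdsWithin] with s hs
    refine Fresnel.approx (by simpa using hs) ?_ hR
    have h1 := Complex.abs_im_le_norm ((s : ℂ) + π * Complex.I)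
    have h2 : ((s : ℂ) + π * Complex.I).im = π := by simp
    rw [h2, abs_of_pos pi_pos] at h1
    linarith [pi_gt_three])
  simp only [Pi.sub_apply] at key
  rw [hI] at key
  have e1 : (-Complex.I) ^ (1 / 2 : ℂ) = ee (-1 / 8) := by
    rw [Complex.cpow_def_of_ne_zero (by simp), Complex.log_neg_I, ee]
    congr 1
    push_cast
    ring
  have e2 : ∀ u : ℝ, Complex.exp (-(((0 : ℝ) : ℂ) + π * Complex.I) * (u : ℂ) ^ 2) =
      ee (-u ^ 2 / 2) := by
    intro u
    rw [ee]
    congr 1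
    push_cast
    ring
  rw [e1] at key
  simpa only [e2] using key

end Crest.Agent.R75
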