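import Crest.Agent.R75.Vdc
import Crest.Agent.R75.Fresnel

/-! Uniform stationary phase for a profile with steep ends. -/

set_option autoImplicit false

namespace Crest.Agent.R75

open Real

namespace Body

section
variable {Γ g g' : ℝ → ℝ}

lemma mono (hg : ∀ y, HasDerivAt g (g' y) y) (h1 : ∀ y, 1 ≤ g' y) {a b : ℝ} (hab : a ≤ b) :
    b - a ≤ g b - g a := by
  have hm : Monotone fun y => g y - y := by
    refine monotone_of_deriv_nonneg (fun y => ((hg y).sub (hasDerivAt_id y)).differentiableAt) ?_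
    intro y
    have : deriv (fun y => g y - y) y = g' y - 1 := ((hg y).sub (hasDerivAt_id y)).deriv
    rw [this]
    linarith [h1 y]
  have := hm hab
  simp only at this
  linarith

lemma d1 (hΓ : ∀ y, HasDerivAt Γ (g y) y) (lam x y : ℝ) :
    HasDerivAt (fun y => lam * (x * y - Γ y)) (lam * (x - g y)) y := by
  have := (((hasDerivAt_id y).const_mul x).sub (hΓ y)).const_mul lam
  simpa using this

lemma d2 (hg : ∀ y, HasDerivAt g (g' y) y) (lam x y : ℝ) :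
    HasDerivAt (fun y => lam * (x - g y)) (lam * (-g' y)) y := by
  have := ((hg y).const_sub x).const_mul lam
  simpa using this

lemma ii (hΓ : ∀ y, HasDerivAt Γ (g y) y) (lam x a b : ℝ) :
    IntervalIntegrable (fun y => ee (lam * (x * y - Γ y))) MeasureTheory.volume a b := by
  have : Continuous Γ := continuous_iff_continuousAt.2 fun y => (hΓ y).continuousAt
  exact Continuous.intervalIntegrable (by fun_prop) _ _

lemma v1 (hΓ : ∀ y, HasDerivAt Γ (g y) y) (hg : ∀ y, HasDerivAt g (g' y) y) (hc : Continuous g')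
    (h1 : ∀ y, 1 ≤ g' y) {lam x a b d : ℝ} (hlam : 0 < lam) (hab : a ≤ b) (hd : 0 < d)
    (h : ∀ y ∈ Set.Icc a b, d ≤ |x - g y|) :
    ‖∫ y in a..b, ee (lam * (x * y - Γ y))‖ ≤ 1 / (lam * d) := by
  refine vdc1 hab (mul_pos hlam hd) (d1 hΓ lam x) (d2 hg lam x) (by fun_prop)
    (Or.inr fun y _ => ?_) fun y hy => ?_
  · have := h1 y
    nlinarith
  · rw [abs_mul, abs_of_pos hlam]
    exact mul_le_mul_of_nonneg_left (h y hy) hlam.le

lemma v2 (hΓ : ∀ y, HasDerivAt Γ (g y) y) (hg : ∀ y, HasDerivAt g (g' y) y) (hc : Continuous g')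
    {lam x a b Λ : ℝ} (hlam : 0 < lam) (hab : a ≤ b) (hΛ : 0 < Λ)
    (h : ∀ y ∈ Set.Icc a b, Λ ^ 2 ≤ g' y) :
    ‖∫ y in a..b, ee (lam * (x * y - Γ y))‖ ≤ 4 / (√lam * Λ) := by
  have := vdc2 (lam := lam * Λ ^ 2) hab (by positivity) (d1 hΓ lam x) (d2 hg lam x) (by fun_prop)
    (Or.inr fun y hy => by have := h y hy; nlinarith)
  rwa [Real.sqrt_mul hlam.le, Real.sqrt_sq hΛ.le] at this

lemma taylor (hΓ : ∀ y, HasDerivAt Γ (g y) y) (hg : ∀ y, HasDerivAt g (g' y) y) {c H M : ℝ}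
    (hH : 0 ≤ H) (hM : 0 ≤ M) (hL : ∀ y ∈ Set.Icc (c - H) (c + H), |g' c - g' y| ≤ M * H)
    {y : ℝ} (hy : y ∈ Set.Icc (c - H) (c + H)) :
    |(g c * y - Γ y) - ((g c * c - Γ c) - g' c * (y - c) ^ 2 / 2)| ≤ M * H ^ 3 := by
  have hcm : c ∈ Set.Icc (c - H) (c + H) := ⟨by linarith, by linarith⟩
  have habs : ∀ y ∈ Set.Icc (c - H) (c + H), |y - c| ≤ H := fun y hy =>
    abs_le.2 ⟨by linarith [hy.1], by linarith [hy.2]⟩
  have s1 : ∀ y ∈ Set.Icc (c - H) (c + H), |g c - g y + g' c * (y - c)| ≤ M * H ^ 2 := by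
    intro y hy
    have := (convex_Icc (c - H) (c + H)).norm_image_sub_le_of_norm_hasDerivWithin_le
      (f := fun y => g c - g y + g' c * (y - c)) (f' := fun y => g' c - g' y) (C := M * H)
      (fun y _ => by
        have := ((hg y).const_sub (g c)).add
          (((hasDerivAt_id y).sub_const c).const_mul (g' c))
        exact (this.congr_deriv (by ring)).hasDerivWithinAt)
      (fun y hy => hL y hy) hcm hy
    simp only [sub_self, mul_zero, add_zero, sub_zero, Real.norm_eq_abs] at this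
    have h2 := mul_le_mul_of_nonneg_left (habs y hy) (mul_nonneg hM hH)
    nlinarith
  have := (convex_Icc (c - H) (c + H)).norm_image_sub_le_of_norm_hasDerivWithin_le
    (f := fun y => (g c * y - Γ y) + g' c * (y - c) ^ 2 / 2)
    (f' := fun y => g c - g y + g' c * (y - c)) (C := M * H ^ 2)
    (fun y _ => by
      have := (((hasDerivAt_id y).const_mul (g c)).sub (hΓ y)).add
        (((((hasDerivAt_id y).sub_const c).pow 2).const_mul (g' c)).div_const 2)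
      exact (this.congr_deriv (by simp; ring)).hasDerivWithinAt)
    (fun y hy => s1 y hy) hcm hy
  simp only [sub_self, Real.norm_eq_abs] at this
  have h2 := mul_le_mul_of_nonneg_left (habs y hy) (mul_nonneg hM (sq_nonneg H))
  have e : (g c * y - Γ y) - ((g c * c - Γ c) - g' c * (y - c) ^ 2 / 2) =
      g c * y - Γ y + g' c * (y - c) ^ 2 / 2 - (g c * c - Γ c + g' c * 0 ^ 2 / 2) := by ring
  rw [e]
  nlinarith

lemma gauss {lam a c H θ : ℝ} (hlam : 0 < lam) (ha : 1 ≤ a) (hH : 0 < H) :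
    ‖(√lam : ℝ) * (∫ y in (c - H)..(c + H), ee (lam * (θ - a * (y - c) ^ 2 / 2))) -
      ((1 / √a : ℝ) : ℂ) * ee (lam * θ - 1 / 8)‖ ≤ 2 / (√lam * H) := by
  have hs : 0 < √lam := Real.sqrt_pos.2 hlam
  have ha1 : 1 ≤ √a := Real.one_le_sqrt.2 ha
  set κ := √lam * √a with hκ
  have hκ0 : 0 < κ := by positivity
  have hκ2 : κ ^ 2 = lam * a := by
    rw [hκ, mul_pow, Real.sq_sqrt hlam.le, Real.sq_sqrt (by linarith)]
  have e1 : ∀ y, ee (lam * (θ - a * (y - c) ^ 2 / 2)) =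
      ee (lam * θ) * ee (-(κ * (y - c)) ^ 2 / 2) := by
    intro y
    rw [← ee_add, mul_pow, hκ2]
    congr 1
    ring
  have e2 : (∫ y in (c - H)..(c + H), ee (-(κ * (y - c)) ^ 2 / 2)) =
      ((κ⁻¹ : ℝ) : ℂ) * ∫ u in (-(κ * H))..(κ * H), ee (-u ^ 2 / 2) := by
    rw [intervalIntegral.integral_comp_sub_right (fun y => ee (-(κ * y) ^ 2 / 2)) c,
      intervalIntegral.integral_comp_mul_left (fun u => ee (-u ^ 2 / 2)) hκ0.ne']
    simp only [sub_sub_cancel_left, add_sub_cancel_left, mul_neg, Complex.real_smul]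
  simp_rw [e1]
  rw [intervalIntegral.integral_const_mul, e2]
  have e3 : ee (lam * θ - 1 / 8) = ee (lam * θ) * ee (-1 / 8) := by
    rw [← ee_add]; congr 1; ring
  have e4 : ((√lam : ℝ) : ℂ) * ((κ⁻¹ : ℝ) : ℂ) = ((1 / √a : ℝ) : ℂ) := by
    rw [← Complex.ofReal_mul]; congr 1; rw [hκ]; field_simp
  have e5 : ((√lam : ℝ) : ℂ) * (ee (lam * θ) * (((κ⁻¹ : ℝ) : ℂ) *
      ∫ u in (-(κ * H))..(κ * H), ee (-u ^ 2 / 2))) - ((1 / √a : ℝ) : ℂ) * ee (lam * θ - 1 / 8) =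
      ((1 / √a : ℝ) : ℂ) * ee (lam * θ) *
        ((∫ u in (-(κ * H))..(κ * H), ee (-u ^ 2 / 2)) - ee (-1 / 8)) := by
    rw [e3, ← e4]; ring
  rw [e5, norm_mul, norm_mul, norm_ee, mul_one, Complex.norm_real, Real.norm_eq_abs,
    abs_of_pos (by positivity)]
  have hf := fresnel (κ * H) (by positivity)
  have h1 : 1 / √a ≤ 1 := by rw [div_le_one (by linarith)]; exact ha1
  have h2 : 2 / (κ * H) ≤ 2 / (√lam * H) := by
    apply div_le_div_of_nonneg_left (by norm_num) (by positivity)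
    apply mul_le_mul_of_nonneg_right _ hH.le
    rw [hκ]; nlinarith
  calc _ ≤ 1 * (2 / (√lam * H)) := mul_le_mul h1 (hf.trans h2) (norm_nonneg _) zero_le_one
    _ = _ := one_mul _

lemma split (hΓ : ∀ y, HasDerivAt Γ (g y) y) (lam x a b : ℝ) :
    (∫ y in (0 : ℝ)..1, ee (lam * (x * y - Γ y))) =
      (∫ y in (0 : ℝ)..a, ee (lam * (x * y - Γ y))) + (∫ y in a..b, ee (lam * (x * y - Γ y))) +
        ∫ y in b..1, ee (lam * (x * y - Γ y)) := by
  rw [intervalIntegral.integral_add_adjacent_intervals (ii hΓ _ _ _ _) (ii hΓ _ _ _ _),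
    intervalIntegral.integral_add_adjacent_intervals (ii hΓ _ _ _ _) (ii hΓ _ _ _ _)]

lemma inside (hΓ : ∀ y, HasDerivAt Γ (g y) y) (hg : ∀ y, HasDerivAt g (g' y) y)
    (hc : Continuous g') (h1 : ∀ y, 1 ≤ g' y) {M lam c H : ℝ} (hM : 0 ≤ M)
    (hL : ∀ y ∈ Set.Icc (0 : ℝ) 1, ∀ y' ∈ Set.Icc (0 : ℝ) 1, |g' y - g' y'| ≤ M * |y - y'|)
    (hlam : 0 < lam) (hH : 0 < H) (hc0 : H ≤ c) (hc1 : c + H ≤ 1) :
    ‖(√lam : ℝ) * (∫ y in (0 : ℝ)..1, ee (lam * (g c * y - Γ y))) -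
      ((1 / √(g' c) : ℝ) : ℂ) * ee (lam * (g c * c - Γ c) - 1 / 8)‖ ≤
      4 / (√lam * H) + √lam * (4 * π * lam * M * H ^ 4) := by
  have hs : 0 < √lam := Real.sqrt_pos.2 hlam
  have hss : √lam * √lam = lam := Real.mul_self_sqrt hlam.le
  have a1 := v1 hΓ hg hc h1 (x := g c) (a := 0) (b := c - H) hlam (by linarith) hH
    (fun y hy => by
      have := mono hg h1 (show y ≤ c by linarith [hy.2])
      exact le_trans (by linarith [hy.2]) (le_abs_self _))
  have a3 := v1 hΓ hg hc h1 (x := g c) (a := c + H) (b := 1) hlam hc1 hH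
    (fun y hy => by
      have := mono hg h1 (show c ≤ y by linarith [hy.1])
      exact le_trans (by linarith [hy.1]) (neg_le_abs _))
  have a4 := gauss (c := c) (θ := g c * c - Γ c) hlam (h1 c) hH
  have a2 : ‖(∫ y in (c - H)..(c + H), ee (lam * (g c * y - Γ y))) -
      ∫ y in (c - H)..(c + H), ee (lam * ((g c * c - Γ c) - g' c * (y - c) ^ 2 / 2))‖ ≤
      4 * π * lam * M * H ^ 4 := by
    rw [← intervalIntegral.integral_sub (ii hΓ _ _ _ _)
      (Continuous.intervalIntegrable (by fun_prop) _ _)]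
    refine (intervalIntegral.norm_integral_le_of_norm_le_const (C := 2 * π * (lam * (M * H ^ 3)))
      fun y hy => ?_).trans (le_of_eq ?_)
    · rw [Set.uIoc_of_le (by linarith)] at hy
      have hy' : y ∈ Set.Icc (c - H) (c + H) := ⟨hy.1.le, hy.2⟩
      refine (norm_ee_sub_ee_le _ _).trans (mul_le_mul_of_nonneg_left ?_ (by positivity))
      rw [← mul_sub, abs_mul, abs_of_pos hlam]
      refine mul_le_mul_of_nonneg_left (taylor hΓ hg hH.le hM (fun y hy => ?_) hy') hlam.le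
      refine (hL c ⟨by linarith, by linarith⟩ y ⟨by linarith [hy.1], by linarith [hy.2]⟩).trans
        (mul_le_mul_of_nonneg_left (abs_le.2 ⟨by linarith [hy.2], by linarith [hy.1]⟩) hM)
    · rw [show c + H - (c - H) = 2 * H by ring, abs_of_pos (by positivity)]
      ring
  rw [split hΓ lam (g c) (c - H) (c + H)]
  set I1 := ∫ y in (0 : ℝ)..(c - H), ee (lam * (g c * y - Γ y))
  set I2 := ∫ y in (c - H)..(c + H), ee (lam * (g c * y - Γ y))
  set I3 := ∫ y in (c + H)..1, ee (lam * (g c * y - Γ y))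
  set J := ∫ y in (c - H)..(c + H), ee (lam * ((g c * c - Γ c) - g' c * (y - c) ^ 2 / 2))
  set W := ((1 / √(g' c) : ℝ) : ℂ) * ee (lam * (g c * c - Γ c) - 1 / 8)
  have e : ((√lam : ℝ) : ℂ) * (I1 + I2 + I3) - W =
      ((√lam : ℝ) : ℂ) * (I1 + (I2 - J) + I3) + (((√lam : ℝ) : ℂ) * J - W) := by ring
  rw [e]
  refine (norm_add_le _ _).trans ?_
  rw [norm_mul, Complex.norm_real, Real.norm_eq_abs, abs_of_pos hs]
  have b := norm_add₃_le (a := I1) (b := I2 - J) (c := I3)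
  have b2 := mul_le_mul_of_nonneg_left (b.trans (add_le_add (add_le_add a1 a2) a3)) hs.le
  have e2 : √lam * (1 / (lam * H)) = 1 / (√lam * H) := by
    field_simp
    rw [Real.sq_sqrt hlam.le]
  have e3 : 4 / (√lam * H) = 4 * (1 / (√lam * H)) := by ring
  have e4 : 2 / (√lam * H) = 2 * (1 / (√lam * H)) := by ring
  rw [mul_add, mul_add, e2] at b2
  linarith

lemma outside (hΓ : ∀ y, HasDerivAt Γ (g y) y) (hg : ∀ y, HasDerivAt g (g' y) y)
    (hc : Continuous g') (h1 : ∀ y, 1 ≤ g' y) {lam x ζ Λ : ℝ} (hlam : 0 < lam) (hζ : 0 < ζ)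
    (hζ' : ζ ≤ 1 / 4) (hΛ : 0 < Λ) (hl : ∀ y ∈ Set.Icc 0 ζ, Λ ^ 2 ≤ g' y)
    (hr : ∀ y ∈ Set.Icc (1 - ζ) 1, Λ ^ 2 ≤ g' y) (hx : x < g (ζ / 2) ∨ g (1 - ζ / 2) < x) :
    ‖(√lam : ℝ) * (∫ y in (0 : ℝ)..1, ee (lam * (x * y - Γ y)))‖ ≤ 8 / Λ + 2 / (√lam * ζ) := by
  have hs : 0 < √lam := Real.sqrt_pos.2 hlam
  have a1 := v2 hΓ hg hc (x := x) hlam hζ.le hΛ hl
  have a3 := v2 hΓ hg hc (x := x) hlam (by linarith) hΛ hr
  have a2 := v1 hΓ hg hc h1 (x := x) (a := ζ) (b := 1 - ζ) (d := ζ / 2) hlam (by linarith)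
    (by linarith) (fun y hy => by
      rcases hx with hx | hx
      · have := mono hg h1 (show ζ / 2 ≤ y by linarith [hy.1])
        exact le_trans (by linarith [hy.1]) (neg_le_abs _)
      · have := mono hg h1 (show y ≤ 1 - ζ / 2 by linarith [hy.2])
        exact le_trans (by linarith [hy.2]) (le_abs_self _))
  rw [split hΓ lam x ζ (1 - ζ), norm_mul, Complex.norm_real, Real.norm_eq_abs, abs_of_pos hs]
  refine (mul_le_mul_of_nonneg_left (norm_add₃_le.trans (add_le_add (add_le_add a1 a2) a3))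
    hs.le).trans (le_of_eq ?_)
  have : lam = √lam ^ 2 := (Real.sq_sqrt hlam.le).symm
  generalize √lam = s at this hs
  rw [this]
  field_simp
  ring

lemma abstract (hΓ : ∀ y, HasDerivAt Γ (g y) y) (hg : ∀ y, HasDerivAt g (g' y) y)
    (hc : Continuous g') (h1 : ∀ y, 1 ≤ g' y) {M ε : ℝ} (hM : 0 ≤ M) (hε : 0 < ε)
    (hL : ∀ y ∈ Set.Icc (0 : ℝ) 1, ∀ y' ∈ Set.Icc (0 : ℝ) 1, |g' y - g' y'| ≤ M * |y - y'|)
    (h0 : 2 * (16 / ε) ^ 2 ≤ g' 0) (h1' : 2 * (16 / ε) ^ 2 ≤ g' 1) :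
    ∃ lam0 : ℝ, ∀ x : ℝ, ∃ w θ : ℝ, 0 ≤ w ∧ w ≤ 1 ∧ ∀ lam : ℝ, lam0 ≤ lam →
      ‖(√lam : ℝ) * (∫ y in (0 : ℝ)..1, ee (lam * (x * y - Γ y))) - w * ee (lam * θ - 1 / 8)‖ ≤
        ε := by
  obtain ⟨ζ, hζ, hζ', hζM⟩ : ∃ ζ : ℝ, 0 < ζ ∧ ζ ≤ 1 / 4 ∧ M * ζ ≤ (16 / ε) ^ 2 := by
    refine ⟨min (1 / 4) ((16 / ε) ^ 2 / (M + 1)), by positivity, min_le_left _ _, ?_⟩
    have h2 := min_le_right (1 / 4) ((16 / ε) ^ 2 / (M + 1))
    have h3 : 0 < min (1 / 4) ((16 / ε) ^ 2 / (M + 1)) := by positivity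
    rw [le_div_iff₀ (by positivity)] at h2
    nlinarith
  set K := 8 / ε with hK
  have hK0 : 0 < K := by positivity
  set S := 4 / (ζ * ε) + 2 * K / ζ + 8 * π * M * K ^ 4 / ε with hS
  have p1 : 0 < 4 / (ζ * ε) := by positivity
  have p2 : 0 < 2 * K / ζ := by positivity
  have p3 : 0 ≤ 8 * π * M * K ^ 4 / ε := by positivity
  have hS0 : 0 < S := by positivity
  have hsq : ∀ lam, S ^ 2 ≤ lam → 0 < lam ∧ S ≤ √lam := fun lam h =>
    ⟨lt_of_lt_of_le (by positivity) h, Real.le_sqrt_of_sq_le h⟩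
  refine ⟨S ^ 2, fun x => ?_⟩
  by_cases hx : x < g (ζ / 2) ∨ g (1 - ζ / 2) < x
  · refine ⟨0, 0, le_rfl, zero_le_one, fun lam hlam => ?_⟩
    obtain ⟨hl0, hl1⟩ := hsq lam hlam
    have := outside hΓ hg hc h1 hl0 hζ hζ' (Λ := 16 / ε) (by positivity) (fun y hy => by
        have a := hL 0 ⟨le_rfl, zero_le_one⟩ y ⟨hy.1, by linarith [hy.2]⟩
        rw [zero_sub, abs_neg, abs_of_nonneg hy.1] at a
        have b := mul_le_mul_of_nonneg_left hy.2 hM
        linarith [le_abs_self (g' 0 - g' y)])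
      (fun y hy => by
        have a := hL 1 ⟨zero_le_one, le_rfl⟩ y ⟨by linarith [hy.1], hy.2⟩
        rw [abs_of_nonneg (show 0 ≤ 1 - y by linarith [hy.2])] at a
        have b := mul_le_mul_of_nonneg_left (show 1 - y ≤ ζ by linarith [hy.1]) hM
        linarith [le_abs_self (g' 1 - g' y)]) hx
    simp only [Complex.ofReal_zero, zero_mul, sub_zero]
    refine this.trans ?_
    have e1 : 8 / (16 / ε) = ε / 2 := by field_simp; norm_num
    have e2 : 2 / (√lam * ζ) ≤ ε / 2 := by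
      have : 4 / (ζ * ε) ≤ √lam := by linarith
      rw [div_le_iff₀ (by positivity)] at this
      rw [div_le_iff₀ (mul_pos (Real.sqrt_pos.2 hl0) hζ)]
      nlinarith
    linarith
  · rw [not_or, not_lt, not_lt] at hx
    have hgc : Continuous g := continuous_iff_continuousAt.2 fun y => (hg y).continuousAt
    obtain ⟨c, hcm, rfl⟩ := intermediate_value_Icc (show ζ / 2 ≤ 1 - ζ / 2 by linarith)
      hgc.continuousOn ⟨hx.1, hx.2⟩
    have ha1 : 1 ≤ √(g' c) := Real.one_le_sqrt.2 (h1 c)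
    refine ⟨1 / √(g' c), g c * c - Γ c, by positivity,
      by rw [div_le_one (by linarith)]; exact ha1, fun lam hlam => ?_⟩
    obtain ⟨hl0, hl1⟩ := hsq lam hlam
    have hs : 0 < √lam := Real.sqrt_pos.2 hl0
    have hH : K / √lam ≤ ζ / 2 := by
      have : 2 * K / ζ ≤ √lam := by linarith
      rw [div_le_iff₀ hζ] at this
      rw [div_le_iff₀ hs]
      nlinarith
    refine (inside hΓ hg hc h1 hM hL hl0 (H := K / √lam) (by positivity)
      (by linarith [hcm.1]) (by linarith [hcm.2])).trans ?_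
    have e1 : 4 / (√lam * (K / √lam)) = ε / 2 := by rw [hK]; field_simp; norm_num
    have e2 : √lam * (4 * π * lam * M * (K / √lam) ^ 4) = 4 * π * M * K ^ 4 / √lam := by
      have : lam = √lam ^ 2 := (Real.sq_sqrt hl0.le).symm
      generalize √lam = s at this hs
      rw [this]
      field_simp
    have e3 : 4 * π * M * K ^ 4 / √lam ≤ ε / 2 := by
      have : 8 * π * M * K ^ 4 / ε ≤ √lam := by linarith
      rw [div_le_iff₀ hε] at this
      rw [div_le_iff₀ hs]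
      nlinarith
    rw [e1, e2]
    linarith

end

end Body

theorem body (η ε : ℝ) (hη : 0 < η) (hε : 0 < ε) :
    ∃ (Γ g g' : ℝ → ℝ) (lam0 : ℝ), Γ 0 = 0 ∧ (∀ y, HasDerivAt Γ (g y) y) ∧
      (∀ y, HasDerivAt g (g' y) y) ∧ Continuous g' ∧ (∀ y, 1 ≤ g' y) ∧ g 0 = 0 ∧ g 1 ≤ 1 + η ∧
      ∀ x : ℝ, ∃ w θ : ℝ, 0 ≤ w ∧ w ≤ 1 ∧ ∀ lam : ℝ, lam0 ≤ lam →
        ‖(√lam : ℝ) * (∫ y in (0 : ℝ)..1, ee (lam * (x * y - Γ y))) - w * ee (lam * θ - 1 / 8)‖ ≤ ε := by
  obtain ⟨p, hp⟩ := exists_nat_ge (2 * (16 / ε) ^ 2 / η)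
  rw [div_le_iff₀ hη] at hp
  set Γ : ℝ → ℝ := fun y => y ^ 2 / 2 + η * y / 2 +
    η * ((2 * y - 1) ^ (2 * p + 2) - 1) / (4 * (2 * p + 2)) with hΓd
  set g : ℝ → ℝ := fun y => y + η * ((2 * y - 1) ^ (2 * p + 1) + 1) / 2 with hgd
  set g' : ℝ → ℝ := fun y => 1 + η * (2 * p + 1) * (2 * y - 1) ^ (2 * p) with hg'd
  have hlin : ∀ y : ℝ, HasDerivAt (fun y : ℝ => 2 * y - 1) 2 y := fun y => by
    simpa using ((hasDerivAt_id y).const_mul 2).sub_const 1
  have hΓ : ∀ y, HasDerivAt Γ (g y) y := by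
    intro y
    have := ((((hasDerivAt_id y).pow 2).div_const 2).add
      (((hasDerivAt_id y).const_mul η).div_const 2)).add
      ((((((hlin y).pow (2 * p + 2))).sub_const 1).const_mul η).div_const (4 * (2 * p + 2)))
    refine this.congr_deriv ?_
    simp only [hgd, id, Nat.add_succ_sub_one]
    push_cast
    field_simp
    ring
  have hg : ∀ y, HasDerivAt g (g' y) y := by
    intro y
    have := (hasDerivAt_id y).add
      ((((((hlin y).pow (2 * p + 1))).add_const 1).const_mul η).div_const 2)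
    refine this.congr_deriv ?_
    simp only [hg'd, Nat.add_succ_sub_one, add_zero]
    push_cast
    ring
  have hc : Continuous g' := by rw [hg'd]; fun_prop
  have h1 : ∀ y, 1 ≤ g' y := by
    intro y
    have : 0 ≤ (2 * y - 1) ^ (2 * p) := by rw [pow_mul]; positivity
    have : 0 ≤ η * (2 * p + 1) * (2 * y - 1) ^ (2 * p) := by positivity
    simp only [hg'd]
    linarith
  obtain ⟨M, hM⟩ : ∃ M : NNReal, LipschitzOnWith M g' (Set.Icc 0 1) := by
    have : ContDiff ℝ 1 g' := by rw [hg'd]; fun_prop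
    exact this.contDiffOn.exists_lipschitzOnWith one_ne_zero (convex_Icc 0 1) isCompact_Icc
  have hp0 : (0 : ℝ) ≤ p * η := by positivity
  obtain ⟨lam0, h⟩ := Body.abstract hΓ hg hc h1 M.2 hε
    (fun y hy y' hy' => by simpa [Real.dist_eq] using hM.dist_le_mul y hy y' hy')
    (by simp only [hg'd, mul_zero, zero_sub, pow_mul, neg_one_sq, one_pow]; nlinarith)
    (by
      simp only [hg'd, mul_one]
      rw [show (2 : ℝ) - 1 = 1 by norm_num, one_pow]
      nlinarith)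
  refine ⟨Γ, g, g', lam0, ?_, hΓ, hg, hc, h1, ?_, ?_, h⟩
  · have : (-1 : ℝ) ^ (2 * p + 2) = 1 := by rw [← mul_add_one, pow_mul]; simp
    simp [hΓd, this]
  · have : (-1 : ℝ) ^ (2 * p + 1) = -1 := by rw [pow_succ, pow_mul]; simp
    simp [hgd, this]
  · simp only [hgd, mul_one]
    rw [show (2 : ℝ) - 1 = 1 by norm_num, one_pow]
    linarith

end Crest.Agent.R75
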