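import Crest.Agent.R75.Defs

set_option autoImplicit false

namespace Crest.Agent.R75

open Real Finset

namespace Colouring

section moment
variable {F ι : Type} [Fintype F] [DecidableEq F] [Fintype ι] [DecidableEq ι] {ρ : ι → ℝ}

lemma E_ind (hsum : ∑ i, ρ i = 1) {S : Type} [Fintype S] (y : S → F) (hy : Function.Injective y)
    (t : S → ι) :
    ∑ c : F → ι, (∏ z, ρ (c z)) * (if ∀ s, c (y s) = t s then (1 : ℝ) else 0) = ∏ s, ρ (t s) := by
  have h1 : ∀ c : F → ι, (∏ z, ρ (c z)) * (if ∀ s, c (y s) = t s then (1 : ℝ) else 0) =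
      ∏ z, (ρ (c z) * ∏ s with y s = z, if c z = t s then (1 : ℝ) else 0) := by
    intro c
    rw [prod_mul_distrib, ← Fintype.prod_boole,
      ← prod_fiberwise univ y fun s => if c (y s) = t s then (1 : ℝ) else 0]
    congr 1
    refine prod_congr rfl fun z _ => prod_congr rfl fun s hs => ?_
    rw [(mem_filter.1 hs).2]
  simp only [h1]
  rw [← Fintype.prod_sum fun z k => ρ k * ∏ s with y s = z, if k = t s then (1 : ℝ) else 0,
    ← prod_fiberwise univ y fun s => ρ (t s)]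
  refine prod_congr rfl fun z _ => ?_
  by_cases h : ∃ s, y s = z
  · obtain ⟨s, rfl⟩ := h
    have : univ.filter (fun s' => y s' = y s) = {s} := by ext; simp [hy.eq_iff]
    simp [this]
  · have : univ.filter (fun s' => y s' = z) = ∅ := by simpa using h
    simp [this, hsum]

omit [DecidableEq ι] in
lemma sum_weight (hsum : ∑ i, ρ i = 1) : ∑ c : F → ι, ∏ z, ρ (c z) = 1 := by
  rw [← Fintype.prod_sum fun (_ : F) k => ρ k]; simp [hsum]

omit [DecidableEq ι] in
lemma prod_le_one' (hρ : ∀ i, 0 < ρ i) (hsum : ∑ i, ρ i = 1) {S : Type} [Fintype S] (t : S → ι) :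
    ∏ s, ρ (t s) ≤ 1 :=
  prod_le_one (fun _ _ => (hρ _).le) fun _ _ =>
    hsum ▸ single_le_sum (fun i _ => (hρ i).le) (mem_univ _)

open Classical in
lemma second_moment (hρ : ∀ i, 0 < ρ i) (hsum : ∑ i, ρ i = 1) {S V Z : Type} [Fintype S]
    [Fintype V] [Fintype Z] [DecidableEq Z] (y : V → S → F) (t : S → ι) (φ : V → Z) :
    ∑ c : F → ι, (∏ z, ρ (c z)) * ∑ z, (∑ n with φ n = z,
      ((if ∀ s, c (y n s) = t s then (1 : ℝ) else 0) - ∏ s, ρ (t s))) ^ 2 ≤
      (univ.filter fun p : V × V => φ p.1 = φ p.2 ∧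
        ¬ Function.Injective (Sum.elim (y p.1) (y p.2))).card := by
  set ϖ := ∏ s, ρ (t s) with hϖ
  have hϖ0 : 0 ≤ ϖ := prod_nonneg fun s _ => (hρ _).le
  have hϖ1 : ϖ ≤ 1 := prod_le_one' hρ hsum t
  have h1 : ∀ f : V → ℝ, ∑ z, (∑ n with φ n = z, f n) ^ 2 =
      ∑ p : V × V, if φ p.1 = φ p.2 then f p.1 * f p.2 else 0 := by
    intro f
    rw [Fintype.sum_prod_type, ← sum_fiberwise univ φ]
    refine sum_congr rfl fun z _ => ?_
    rw [sq, sum_mul_sum]
    refine sum_congr rfl fun n hn => ?_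
    rw [sum_filter]
    simp only [(mem_filter.1 hn).2, eq_comm]
  simp only [h1, mul_sum]
  rw [sum_comm, card_filter, Nat.cast_sum]
  refine sum_le_sum fun p _ => ?_
  by_cases hφ : φ p.1 = φ p.2
  swap
  · simp [hφ]
  simp only [hφ, if_true, true_and]
  by_cases hi : Function.Injective (Sum.elim (y p.1) (y p.2))
  · have e1 := E_ind hsum (y p.1) (hi.comp Sum.inl_injective) t
    have e2 := E_ind hsum (y p.2) (hi.comp Sum.inr_injective) t
    have e3 := E_ind hsum _ hi (Sum.elim t t)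
    have e4 := sum_weight (F := F) hsum
    rw [Fintype.prod_sum_type] at e3
    simp only [Sum.forall, Sum.elim_inl, Sum.elim_inr, ite_and, ← hϖ] at e1 e2 e3
    have : ∀ c : F → ι, (∏ z, ρ (c z)) *
        (((if ∀ s, c (y p.1 s) = t s then (1 : ℝ) else 0) - ϖ) *
          ((if ∀ s, c (y p.2 s) = t s then (1 : ℝ) else 0) - ϖ)) =
        (∏ z, ρ (c z)) * (if ∀ s, c (y p.1 s) = t s then
          (if ∀ s, c (y p.2 s) = t s then (1 : ℝ) else 0) else 0)
        - ϖ * ((∏ z, ρ (c z)) * if ∀ s, c (y p.1 s) = t s then (1 : ℝ) else 0)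
        - ϖ * ((∏ z, ρ (c z)) * if ∀ s, c (y p.2 s) = t s then (1 : ℝ) else 0)
        + ϖ * ϖ * ∏ z, ρ (c z) := fun c => by split_ifs <;> ring
    simp only [this, sum_add_distrib, sum_sub_distrib, ← mul_sum, e1, e2, e3, e4]
    simp [hi]
  · simp only [hi, not_false_eq_true, if_true, Nat.cast_one]
    refine le_trans ?_ (sum_weight (F := F) hsum).le
    refine sum_le_sum fun c _ => mul_le_of_le_one_right (prod_nonneg fun z _ => (hρ _).le) ?_
    split_ifs <;> nlinarith

omit [DecidableEq ι] in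
lemma exists_le_mean (hρ : ∀ i, 0 < ρ i) (hsum : ∑ i, ρ i = 1) (T : (F → ι) → ℝ) (K : ℝ)
    (h : ∑ c : F → ι, (∏ z, ρ (c z)) * T c ≤ K) : ∃ c, T c ≤ K := by
  by_contra! hc
  have hne : (univ : Finset (F → ι)).Nonempty := by
    by_contra h0
    have := sum_weight (F := F) hsum
    rw [not_nonempty_iff_eq_empty.1 h0] at this
    simp at this
  have := sum_lt_sum_of_nonempty hne fun c _ =>
    mul_lt_mul_of_pos_left (hc c) (prod_pos fun z (_ : z ∈ univ) => hρ (c z))
  rw [← sum_mul, sum_weight hsum, one_mul] at this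
  exact this.not_ge h

end moment

lemma card_fiber {V U : Type} [AddCommGroup V] [AddCommGroup U] [Fintype V] [Fintype U]
    [DecidableEq U] (f : V →+ U) (hf : Function.Surjective f) (u : U) :
    ((univ.filter fun n => f n = u).card : ℝ) = Fintype.card V / Fintype.card U := by
  have h1 : Fintype.card V = ∑ u' : U, (univ.filter fun n => f n = u').card :=
    card_eq_sum_card_fiberwise fun _ _ => mem_univ _
  have h2 : ∀ u', (univ.filter fun n => f n = u').card = (univ.filter fun n => f n = u).card :=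
    fun u' => AddMonoidHom.card_fiber_eq_of_mem_range f (hf u') (hf u)
  have h3 : (0 : ℝ) < Fintype.card U := by exact_mod_cast Fintype.card_pos
  simp only [h2, sum_const, card_univ, smul_eq_mul] at h1
  rw [h1, eq_div_iff h3.ne']; push_cast; ring

/-- Representative of the pair `{z, -1 - z}`. -/
def rep {D : ℕ} (z : ZMod D) : ZMod D := if z.val ≤ (-1 - z).val then z else -1 - z

lemma rep_symm {D : ℕ} [NeZero D] (z : ZMod D) : rep (-1 - z) = rep z := by
  unfold rep
  rw [sub_sub_cancel]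
  split_ifs with h1 h2 h2
  · exact ZMod.val_injective D (le_antisymm h1 h2)
  · rfl
  · rfl
  · omega

lemma rep_eq {D : ℕ} {z z' : ZMod D} (h : rep z = rep z') : z' = z ∨ z' = -1 - z := by
  unfold rep at h
  split_ifs at h
  · exact Or.inl h.symm
  · exact Or.inr (by rw [h]; ring)
  · exact Or.inr h.symm
  · exact Or.inl (by linear_combination h)

open Classical in
lemma count_bad {D : ℕ} [NeZero D] {S V Z : Type} [Fintype S] [Fintype V] [DecidableEq Z]
    (ℓ : S → V → ZMod D) (φ : V → Z) {N Φ Ψ : ℝ} (hN : 0 ≤ N) (hΦ : 0 ≤ Φ)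
    (h₁ : ∀ s s', s ≠ s' → ((univ.filter fun n => ℓ s' n = ℓ s n).card : ℝ) ≤ N ∧
      ((univ.filter fun n => ℓ s' n = -1 - ℓ s n).card : ℝ) ≤ N)
    (h₂ : ∀ z, ((univ.filter fun n => φ n = z).card : ℝ) ≤ Φ)
    (h₃ : ∀ z s u, ((univ.filter fun n => φ n = z ∧ ℓ s n = u).card : ℝ) ≤ Ψ) :
    ((univ.filter fun p : V × V => φ p.1 = φ p.2 ∧ ¬ Function.Injective
      (Sum.elim (fun s => rep (ℓ s p.1)) fun s => rep (ℓ s p.2))).card : ℝ) ≤
      2 * (Fintype.card S ^ 2 * (2 * N) * Φ) + Fintype.card V * (Fintype.card S ^ 2 * (2 * Ψ)) := by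
  let B : Finset V := univ.filter fun n => ∃ q : S × S, q.1 ≠ q.2 ∧ rep (ℓ q.1 n) = rep (ℓ q.2 n)
  have hB : (B.card : ℝ) ≤ Fintype.card S ^ 2 * (2 * N) := by
    have : B ⊆ univ.biUnion fun q : S × S => if q.1 ≠ q.2 then
        (univ.filter fun n => ℓ q.2 n = ℓ q.1 n) ∪ univ.filter fun n => ℓ q.2 n = -1 - ℓ q.1 n
        else ∅ := by
      intro n hn
      obtain ⟨q, h1, h2⟩ := (mem_filter.1 hn).2
      exact mem_biUnion.2 ⟨q, mem_univ _, by simpa [h1] using rep_eq h2⟩
    refine (Nat.cast_le.2 ((card_le_card this).trans card_biUnion_le)).trans ?_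
    rw [Nat.cast_sum]
    refine (sum_le_card_nsmul _ _ (2 * N) fun q _ => ?_).trans (by simp [sq])
    split_ifs with h
    · have := h₁ _ _ h
      refine (Nat.cast_le.2 (card_union_le _ _)).trans ?_
      push_cast; linarith [this.1, this.2]
    · simp; positivity
  let P₁ : Finset (V × V) := univ.filter fun p => p.1 ∈ B ∧ φ p.2 = φ p.1
  let P₂ : Finset (V × V) := univ.filter fun p => p.2 ∈ B ∧ φ p.1 = φ p.2
  let P₃ : Finset (V × V) := univ.filter fun p => φ p.2 = φ p.1 ∧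
    ∃ q : S × S, rep (ℓ q.1 p.1) = rep (ℓ q.2 p.2)
  have hrow : ∀ n, (∑ n', if n ∈ B ∧ φ n' = φ n then (1 : ℝ) else 0) ≤ if n ∈ B then Φ else 0 := by
    intro n
    split_ifs with h
    · simpa [h] using h₂ (φ n)
    · simp [h]
  have hBΦ : (∑ n, if n ∈ B then Φ else 0) ≤ Fintype.card S ^ 2 * (2 * N) * Φ := by
    rw [sum_ite_mem, univ_inter, sum_const, nsmul_eq_mul]
    exact mul_le_mul_of_nonneg_right hB hΦ
  have e₁ : (P₁.card : ℝ) ≤ Fintype.card S ^ 2 * (2 * N) * Φ := by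
    rw [card_filter, Nat.cast_sum, Fintype.sum_prod_type]
    push_cast
    exact (sum_le_sum fun n _ => hrow n).trans hBΦ
  have e₂ : (P₂.card : ℝ) ≤ Fintype.card S ^ 2 * (2 * N) * Φ := by
    rw [card_filter, Nat.cast_sum, Fintype.sum_prod_type_right]
    push_cast
    exact (sum_le_sum fun n _ => hrow n).trans hBΦ
  have e₃ : (P₃.card : ℝ) ≤ Fintype.card V * (Fintype.card S ^ 2 * (2 * Ψ)) := by
    rw [card_filter, Fintype.sum_prod_type, Nat.cast_sum]
    refine (sum_le_card_nsmul _ _ (Fintype.card S ^ 2 * (2 * Ψ)) fun n _ => ?_).trans (by simp)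
    rw [← card_filter]
    have : (univ.filter fun n' => φ n' = φ n ∧ ∃ q : S × S, rep (ℓ q.1 n) = rep (ℓ q.2 n')) ⊆
        univ.biUnion fun q : S × S => (univ.filter fun n' => φ n' = φ n ∧ ℓ q.2 n' = ℓ q.1 n) ∪
          univ.filter fun n' => φ n' = φ n ∧ ℓ q.2 n' = -1 - ℓ q.1 n := by
      intro n' hn
      obtain ⟨h1, q, h2⟩ := (mem_filter.1 hn).2
      exact mem_biUnion.2 ⟨q, mem_univ _, by simpa [h1] using rep_eq h2⟩
    refine (Nat.cast_le.2 ((card_le_card this).trans card_biUnion_le)).trans ?_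
    rw [Nat.cast_sum]
    refine (sum_le_card_nsmul _ _ (2 * Ψ) fun q _ => ?_).trans (by simp [sq])
    refine (Nat.cast_le.2 (card_union_le _ _)).trans ?_
    push_cast
    linarith [h₃ (φ n) q.2 (ℓ q.1 n), h₃ (φ n) q.2 (-1 - ℓ q.1 n)]
  have hsub : (univ.filter fun p : V × V => φ p.1 = φ p.2 ∧ ¬ Function.Injective
      (Sum.elim (fun s => rep (ℓ s p.1)) fun s => rep (ℓ s p.2))) ⊆ P₁ ∪ P₂ ∪ P₃ := by
    intro p hp
    obtain ⟨h1, h2⟩ := (mem_filter.1 hp).2
    obtain ⟨s, s', h3, h4⟩ := Function.not_injective_iff.1 h2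
    simp only [P₁, P₂, P₃, B, mem_union, mem_filter, mem_univ, true_and]
    rcases s with s | s <;> rcases s' with s' | s'
    · exact Or.inl (Or.inl ⟨⟨(s, s'), by simpa using h4, h3⟩, h1.symm⟩)
    · exact Or.inr ⟨h1.symm, (s, s'), h3⟩
    · exact Or.inr ⟨h1.symm, (s', s), h3.symm⟩
    · exact Or.inl (Or.inr ⟨⟨(s, s'), by simpa using h4, h3⟩, h1⟩)
  have := (card_le_card hsub).trans ((card_union_le _ _).trans
    (Nat.add_le_add_right (card_union_le _ _) _))
  have := (Nat.cast_le (α := ℝ)).2 this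
  push_cast at this
  linarith

lemma surj_of_ne {F V : Type} [Field F] [AddCommGroup V] [Module F V] (f : V →ₗ[F] F) {v : V}
    (h : f v ≠ 0) : Function.Surjective f := fun u => ⟨(u / f v) • v, by simp [h]⟩

end Colouring

open Colouring in
theorem colouring {r : ℕ} {ι : Type} [Fintype ι] [DecidableEq ι] (m a : ι → Fin r → ℤ)
    (h1 : ∀ i, ∃ l, m i l = 1) (ha : ∀ i, dot (m i) (a i) = 0)
    (ha' : ∀ i j, i ≠ j → dot (m i) (a j) ≠ 0)
    (ρ : ι → ℝ) (hρ : ∀ i, 0 < ρ i) (hsum : ∑ i, ρ i = 1) (η : ℝ) (hη : 0 < η)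
    (W : ℕ) (carry : Fin W → ι → ℤ) :
    ∃ (D : ℕ) (_ : NeZero D) (col : ZMod D → ι) (good : Finset (Fin W × (Fin r → ZMod D))),
      (∀ z, col (-1 - z) = col z) ∧
      (∀ b ∈ good, ∀ i, col (∑ l, (m i l : ZMod D) * b.2 l + (carry b.1 i : ZMod D)) = i) ∧
      (1 - η) * (W * (D : ℝ) ^ r * ∏ i, ρ i) ≤ good.card ∧
      (good.card : ℝ) ≤ (1 + η) * (W * (D : ℝ) ^ r * ∏ i, ρ i) ∧
      ∀ (i : ι) (σ : Fin W) (z : ZMod D),
        ((good.filter fun b => b.1 = σ ∧ ∑ l, (m i l : ZMod D) * b.2 l = z).card : ℝ) ≤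
          (1 + η) * ((D : ℝ) ^ r / D * (∏ i, ρ i) / ρ i) := by
  classical
  obtain ⟨P, hP⟩ : ∃ P, P = ∏ i, ρ i := ⟨_, rfl⟩
  have hP0 : 0 < P := hP ▸ prod_pos fun i _ => hρ i
  obtain ⟨k, hk⟩ : ∃ k : ℝ, k = Fintype.card ι := ⟨_, rfl⟩
  have hk0 : 0 ≤ k := hk ▸ Nat.cast_nonneg _
  obtain ⟨K, hK⟩ : ∃ K : ℝ, K = W * (6 * k ^ 2 + k * (6 * k ^ 2)) := ⟨_, rfl⟩
  have hK0 : 0 ≤ K := by rw [hK]; positivity
  obtain ⟨D, hD, hprime⟩ := Nat.exists_infinite_primes
    ((∑ q : ι × ι, (dot (m q.1) (a q.2)).natAbs) + 1 + ⌈4 * K / (η * P) ^ 2⌉₊ +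
      ⌈2 * k * K / (η * P) ^ 3⌉₊)
  have := Fact.mk hprime
  have hD0 : (0 : ℝ) < D := by exact_mod_cast hprime.pos
  have hD1 : 4 * K ≤ D * (η * P) ^ 2 := by
    rw [← div_le_iff₀ (by positivity)]
    exact (Nat.le_ceil _).trans (by exact_mod_cast (by omega))
  have hD2 : 2 * k * K ≤ D * (η * P) ^ 3 := by
    rw [← div_le_iff₀ (by positivity)]
    exact (Nat.le_ceil _).trans (by exact_mod_cast (by omega))
  let L : ι → (Fin r → ZMod D) →ₗ[ZMod D] ZMod D := fun i =>
    { toFun := fun n => ∑ l, (m i l : ZMod D) * n l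
      map_add' := fun x y => by simp [mul_add, sum_add_distrib]
      map_smul' := fun c x => by simp [mul_sum, mul_left_comm] }
  have hL : ∀ i n, ∑ l, (m i l : ZMod D) * n l = L i n := fun _ _ => rfl
  let v : ι → Fin r → ZMod D := fun j l => a j l
  have hv : ∀ i j, L i (v j) = (dot (m i) (a j) : ℤ) := fun i j => by simp [L, v, dot]
  have hv0 : ∀ i, L i (v i) = 0 := fun i => by simp [hv, ha]
  have hv1 : ∀ i j, i ≠ j → L i (v j) ≠ 0 := fun i j hij h => by
    rw [hv, ZMod.intCast_zmod_eq_zero_iff_dvd] at h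
    have h2 := Nat.le_of_dvd (Int.natAbs_pos.2 (ha' i j hij)) (Int.natCast_dvd.1 h)
    have h3 := single_le_sum (f := fun q : ι × ι => (dot (m q.1) (a q.2)).natAbs)
      (fun _ _ => Nat.zero_le _) (mem_univ (i, j))
    simp only at h3
    omega
  obtain ⟨M, hM⟩ : ∃ M : ℝ, M = (D : ℝ) ^ r := ⟨_, rfl⟩
  have hM0 : 0 < M := by rw [hM]; positivity
  have hV : (Fintype.card (Fin r → ZMod D) : ℝ) = M := by simp [hM]
  obtain ⟨N, hN⟩ : ∃ N : ℝ, N = M / D := ⟨_, rfl⟩
  have hN0 : 0 < N := by rw [hN]; positivity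
  have hfib : ∀ (f : (Fin r → ZMod D) →ₗ[ZMod D] ZMod D) (w : Fin r → ZMod D), f w ≠ 0 →
      ∀ u, ((univ.filter fun n => f n = u).card : ℝ) = N := fun f w hw u => by
    have := card_fiber f.toAddMonoidHom (surj_of_ne f hw) u
    rwa [hV, ZMod.card, ← hN] at this
  have hfibL : ∀ i u, ((univ.filter fun n => L i n = u).card : ℝ) = N := fun i u => by
    obtain ⟨l, hl⟩ := h1 i
    exact hfib (L i) (Pi.single l 1) (by simp [L, Pi.single_apply, hl]) u
  have hfib2 : ∀ i j, i ≠ j → ∀ z u,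
      ((univ.filter fun n => L i n = z ∧ L j n = u).card : ℝ) = N / D := fun i j hij z u => by
    have := card_fiber ((L i).prod (L j)).toAddMonoidHom (fun q =>
      ⟨(q.1 / L i (v j)) • v j + (q.2 / L j (v i)) • v i, by
        ext <;> simp [hv0, hv1 i j hij, hv1 j i hij.symm]⟩) (z, u)
    rw [hV, Fintype.card_prod, ZMod.card, Nat.cast_mul, ← div_div, ← hN] at this
    simpa using this
  have key : ∀ (S : Type) [Fintype S] (e : S → ι) (_ : Function.Injective e) (Z : Type)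
      [Fintype Z] [DecidableEq Z] (φ : (Fin r → ZMod D) → Z) (Φ : ℝ) (σ : Fin W), 0 < Φ →
      (∀ z, ((univ.filter fun n => φ n = z).card : ℝ) = Φ) →
      (∀ z s u, ((univ.filter fun n => φ n = z ∧ L (e s) n = u).card : ℝ) ≤ Φ / D) →
      ∑ c : ZMod D → ι, (∏ z, ρ (c z)) * ((∑ z, (((univ.filter fun n => φ n = z ∧
        ∀ s, c (rep (L (e s) n + carry σ (e s))) = e s).card : ℝ) - Φ * ∏ s, ρ (e s)) ^ 2) /
          (N * Φ)) ≤ 6 * k ^ 2 := by
    intro S _ e he Z _ _ φ Φ σ hΦ hφ hφ'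
    have h2 := (second_moment hρ hsum
      (fun n s => rep (L (e s) n + (carry σ (e s) : ZMod D))) e φ).trans
      (count_bad (fun s n => L (e s) n + (carry σ (e s) : ZMod D)) φ hN0.le hΦ.le (Ψ := Φ / D)
        (fun s s' hs => ?_) (fun z => (hφ z).le) fun z s u => ?_)
    · simp only [← mul_div_assoc, ← sum_div]
      rw [div_le_iff₀ (by positivity)]
      refine le_trans (le_of_eq ?_) (h2.trans ?_)
      · refine sum_congr rfl fun c _ => ?_
        congr 1
        refine sum_congr rfl fun z _ => ?_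
        rw [sum_sub_distrib, sum_const, nsmul_eq_mul, hφ, sum_boole, filter_filter]
      · have h3 : (Fintype.card S : ℝ) ≤ k := hk ▸ Nat.cast_le.2 (Fintype.card_le_of_injective e he)
        have h4 : (Fintype.card S : ℝ) ^ 2 ≤ k ^ 2 := by gcongr
        have h5 : M * (Φ / D) = N * Φ := by rw [hN]; ring
        rw [hV]
        calc _ = (Fintype.card S : ℝ) ^ 2 * (4 * (N * Φ) + 2 * (M * (Φ / D))) := by ring
          _ = (Fintype.card S : ℝ) ^ 2 * (6 * (N * Φ)) := by rw [h5]; ring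
          _ ≤ k ^ 2 * (6 * (N * Φ)) := by gcongr
          _ = _ := by ring
    · have hne : L (e s') (v (e s)) ≠ 0 := hv1 _ _ fun h => hs (he h).symm
      constructor
      · rw [← hfib (L (e s') - L (e s)) (v (e s)) (by simpa [hv0] using hne)
          (carry σ (e s) - carry σ (e s'))]
        refine le_of_eq (congrArg _ (congrArg _ (filter_congr fun n _ => ?_)))
        rw [LinearMap.sub_apply]
        constructor <;> intro h <;> linear_combination h
      · rw [← hfib (L (e s') + L (e s)) (v (e s)) (by simpa [hv0] using hne)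
          (-1 - carry σ (e s) - carry σ (e s'))]
        refine le_of_eq (congrArg _ (congrArg _ (filter_congr fun n _ => ?_)))
        rw [LinearMap.add_apply]
        constructor <;> intro h <;> linear_combination h
    · simpa only [eq_sub_iff_add_eq] using hφ' z s (u - carry σ (e s))
  let Q : ι → ℝ := fun i => ∏ s : {j // j ≠ i}, ρ s.1
  have hQ : ∀ i, P = ρ i * Q i := fun i => hP ▸ Fintype.prod_eq_mul_prod_subtype_ne ρ i
  have hQ0 : ∀ i, 0 < Q i := fun i => prod_pos fun s _ => hρ _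
  have hPQ : ∀ i, P ≤ Q i := fun i => by
    rw [hQ i]
    exact mul_le_of_le_one_left (hQ0 i).le
      (hsum ▸ single_le_sum (fun i _ => (hρ i).le) (mem_univ i))
  let Y : (ZMod D → ι) → Fin W → ℝ := fun c σ =>
    (univ.filter fun n => ∀ j, c (rep (L j n + carry σ j)) = j).card
  let X : (ZMod D → ι) → ι → Fin W → ZMod D → ℝ := fun c i σ z =>
    (univ.filter fun n => L i n = z ∧
      ∀ s : {j // j ≠ i}, c (rep (L s.1 n + carry σ s.1)) = s.1).card
  obtain ⟨c, hc⟩ := exists_le_mean hρ hsum (fun c : ZMod D → ι => ∑ σ, ((Y c σ - M * P) ^ 2 / (N * M)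
      + ∑ i, (∑ z, (X c i σ z - N * Q i) ^ 2) / (N * N))) K (by
    simp only [mul_sum, mul_add]
    rw [sum_comm, hK]
    refine (sum_le_card_nsmul _ _ (6 * k ^ 2 + k * (6 * k ^ 2)) fun σ _ => ?_).trans
      (by simp [mul_add])
    rw [sum_add_distrib, sum_comm (s := univ) (t := (univ : Finset ι))]
    refine add_le_add ?_ ((sum_le_card_nsmul _ _ (6 * k ^ 2) fun i _ => ?_).trans (by simp [hk]))
    · have := key ι id Function.injective_id Unit (fun _ => ()) M σ hM0 (fun _ => by simpa using hV)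
        fun z s u => by rw [← hN, ← hfibL s u]; simp
      simpa [hP] using this
    · exact key {j // j ≠ i} Subtype.val Subtype.val_injective (ZMod D) (L i) N σ hN0 (hfibL i)
        fun z s u => (hfib2 i s.1 s.2.symm z u).le)
  have hnn : ∀ σ i, 0 ≤ (∑ z, (X c i σ z - N * Q i) ^ 2) / (N * N) := fun σ i => by positivity
  have hσ : ∀ σ, (Y c σ - M * P) ^ 2 / (N * M)
      + ∑ i, (∑ z, (X c i σ z - N * Q i) ^ 2) / (N * N) ≤ K := fun σ =>
    (single_le_sum (f := fun σ => (Y c σ - M * P) ^ 2 / (N * M)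
      + ∑ i, (∑ z, (X c i σ z - N * Q i) ^ 2) / (N * N))
      (fun σ _ => add_nonneg (by positivity) (sum_nonneg fun i _ => hnn σ i)) (mem_univ σ)).trans hc
  have hY : ∀ σ, |Y c σ - M * P| ≤ η * P * M / 2 := fun σ => by
    have h2 : (Y c σ - M * P) ^ 2 / (N * M) ≤ K :=
      le_trans (le_add_of_nonneg_right (sum_nonneg fun i _ => hnn σ i)) (hσ σ)
    rw [div_le_iff₀ (by positivity)] at h2
    refine abs_le_of_sq_le_sq' (h2.trans ?_) (by positivity) |> abs_le.2
    rw [hN, div_mul_eq_mul_div, ← mul_div_assoc, div_le_iff₀ hD0]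
    nlinarith [mul_le_mul_of_nonneg_right hD1 (mul_pos hM0 hM0).le]
  have hX : ∀ σ i, ((univ.filter fun z => (1 + η) * (N * Q i) < X c i σ z).card : ℝ) ≤
      K / (η * P) ^ 2 := fun σ i => by
    have h2 : (∑ z, (X c i σ z - N * Q i) ^ 2) / (N * N) ≤ K :=
      le_trans ((single_le_sum (fun i _ => hnn σ i) (mem_univ i)).trans
        (le_add_of_nonneg_left (by positivity))) (hσ σ)
    rw [div_le_iff₀ (by positivity)] at h2
    have h3 := card_nsmul_le_sum (univ.filter fun z => (1 + η) * (N * Q i) < X c i σ z)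
      (fun z => (X c i σ z - N * Q i) ^ 2) ((η * P * N) ^ 2) fun z hz => by
        have h4 := (mem_filter.1 hz).2
        have h5 : η * P * N ≤ η * Q i * N := by gcongr; exact hPQ i
        exact pow_le_pow_left₀ (by positivity) (by linarith) 2
    have h4 := h3.trans ((sum_le_univ_sum_of_nonneg fun z => sq_nonneg _).trans h2)
    rw [nsmul_eq_mul] at h4
    rw [le_div_iff₀ (by positivity)]
    exact le_of_mul_le_mul_right (by nlinarith) (mul_pos hN0 hN0)
  let G : Fin W → Finset (Fin r → ZMod D) := fun σ => univ.filter fun n =>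
    (∀ j, c (rep (L j n + carry σ j)) = j) ∧ ∀ i, X c i σ (L i n) ≤ (1 + η) * (N * Q i)
  have hG1 : ∀ σ, ((G σ).card : ℝ) ≤ Y c σ := fun σ =>
    Nat.cast_le.2 (card_le_card (monotone_filter_right _ fun n _ h => h.1))
  have hG2 : ∀ σ, Y c σ ≤ (G σ).card + η * P * M / 2 := fun σ => by
    have h2 : (univ.filter fun n => ∀ j, c (rep (L j n + carry σ j)) = j) ⊆ G σ ∪
        univ.biUnion fun i => (univ.filter fun z => (1 + η) * (N * Q i) < X c i σ z).biUnion
          fun z => univ.filter fun n => L i n = z := by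
      intro n hn
      by_cases h : ∀ i, X c i σ (L i n) ≤ (1 + η) * (N * Q i)
      · exact mem_union_left _ (mem_filter.2 ⟨mem_univ _, (mem_filter.1 hn).2, h⟩)
      · obtain ⟨i, hi⟩ := not_forall.1 h
        exact mem_union_right _ (mem_biUnion.2 ⟨i, mem_univ _, mem_biUnion.2
          ⟨L i n, by simpa using hi, by simp⟩⟩)
    have h3 := (Nat.cast_le (α := ℝ)).2 ((card_le_card h2).trans ((card_union_le _ _).trans
      (Nat.add_le_add_left (card_biUnion_le.trans (sum_le_sum fun i _ => card_biUnion_le)) _)))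
    push_cast at h3
    simp only [hfibL, sum_const, nsmul_eq_mul] at h3
    refine h3.trans (add_le_add_right ?_ _)
    refine (sum_le_card_nsmul _ _ (K / (η * P) ^ 2 * N) fun i _ =>
      mul_le_mul_of_nonneg_right (hX σ i) hN0.le).trans ?_
    rw [nsmul_eq_mul, card_univ, ← hk, hN, div_mul_div_comm, ← mul_div_assoc,
      div_le_iff₀ (by positivity)]
    nlinarith [mul_le_mul_of_nonneg_right hD2 hM0.le]
  have hcard : ((univ.filter fun b : Fin W × (Fin r → ZMod D) => b.2 ∈ G b.1).card : ℝ) =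
      ∑ σ, ((G σ).card : ℝ) := by
    rw [card_filter, Fintype.sum_prod_type, Nat.cast_sum]
    simp
  refine ⟨D, inferInstance, fun z => c (rep z), univ.filter fun b => b.2 ∈ G b.1,
    fun z => congrArg c (rep_symm z), fun b hb => (mem_filter.1 (mem_filter.1 hb).2).2.1, ?_, ?_,
    fun i σ z => ?_⟩
  · rw [hcard, ← hM, ← hP]
    refine le_trans (by simp; linarith) (card_nsmul_le_sum _ _ ((1 - η) * (M * P)) fun σ _ => ?_)
    linarith [hG2 σ, (abs_le.1 (hY σ)).1]
  · rw [hcard, ← hM, ← hP]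
    refine (sum_le_card_nsmul _ _ ((1 + η) * (M * P)) fun σ _ => ?_).trans (by simp; linarith)
    linarith [hG1 σ, (abs_le.1 (hY σ)).2, mul_pos (mul_pos hη hP0) hM0]
  · rw [← hM, ← hP, ← hN, hQ i, mul_left_comm N, mul_div_cancel_left₀ _ (hρ i).ne']
    simp only [hL]
    rcases ((univ.filter fun b : Fin W × (Fin r → ZMod D) => b.2 ∈ G b.1).filter
      fun b => b.1 = σ ∧ L i b.2 = z).eq_empty_or_nonempty with h | ⟨b, hb⟩
    · have := hQ0 i
      rw [h, card_empty, Nat.cast_zero]; positivity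
    obtain ⟨hb1, rfl, rfl⟩ := mem_filter.1 hb
    refine le_trans (Nat.cast_le.2 ?_) ((mem_filter.1 (mem_filter.1 hb1).2).2.2 i)
    refine card_le_card_of_injOn Prod.snd (fun b' hb' => ?_) fun b₁ h₁ b₂ h₂ h => ?_
    · obtain ⟨h2, h3, h4⟩ := mem_filter.1 hb'
      have h5 := (mem_filter.1 (mem_filter.1 h2).2).2.1
      rw [h3] at h5
      exact mem_filter.2 ⟨mem_univ _, h4, fun s => h5 s.1⟩
    · exact Prod.ext ((mem_filter.1 h₁).2.1.trans (mem_filter.1 h₂).2.1.symm) h

end Crest.Agent.R75
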