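import Mathlib

/-! Basic definitions for the ultraflat Littlewood polynomial construction. -/

set_option autoImplicit false

namespace Crest.Agent.R75

open Real

/-- `ee x = exp (2 π i x)` -/
noncomputable def ee (x : ℝ) : ℂ := Complex.exp (((2 * π * x : ℝ) : ℂ) * Complex.I)

lemma ee_add (x y : ℝ) : ee (x + y) = ee x * ee y := by
  simp only [ee, ← Complex.exp_add]; congr 1; push_cast; ring

@[simp] lemma ee_zero : ee 0 = 1 := by simp [ee]

@[simp] lemma norm_ee (x : ℝ) : ‖ee x‖ = 1 := Complex.norm_exp_ofReal_mul_I _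

lemma ee_ne_zero (x : ℝ) : ee x ≠ 0 := Complex.exp_ne_zero _

@[simp] lemma ee_intCast (n : ℤ) : ee n = 1 := by
  rw [ee, ← Complex.exp_int_mul_two_pi_mul_I n]; congr 1; push_cast; ring

@[simp] lemma ee_natCast (n : ℕ) : ee n = 1 := by simpa using ee_intCast n

lemma ee_add_int (x : ℝ) (n : ℤ) : ee (x + n) = ee x := by rw [ee_add, ee_intCast, mul_one]

lemma conj_ee (x : ℝ) : (starRingEnd ℂ) (ee x) = ee (-x) := by
  rw [ee, ee, ← Complex.exp_conj, map_mul, Complex.conj_ofReal, Complex.conj_I]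
  congr 1; push_cast; ring

lemma ee_re (x : ℝ) : (ee x).re = cos (2 * π * x) := Complex.exp_ofReal_mul_I_re _

lemma ee_im (x : ℝ) : (ee x).im = sin (2 * π * x) := Complex.exp_ofReal_mul_I_im _

lemma ee_half : ee (1 / 2) = -1 := by
  rw [ee, ← Complex.exp_pi_mul_I]; congr 1; push_cast; ring

lemma ee_nat_mul (n : ℕ) (x : ℝ) : ee (n * x) = ee x ^ n := by
  rw [ee, ee, ← Complex.exp_nat_mul]; congr 1; push_cast; ring

@[continuity, fun_prop] lemma continuous_ee : Continuous ee := by unfold ee; fun_prop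

lemma hasDerivAt_ee (x : ℝ) : HasDerivAt ee (2 * π * Complex.I * ee x) x := by
  have h1 : HasDerivAt (fun x : ℝ => ((2 * π * x : ℝ) : ℂ) * Complex.I) (2 * π * Complex.I) x := by
    have := ((hasDerivAt_id x).const_mul (2 * π)).ofReal_comp.mul_const Complex.I
    simpa using this
  have := h1.cexp
  rw [mul_comm (Complex.exp _)] at this
  exact this

lemma norm_ee_sub_ee_le (x y : ℝ) : ‖ee x - ee y‖ ≤ 2 * π * |x - y| := by
  have : ee x - ee y = ee y * (ee (x - y) - 1) := by
    rw [mul_sub, ← ee_add]; simp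
  rw [this, norm_mul, norm_ee, one_mul, ee, mul_comm _ Complex.I]
  refine (Real.norm_exp_I_mul_ofReal_sub_one_le).trans (le_of_eq ?_)
  rw [Real.norm_eq_abs, abs_mul, abs_of_pos (by positivity)]

lemma exists_ee_of_norm_one {z : ℂ} (hz : ‖z‖ = 1) : ∃ θ : ℝ, 0 ≤ θ ∧ θ < 1 ∧ z = ee θ := by
  have h1 : z = ee (Complex.arg z / (2 * π)) := by
    rw [ee, mul_div_cancel₀ _ (by positivity)]
    conv_lhs => rw [← Complex.norm_mul_exp_arg_mul_I z, hz]
    simp
  refine ⟨Int.fract (Complex.arg z / (2 * π)), Int.fract_nonneg _, Int.fract_lt_one _, ?_⟩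
  rw [← ee_add_int _ ⌊Complex.arg z / (2 * π)⌋, Int.fract_add_floor]
  exact h1

/-- integer dot product -/
def dot {r : ℕ} (m v : Fin r → ℤ) : ℤ := ∑ l, m l * v l

/-- The `t`-th unit cell `[z, z+1]` (in units of `1/L`) of the arc from `P` to `P + d`
(`ε = true`) or of its mirror image from `-P` to `-P - d` (`ε = false`). -/
def cell (P d : ℤ) (t : ℕ) (ε : Bool) : ℤ :=
  if ε then (if 0 < d then P + t else P - 1 - t) else -1 - (if 0 < d then P + t else P - 1 - t)

/-- The map listing the cells modulo `L` of a family of arcs and of their mirror images. -/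
def cellMap {J : Type} (L : ℕ) (P d : J → ℤ) :
    (Σ I : J, Fin (d I).natAbs) × Bool → ZMod L :=
  fun x => ((cell (P x.1.1) (d x.1.1) x.1.2 x.2 : ℤ) : ZMod L)

/-- Contribution of the arc `p + μ [0,1]` with time profile `s` and phase correction `χ`
to the `k`-th Fourier coefficient. -/
noncomputable def arcCoeff (p μ N : ℝ) (s χ : ℝ → ℝ) (k : ℝ) : ℂ :=
  (|μ| : ℝ) * ∫ y in (0 : ℝ)..1, ee (k * (p + μ * y) - μ * N * (∫ t in (0 : ℝ)..y, s t) - χ y)

/-- clamp to `[0,1]` -/
def clamp (y : ℝ) : ℝ := max 0 (min 1 y)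

/-- time profile: steep linear connector, body `b`, steep linear connector -/
noncomputable def prof (δ : ℝ) (b : ℝ → ℝ) (y : ℝ) : ℝ :=
  b 0 * clamp (y / δ) + (b (clamp ((y - δ) / (1 - 2 * δ))) - b 0) - b 1 * clamp ((y - (1 - δ)) / δ)

/-- phase correction, linear on the two connectors -/
noncomputable def corr (δ c₁ c₂ : ℝ) (y : ℝ) : ℝ :=
  c₁ * clamp (y / δ) + c₂ * clamp ((y - (1 - δ)) / δ)

end Crest.Agent.R75
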