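import Crest.Agent.R75.Defs

/-! Row 75: a Spencer-type discrepancy bound by partial colouring and pigeonhole. -/

set_option autoImplicit false

namespace Crest.Agent.R75

open Real

namespace Disc

/-- The sign of a Boolean. -/
def sg (b : Bool) : ℝ := if b then 1 else -1

lemma mgf {α : Type} [Fintype α] [DecidableEq α] (a : α → ℝ) :
    ∑ σ : α → Bool, exp (∑ k, sg (σ k) * a k) ≤
      2 ^ Fintype.card α * exp ((∑ k, a k ^ 2) / 2) := by
  simp only [exp_sum]
  rw [← Fintype.prod_sum (fun k (b : Bool) => exp (sg b * a k)), Finset.sum_div, exp_sum,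
    ← Finset.card_univ, ← Finset.prod_const, ← Finset.prod_mul_distrib]
  refine Finset.prod_le_prod (fun k _ => Finset.sum_nonneg fun b _ => (exp_pos _).le)
    fun k _ => ?_
  have h := Real.cosh_le_exp_half_sq (a k)
  rw [Real.cosh_eq] at h
  simp only [Fintype.sum_bool, sg, if_true, Bool.false_eq_true, if_false, one_mul, neg_mul]
  linarith

lemma pow_four_le (z : ℝ) : z ^ 4 ≤ 24 * (exp z + exp (-z)) := by
  have h := Real.pow_div_factorial_le_exp |z| (abs_nonneg z) 4
  have h4 : |z| ^ 4 = z ^ 4 := by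
    rw [show (4 : ℕ) = 2 * 2 from rfl, pow_mul, pow_mul, sq_abs]
  have h5 : exp |z| ≤ exp z + exp (-z) := by
    rcases abs_choice z with h1 | h1 <;> rw [h1]
    · linarith [exp_pos (-z)]
    · linarith [exp_pos z]
  rw [h4] at h
  norm_num [Nat.factorial] at h
  linarith

lemma fourth {α : Type} [Fintype α] [DecidableEq α] (a : α → ℝ) (ha : ∑ k, a k ^ 2 ≤ 1) :
    ∑ σ : α → Bool, (∑ k, sg (σ k) * a k) ^ 4 ≤ 96 * 2 ^ Fintype.card α := by
  have h1 := mgf a
  have h2 := mgf (fun k => -a k)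
  simp only [mul_neg, Finset.sum_neg_distrib, neg_sq] at h2
  have h3 : exp ((∑ k, a k ^ 2) / 2) ≤ 2 := by
    have h4 : exp ((∑ k, a k ^ 2) / 2) ≤ exp (log 2) :=
      exp_le_exp.2 (by linarith [Real.log_two_gt_d9])
    rwa [exp_log (by norm_num)] at h4
  have h5 : (2 : ℝ) ^ Fintype.card α * exp ((∑ k, a k ^ 2) / 2) ≤ 2 ^ Fintype.card α * 2 :=
    mul_le_mul_of_nonneg_left h3 (by positivity)
  refine (Finset.sum_le_sum fun σ _ => pow_four_le _).trans ?_
  rw [← Finset.mul_sum, Finset.sum_add_distrib]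
  linarith

/-- The weights on buckets. -/
noncomputable def w (lam : ℝ) (b : ℤ) : ℝ :=
  if b = 0 then 1 else exp (-(3 * lam)) * (1 / 2) ^ b.natAbs

lemma w_nonneg (lam : ℝ) (b : ℤ) : 0 ≤ w lam b := by
  unfold w
  split_ifs <;> positivity

lemma sum_half_le (B : Finset ℤ) : ∑ b ∈ B, ((1 : ℝ) / 2) ^ b.natAbs ≤ 3 := by
  have h1 : HasSum (fun n : ℕ => ((1 : ℝ) / 2) ^ ((n : ℤ)).natAbs) 2 := by
    simpa using hasSum_geometric_two
  have h2 : HasSum (fun n : ℕ => ((1 : ℝ) / 2) ^ (-((n : ℤ) + 1)).natAbs) 1 := by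
    have h := hasSum_geometric_two.mul_right (1 / 2 : ℝ)
    have e : (fun n : ℕ => ((1 : ℝ) / 2) ^ (-((n : ℤ) + 1)).natAbs) =
        fun n : ℕ => ((1 : ℝ) / 2) ^ n * (1 / 2) := by
      funext n
      rw [Int.natAbs_neg, ← pow_succ]
      congr 1
    rw [e]
    norm_num at h ⊢
    exact h
  have h3 := HasSum.of_nat_of_neg_add_one (f := fun b : ℤ => ((1 : ℝ) / 2) ^ b.natAbs) h1 h2
  have h4 := sum_le_hasSum B (fun b _ => by positivity) h3
  linarith

lemma sum_w_le {lam : ℝ} (hlam : 1 ≤ lam) (B : Finset ℤ) :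
    ∑ b ∈ B, w lam b ≤ exp (3 / lam ^ 3) := by
  have h1 : ∀ b ∈ B, w lam b ≤
      (if b = 0 then 1 else 0) + exp (-(3 * lam)) * (1 / 2) ^ b.natAbs := by
    intro b _
    unfold w
    split_ifs
    · have : 0 ≤ exp (-(3 * lam)) * (1 / 2 : ℝ) ^ b.natAbs := by positivity
      linarith
    · simp
  refine (Finset.sum_le_sum h1).trans ?_
  rw [Finset.sum_add_distrib, ← Finset.mul_sum, Finset.sum_ite_eq']
  have h2 : (if (0 : ℤ) ∈ B then (1 : ℝ) else 0) ≤ 1 := by split_ifs <;> norm_num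
  have h3 : exp (-(3 * lam)) ≤ 1 / lam ^ 3 := by
    rw [exp_neg, one_div]
    refine inv_anti₀ (by positivity) ?_
    rw [show 3 * lam = ((3 : ℕ) : ℝ) * lam by norm_num, exp_nat_mul]
    exact pow_le_pow_left₀ (by linarith) (by linarith [add_one_le_exp lam]) 3
  have h4 := mul_le_mul h3 (sum_half_le B) (Finset.sum_nonneg fun b _ => by positivity)
    (by positivity)
  have h5 := add_one_le_exp (3 / lam ^ 3)
  have h6 : 1 / lam ^ 3 * 3 = 3 / lam ^ 3 := by ring
  linarith

lemma w_round_ge {lam : ℝ} (hlam : 1 ≤ lam) (y : ℝ) :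
    exp (-(64 * lam * y ^ 4)) ≤ w lam (round y) := by
  unfold w
  split_ifs with h
  · rw [exp_le_one_iff]
    have : 0 ≤ 64 * lam * y ^ 4 := by positivity
    linarith
  · have h1 := abs_sub_round y
    have h2 : (1 : ℝ) ≤ |(round y : ℝ)| := by
      have := Int.one_le_abs h
      exact_mod_cast this
    have h3 : |(round y : ℝ)| ≤ |y| + 1 / 2 := by
      have := abs_sub_abs_le_abs_sub (round y : ℝ) y
      rw [abs_sub_comm] at this
      linarith
    have h4 : 1 ≤ 2 * |y| := by linarith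
    have h5 : 2 * |y| ≤ 16 * y ^ 4 := by
      have h6 : (2 * |y|) ^ 1 ≤ (2 * |y|) ^ 4 := pow_le_pow_right₀ h4 (by norm_num)
      have h7 : |y| ^ 4 = y ^ 4 := by
        rw [show (4 : ℕ) = 2 * 2 from rfl, pow_mul, pow_mul, sq_abs]
      rw [mul_pow, mul_pow, h7] at h6
      linarith
    have h8 : ((round y).natAbs : ℝ) = |(round y : ℝ)| := by
      rw [Nat.cast_natAbs, Int.cast_abs]
    have h9 : exp (-((round y).natAbs : ℝ)) ≤ (1 / 2 : ℝ) ^ (round y).natAbs := by
      rw [show -((round y).natAbs : ℝ) = ((round y).natAbs : ℝ) * (-1) by ring, exp_nat_mul]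
      refine pow_le_pow_left₀ (exp_pos _).le ?_ _
      rw [exp_neg, one_div]
      exact inv_anti₀ (by norm_num) (by linarith [add_one_le_exp 1])
    refine le_trans ?_ (mul_le_mul_of_nonneg_left h9 (exp_pos _).le)
    rw [← exp_add, exp_le_exp, h8]
    have h10 : lam * 1 ≤ lam * (16 * y ^ 4) := mul_le_mul_of_nonneg_left (by linarith) (by linarith)
    have h11 : 1 * (16 * y ^ 4) ≤ lam * (16 * y ^ 4) :=
      mul_le_mul_of_nonneg_right hlam (by positivity)
    linarith

lemma jensen {β : Type} [Fintype β] (c : β → ℝ) (m : ℝ) (h : ∑ σ, c σ ≤ Fintype.card β * m) :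
    Fintype.card β * exp (-m) ≤ ∑ σ, exp (-c σ) := by
  have h1 : ∀ σ ∈ (Finset.univ : Finset β), exp (-m) * (1 + m - c σ) ≤ exp (-c σ) := by
    intro σ _
    have h2 : exp (-c σ) = exp (-m) * exp (m - c σ) := by
      rw [← exp_add]; congr 1; ring
    rw [h2]
    exact mul_le_mul_of_nonneg_left (by linarith [add_one_le_exp (m - c σ)]) (exp_pos _).le
  refine le_trans ?_ (Finset.sum_le_sum h1)
  rw [← Finset.mul_sum, Finset.sum_sub_distrib, Finset.sum_const, Finset.card_univ, nsmul_eq_mul,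
    mul_comm]
  exact mul_le_mul_of_nonneg_left (by linarith) (exp_pos _).le

lemma ball {α : Type} [Fintype α] [DecidableEq α] (σ₀ : α → Bool) (F : Finset (α → Bool))
    (hF : ∀ σ ∈ F, 10 * (Finset.univ.filter fun k => σ k ≠ σ₀ k).card ≤ Fintype.card α) :
    (F.card : ℝ) ≤ exp (0.4 * Fintype.card α) := by
  have h1 : ∑ σ : α → Bool, ∏ k, (if σ k ≠ σ₀ k then exp (-2) else 1) ≤
      exp (0.2 * Fintype.card α) := by
    rw [← Fintype.prod_sum (fun k (b : Bool) => if b ≠ σ₀ k then exp (-2) else (1 : ℝ)),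
      mul_comm, exp_nat_mul, ← Finset.card_univ, ← Finset.prod_const]
    refine Finset.prod_le_prod
      (fun k _ => Finset.sum_nonneg fun b _ => by split_ifs <;> positivity) fun k _ => ?_
    have h2 : exp (-2) ≤ 0.2 := by
      rw [exp_neg]
      have := Real.quadratic_le_exp_of_nonneg (x := 2) (by norm_num)
      rw [inv_le_comm₀ (exp_pos _) (by norm_num)]
      norm_num at this ⊢
      linarith
    have h3 := add_one_le_exp 0.2
    cases σ₀ k <;> simp <;> linarith
  have h4 : ∀ σ ∈ F, exp (-(0.2 * Fintype.card α)) ≤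
      ∏ k, (if σ k ≠ σ₀ k then exp (-2) else 1) := by
    intro σ hσ
    rw [← Finset.prod_filter, Finset.prod_const, ← exp_nat_mul, exp_le_exp]
    have h5 : (10 : ℝ) * (Finset.univ.filter fun k => σ k ≠ σ₀ k).card ≤ Fintype.card α := by
      exact_mod_cast hF σ hσ
    linarith
  have h6 := Finset.card_nsmul_le_sum F _ _ h4
  have h7 : ∑ σ ∈ F, ∏ k, (if σ k ≠ σ₀ k then exp (-2) else 1) ≤
      ∑ σ : α → Bool, ∏ k, (if σ k ≠ σ₀ k then exp (-2) else 1) :=
    Finset.sum_le_sum_of_subset_of_nonneg (Finset.subset_univ _) fun σ _ _ =>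
      Finset.prod_nonneg fun k _ => by split_ifs <;> positivity
  rw [nsmul_eq_mul] at h6
  have h8 : exp (0.4 * Fintype.card α) * exp (-(0.2 * Fintype.card α)) =
      exp (0.2 * Fintype.card α) := by
    rw [← exp_add]; congr 1; ring
  exact le_of_mul_le_mul_right (by linarith) (exp_pos (-(0.2 * (Fintype.card α : ℝ))))

lemma sum_weight_le {β κ : Type} [Fintype β] [Fintype κ] [DecidableEq κ] {lam : ℝ}
    (hlam : 1 ≤ lam) (b : β → κ → ℤ) {K : ℝ} (hK0 : 0 ≤ K)
    (hK : ∀ σ₀, ((Finset.univ.filter fun σ => b σ = b σ₀).card : ℝ) ≤ K) :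
    ∑ σ, ∏ r, w lam (b σ r) ≤ K * exp (3 / lam ^ 3) ^ Fintype.card κ := by
  classical
  rw [Finset.sum_comp (fun c : κ → ℤ => ∏ r, w lam (c r)) b]
  set B : κ → Finset ℤ := fun r => Finset.univ.image fun σ => b σ r
  have h1 : ∑ c ∈ Finset.univ.image b, ∏ r, w lam (c r) ≤
      ∑ c ∈ Fintype.piFinset B, ∏ r, w lam (c r) := by
    refine Finset.sum_le_sum_of_subset_of_nonneg ?_ fun c _ _ =>
      Finset.prod_nonneg fun r _ => w_nonneg _ _
    intro c hc
    obtain ⟨σ, -, rfl⟩ := Finset.mem_image.1 hc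
    exact Fintype.mem_piFinset.2 fun r => Finset.mem_image_of_mem _ (Finset.mem_univ σ)
  rw [← Finset.prod_univ_sum B (fun _ c => w lam c)] at h1
  have h2 : ∏ r, ∑ c ∈ B r, w lam c ≤ exp (3 / lam ^ 3) ^ Fintype.card κ := by
    rw [← Finset.card_univ, ← Finset.prod_const]
    exact Finset.prod_le_prod (fun r _ => Finset.sum_nonneg fun c _ => w_nonneg _ _)
      fun r _ => sum_w_le hlam _
  refine le_trans ?_ (mul_le_mul_of_nonneg_left (h1.trans h2) hK0)
  rw [Finset.mul_sum]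
  refine Finset.sum_le_sum fun c hc => ?_
  obtain ⟨σ, -, rfl⟩ := Finset.mem_image.1 hc
  rw [nsmul_eq_mul]
  exact mul_le_mul_of_nonneg_right (hK σ) (Finset.prod_nonneg fun r _ => w_nonneg _ _)

lemma partial_col {α κ : Type} [Fintype α] [Fintype κ] (v : κ → α → ℝ) (hv : ∀ r k, |v r k| ≤ 1)
    (ht : 0 < Fintype.card α) {lam : ℝ} (hlam : 1 ≤ lam)
    (h2 : 100000 * (Fintype.card κ : ℝ) ≤ lam ^ 3 * Fintype.card α) :
    ∃ σ σ' : α → Bool,
      Fintype.card α < 10 * (Finset.univ.filter fun k => σ k ≠ σ' k).card ∧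
      ∀ r, |∑ k, sg (σ k) * v r k - ∑ k, sg (σ' k) * v r k| ≤ lam * √(Fintype.card α) := by
  classical
  by_contra hcon
  push Not at hcon
  set t : ℝ := (Fintype.card α : ℝ) with htdef
  have ht0 : 0 < t := by rw [htdef]; exact_mod_cast ht
  have hs : 0 < √t := Real.sqrt_pos.2 ht0
  have hD : 0 < lam * √t := by positivity
  set b : (α → Bool) → κ → ℤ := fun σ r => round ((∑ k, sg (σ k) * v r k) / (lam * √t)) with hb
  have hK : ∀ σ₀, ((Finset.univ.filter fun σ => b σ = b σ₀).card : ℝ) ≤ exp (0.4 * t) := by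
    intro σ₀
    refine ball σ₀ _ fun σ hσ => ?_
    by_contra hlt
    obtain ⟨r, hr⟩ := hcon σ σ₀ (not_le.1 hlt)
    have h3 : b σ r = b σ₀ r := congrFun (Finset.mem_filter.1 hσ).2 r
    have h4 := abs_sub_round ((∑ k, sg (σ k) * v r k) / (lam * √t))
    have h5 := abs_sub_round ((∑ k, sg (σ₀ k) * v r k) / (lam * √t))
    simp only [hb] at h3
    rw [h3] at h4
    have h6 : |(∑ k, sg (σ k) * v r k) / (lam * √t) - (∑ k, sg (σ₀ k) * v r k) / (lam * √t)|
        ≤ 1 := by
      rw [abs_le] at h4 h5 ⊢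
      constructor <;> linarith [h4.1, h4.2, h5.1, h5.2]
    rw [← sub_div, abs_div, abs_of_pos hD, div_le_one hD] at h6
    linarith
  have hup := sum_weight_le hlam b (exp_pos _).le hK
  have hlam0 : 0 < lam := by linarith
  have hc : ∑ σ : α → Bool, ∑ r, 64 * lam * ((∑ k, sg (σ k) * v r k) / (lam * √t)) ^ 4 ≤
      Fintype.card (α → Bool) * (Fintype.card κ * (6144 / lam ^ 3)) := by
    rw [Finset.sum_comm]
    have h3 : ∀ r ∈ (Finset.univ : Finset κ),
        ∑ σ : α → Bool, 64 * lam * ((∑ k, sg (σ k) * v r k) / (lam * √t)) ^ 4 ≤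
          2 ^ Fintype.card α * (6144 / lam ^ 3) := by
      intro r _
      have h4 := fourth (fun k => v r k / √t) (by
        simp only [div_pow, Real.sq_sqrt ht0.le]
        rw [← Finset.sum_div, div_le_one ht0, htdef, ← Finset.card_univ, Finset.card_eq_sum_ones]
        push_cast
        exact Finset.sum_le_sum fun k _ => (sq_le_one_iff_abs_le_one _).2 (hv r k))
      have h5 : ∀ σ : α → Bool, 64 * lam * ((∑ k, sg (σ k) * v r k) / (lam * √t)) ^ 4 =
          64 / lam ^ 3 * (∑ k, sg (σ k) * (v r k / √t)) ^ 4 := by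
        intro σ
        simp only [← mul_div_assoc]
        rw [← Finset.sum_div]
        field_simp
      simp only [h5]
      rw [← Finset.mul_sum]
      refine (mul_le_mul_of_nonneg_left h4 (by positivity)).trans (le_of_eq ?_)
      ring
    refine (Finset.sum_le_sum h3).trans (le_of_eq ?_)
    rw [Finset.sum_const, Finset.card_univ, nsmul_eq_mul, Fintype.card_fun, Fintype.card_bool]
    push_cast
    ring
  have hlow := jensen _ _ hc
  have h3 : ∑ σ : α → Bool,
      exp (-∑ r, 64 * lam * ((∑ k, sg (σ k) * v r k) / (lam * √t)) ^ 4) ≤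
        ∑ σ, ∏ r, w lam (b σ r) := by
    refine Finset.sum_le_sum fun σ _ => ?_
    rw [← Finset.sum_neg_distrib, exp_sum]
    exact Finset.prod_le_prod (fun r _ => (exp_pos _).le) fun r _ => w_round_ge hlam _
  have h4 := (hlow.trans h3).trans hup
  rw [Fintype.card_fun, Fintype.card_bool] at h4
  push_cast at h4
  have h5 : (2 : ℝ) ^ Fintype.card α = exp (t * log 2) := by
    rw [htdef, exp_nat_mul, exp_log (by norm_num)]
  rw [h5, ← exp_nat_mul, ← exp_add, ← exp_add, exp_le_exp] at h4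
  have h6 : (Fintype.card κ : ℝ) / lam ^ 3 ≤ t / 100000 := by
    rw [div_le_div_iff₀ (by positivity) (by norm_num)]
    linarith
  have h7 : t * 0.69 ≤ t * log 2 :=
    mul_le_mul_of_nonneg_left (by linarith [Real.log_two_gt_d9]) ht0.le
  have h8 : (Fintype.card κ : ℝ) * (6144 / lam ^ 3) = 6144 * (Fintype.card κ / lam ^ 3) := by ring
  have h9 : (Fintype.card κ : ℝ) * (3 / lam ^ 3) = 3 * (Fintype.card κ / lam ^ 3) := by ring
  rw [h8, h9] at h4
  linarith

lemma rpow_six {x : ℝ} (hx : 0 ≤ x) : (x ^ (1 / 6 : ℝ)) ^ 6 = x := by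
  rw [← Real.rpow_natCast, ← Real.rpow_mul hx]
  norm_num

lemma partial_T {ι κ : Type} [Fintype κ] (T : Finset ι) (v : κ → ι → ℝ) (hv : ∀ r k, |v r k| ≤ 1)
    (hT : 0 < T.card) (hM : T.card ≤ Fintype.card κ) :
    ∃ (T' : Finset ι) (x : ι → ℝ), T' ⊆ T ∧ 10 * T'.card < 9 * T.card ∧
      (∀ k ∈ T', x k = 0) ∧ (∀ k, k ∉ T' → x k = 1 ∨ x k = -1) ∧
      ∀ r, |∑ k ∈ T, x k * v r k| ≤
        100 * ((Fintype.card κ : ℝ) ^ 2 * T.card) ^ (1 / 6 : ℝ) := by
  classical
  set D : ℝ := ((Fintype.card κ : ℝ) ^ 2 * T.card) ^ (1 / 6 : ℝ) with hDdef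
  have ht0 : (0 : ℝ) < T.card := by exact_mod_cast hT
  have hM' : (T.card : ℝ) ≤ Fintype.card κ := by exact_mod_cast hM
  have hM0 : (0 : ℝ) < Fintype.card κ := by linarith
  have hD6 : D ^ 6 = (Fintype.card κ : ℝ) ^ 2 * T.card := rpow_six (by positivity)
  have hD0 : 0 < D := by positivity
  have hs : 0 < √(T.card : ℝ) := Real.sqrt_pos.2 ht0
  have hl3 : (100 * D / √(T.card : ℝ)) ^ 3 * T.card = 1000000 * Fintype.card κ := by
    refine (pow_left_inj₀ (by positivity) (by positivity) two_ne_zero).1 ?_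
    have h1 : √(T.card : ℝ) ^ 6 = (T.card : ℝ) ^ 3 := by
      rw [show (6 : ℕ) = 2 * 3 from rfl, pow_mul, Real.sq_sqrt ht0.le]
    rw [mul_pow, ← pow_mul, div_pow, mul_pow, show 3 * 2 = 6 from rfl, h1, hD6]
    field_simp
    norm_num
  have hlam : 1 ≤ 100 * D / √(T.card : ℝ) := by
    by_contra hlt
    have h1 : (100 * D / √(T.card : ℝ)) ^ 3 ≤ 1 :=
      pow_le_one₀ (by positivity) (not_le.1 hlt).le
    have h2 := mul_le_mul_of_nonneg_right h1 ht0.le
    linarith
  obtain ⟨σ, σ', h1, h2⟩ := partial_col (α := T) (fun r k => v r k) (fun r k => hv r k)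
    (by simpa using hT) hlam (by rw [Fintype.card_coe, hl3]; linarith)
  rw [Fintype.card_coe] at h1 h2
  refine ⟨(Finset.univ.filter fun k : T => σ k = σ' k).map (Function.Embedding.subtype _),
    fun k => if h : k ∈ T then (sg (σ ⟨k, h⟩) - sg (σ' ⟨k, h⟩)) / 2 else 1, ?_, ?_, ?_, ?_, ?_⟩
  · intro k hk
    obtain ⟨k', -, rfl⟩ := Finset.mem_map.1 hk
    exact k'.2
  · have h3 := Finset.card_filter_add_card_filter_not (s := (Finset.univ : Finset T))
      (fun k : T => σ k = σ' k)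
    rw [Finset.card_univ, Fintype.card_coe] at h3
    rw [Finset.card_map]
    simp only [ne_eq] at h1
    omega
  · intro k hk
    obtain ⟨k', hk', rfl⟩ := Finset.mem_map.1 hk
    have h3 := (Finset.mem_filter.1 hk').2
    simp [h3]
  · intro k hk
    by_cases h : k ∈ T
    · have h3 : σ ⟨k, h⟩ ≠ σ' ⟨k, h⟩ := fun h3 =>
        hk (Finset.mem_map.2 ⟨⟨k, h⟩, Finset.mem_filter.2 ⟨Finset.mem_univ _, h3⟩, rfl⟩)
      simp only [dif_pos h]
      revert h3
      cases σ ⟨k, h⟩ <;> cases σ' ⟨k, h⟩ <;> norm_num [sg]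
    · simp [h]
  · intro r
    have h3 := h2 r
    rw [div_mul_cancel₀ _ hs.ne'] at h3
    rw [← Finset.sum_coe_sort T]
    have h4 : ∑ k : T, (if h : (k : ι) ∈ T then (sg (σ ⟨k, h⟩) - sg (σ' ⟨k, h⟩)) / 2 else 1) *
        v r k = (∑ k : T, sg (σ k) * v r k - ∑ k : T, sg (σ' k) * v r k) / 2 := by
      rw [← Finset.sum_sub_distrib, Finset.sum_div]
      refine Finset.sum_congr rfl fun k _ => ?_
      rw [dif_pos k.2]
      ring
    rw [h4, abs_div, abs_two]
    linarith [abs_nonneg (∑ k : T, sg (σ k) * v r k - ∑ k : T, sg (σ' k) * v r k)]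

end Disc

theorem disc : ∃ C : ℝ, 0 < C ∧ ∀ (ι κ : Type) [Fintype κ] (T : Finset ι) (v : κ → ι → ℝ),
    (∀ r k, |v r k| ≤ 1) → T.card ≤ Fintype.card κ →
    ∃ x : ι → ℝ, (∀ k, x k = 1 ∨ x k = -1) ∧
      ∀ r, |∑ k ∈ T, x k * v r k| ≤ C * ((Fintype.card κ : ℝ) ^ 2 * T.card) ^ (1 / 6 : ℝ) := by
  classical
  refine ⟨10000, by norm_num, fun ι κ _ T v hv => ?_⟩
  induction hn : T.card using Nat.strong_induction_on generalizing T with
  | _ n ih =>
    intro hM
    subst hn
    rcases Nat.eq_zero_or_pos T.card with h0 | h0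
    · refine ⟨fun _ => 1, fun _ => Or.inl rfl, fun r => ?_⟩
      rw [Finset.card_eq_zero.1 h0]
      simp
    obtain ⟨T', x, hsub, hcard, hx0, hx1, hx⟩ := Disc.partial_T T v hv h0 hM
    obtain ⟨y, hy1, hy⟩ := ih T'.card (by omega) T' rfl (by omega)
    refine ⟨fun k => if k ∈ T' then y k else x k, fun k => ?_, fun r => ?_⟩
    · by_cases h : k ∈ T'
      · simpa [h] using hy1 k
      · simpa [h] using hx1 k h
    · have h1 : ∑ k ∈ T, (if k ∈ T' then y k else x k) * v r k =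
          ∑ k ∈ T, x k * v r k + ∑ k ∈ T', y k * v r k := by
        have h2 : ∑ k ∈ T', y k * v r k = ∑ k ∈ T, if k ∈ T' then y k * v r k else 0 := by
          rw [Finset.sum_ite_mem, Finset.inter_eq_right.2 hsub]
        rw [h2, ← Finset.sum_add_distrib]
        refine Finset.sum_congr rfl fun k _ => ?_
        by_cases h : k ∈ T'
        · simp [h, hx0 k h]
        · simp [h]
      have h3 : ((Fintype.card κ : ℝ) ^ 2 * T'.card) ^ (1 / 6 : ℝ) ≤
          0.99 * ((Fintype.card κ : ℝ) ^ 2 * T.card) ^ (1 / 6 : ℝ) := by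
        refine le_of_pow_le_pow_left₀ (n := 6) (by norm_num) (by positivity) ?_
        rw [mul_pow, Disc.rpow_six (by positivity), Disc.rpow_six (by positivity)]
        have h4 : (10 : ℝ) * T'.card ≤ 9 * T.card := by exact_mod_cast hcard.le
        have h5 : (T'.card : ℝ) ≤ 0.99 ^ 6 * T.card := by
          have : (0 : ℝ) ≤ T.card := by positivity
          norm_num
          linarith
        have h6 := mul_le_mul_of_nonneg_left h5 (sq_nonneg (Fintype.card κ : ℝ))
        linarith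
      rw [h1]
      refine (abs_add_le _ _).trans ?_
      linarith [hx r, hy r]

end Crest.Agent.R75
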