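import Crest.Agent.R75.Defs

/-! Dyadic rounding from a discrepancy bound. -/

set_option autoImplicit false

namespace Crest.Agent.R75

open Real

namespace Dyadic

lemma pow_root_le (j : ℕ) : ((2 : ℝ) ^ j) ^ (1 / 6 : ℝ) ≤ (4 / 3) ^ j := by
  have h1 : (2 : ℝ) ^ j ≤ (((4 / 3 : ℝ)) ^ j) ^ (6 : ℕ) := by
    rw [← pow_mul, mul_comm, pow_mul]
    exact pow_le_pow_left₀ (by norm_num) (by norm_num) j
  calc ((2 : ℝ) ^ j) ^ (1 / 6 : ℝ) ≤ ((((4 / 3 : ℝ)) ^ j) ^ (6 : ℕ)) ^ (1 / 6 : ℝ) :=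
        Real.rpow_le_rpow (by positivity) h1 (by norm_num)
    _ = (4 / 3) ^ j := by
        rw [show (1 / 6 : ℝ) = ((6 : ℕ) : ℝ)⁻¹ by norm_num]
        exact Real.pow_rpow_inv_natCast (by positivity) (by norm_num)

lemma level {ι κ : Type} [Fintype ι] (C M : ℝ) (hC : 0 < C) (hM : 0 < M) (v : κ → ι → ℝ)
    (hdisc : ∀ T : Finset ι, ∃ x : ι → ℝ, (∀ k, x k = 1 ∨ x k = -1) ∧
      ∀ r, |∑ k ∈ T, x k * v r k| ≤ C * (M * T.card) ^ (1 / 6 : ℝ))
    (S : ℝ) (hS : 0 ≤ S) (j : ℕ) :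
    ∀ (a : ι → ℝ) (n : ι → ℕ), (∀ k, n k ≤ 2 ^ j) → (∀ k, a k = -1 + 2 * n k / 2 ^ j) →
      ∑ k, (1 - a k ^ 2) ≤ S →
      ∃ c : ι → ℝ, (∀ k, c k = 1 ∨ c k = -1) ∧
        ∀ r, |∑ k, (c k - a k) * v r k| ≤ 3 * (1 - (2 / 3) ^ j) * (C * (M * S) ^ (1 / 6 : ℝ)) := by
  classical
  induction j with
  | zero =>
    intro a n hn ha _
    refine ⟨a, fun k => ?_, fun r => by simp⟩
    have := hn k
    rw [ha k]
    rcases (by omega : n k = 0 ∨ n k = 1) with h | h <;> rw [h] <;> norm_num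
  | succ j ih =>
    intro a n hn ha hsum
    set T : Finset ι := Finset.univ.filter (fun k => n k % 2 = 1) with hT
    set h : ℝ := 1 / 2 ^ j with hh
    have h2j : (1 : ℝ) ≤ 2 ^ j := one_le_pow₀ (by norm_num)
    have hh0 : 0 < h := by positivity
    have hh1 : h ≤ 1 := by rw [hh, div_le_one (by positivity)]; exact h2j
    have hah : ∀ k, a k = -1 + n k * h := fun k => by
      rw [ha k, hh, pow_succ]; field_simp
    have hnh : ∀ k, (n k : ℝ) * h ≤ 2 := fun k => by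
      have : (n k : ℝ) ≤ 2 ^ (j + 1) := by exact_mod_cast hn k
      rw [hh, mul_one_div, div_le_iff₀ (by positivity), ← pow_succ']; exact this
    -- the size of `T`
    have hcard : (T.card : ℝ) ≤ 2 ^ j * S := by
      have h1 : ∑ _k ∈ T, h ≤ ∑ k, (1 - a k ^ 2) := by
        refine le_trans (Finset.sum_le_sum fun k hk => ?_)
          (Finset.sum_le_univ_sum_of_nonneg (f := fun k => 1 - a k ^ 2) fun k => ?_)
        · have hodd : n k % 2 = 1 := (Finset.mem_filter.mp hk).2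
          have h1 : 1 ≤ n k := by omega
          have h2 : n k + 1 ≤ 2 ^ (j + 1) := by
            have := hn k
            rw [pow_succ] at this ⊢
            omega
          have h1' : (1 : ℝ) ≤ n k := by exact_mod_cast h1
          have h2' : ((n k : ℝ) + 1) * h ≤ 2 := by
            have : (n k : ℝ) + 1 ≤ 2 ^ (j + 1) := by exact_mod_cast h2
            rw [hh, mul_one_div, div_le_iff₀ (by positivity), ← pow_succ']; exact this
          have h3 : h ≤ n k * h := by nlinarith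
          rw [hah k]
          nlinarith
        · have := hnh k
          have h0 : (0 : ℝ) ≤ n k * h := by positivity
          rw [hah k]; nlinarith
      rw [Finset.sum_const, nsmul_eq_mul, hh, mul_one_div, div_le_iff₀ (by positivity)] at h1
      nlinarith
    obtain ⟨x, hx, hxs, hxv⟩ : ∃ x : ι → ℝ, (∀ k, x k = 1 ∨ x k = -1) ∧
        0 ≤ ∑ k ∈ T, x k * a k ∧ ∀ r, |∑ k ∈ T, x k * v r k| ≤ C * (M * T.card) ^ (1 / 6 : ℝ) := by
      obtain ⟨x, hx, hxv⟩ := hdisc T
      rcases le_total 0 (∑ k ∈ T, x k * a k) with h0 | h0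
      · exact ⟨x, hx, h0, hxv⟩
      · refine ⟨fun k => -x k, fun k => ?_, ?_, fun r => ?_⟩
        · rcases hx k with h1 | h1 <;> simp [h1]
        · simp only [neg_mul, Finset.sum_neg_distrib]; linarith
        · simp only [neg_mul, Finset.sum_neg_distrib, abs_neg]; exact hxv r
    let a' : ι → ℝ := fun k => a k + if k ∈ T then h * x k else 0
    let n' : ι → ℕ := fun k => if k ∈ T ∧ x k = 1 then (n k + 1) / 2 else n k / 2
    have hn' : ∀ k, n' k ≤ 2 ^ j := fun k => by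
      have := hn k
      rw [pow_succ] at this
      simp only [n']
      split_ifs <;> omega
    have ha' : ∀ k, a' k = -1 + 2 * n' k / 2 ^ j := fun k => by
      have e : (2 : ℝ) * n' k / 2 ^ j = ((2 * n' k : ℕ) : ℝ) * h := by
        rw [hh]; push_cast; ring
      rw [e]
      simp only [a', n', hah k]
      by_cases hk : k ∈ T
      · have hodd : n k % 2 = 1 := (Finset.mem_filter.mp hk).2
        rcases hx k with h1 | h1
        · have : 2 * ((n k + 1) / 2) = n k + 1 := by omega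
          simp only [hk, h1, and_self, if_true, this]
          push_cast; ring
        · have h2 : ¬ (x k = 1) := by rw [h1]; norm_num
          have : n k = 2 * (n k / 2) + 1 := by omega
          have h3 : (n k : ℝ) = ((2 * (n k / 2) : ℕ) : ℝ) + 1 := by exact_mod_cast this
          simp only [hk, h2, and_false, if_true, if_false]
          rw [h1, h3]; ring
      · have hev : ¬ n k % 2 = 1 := fun h => hk (Finset.mem_filter.mpr ⟨Finset.mem_univ _, h⟩)
        have : 2 * (n k / 2) = n k := by omega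
        simp only [hk, false_and, if_false, this, add_zero]
    have hsum' : ∑ k, (1 - a' k ^ 2) ≤ S := by
      have h1 : ∑ k, (1 - a' k ^ 2) ≤
          ∑ k, ((1 - a k ^ 2) - if k ∈ T then 2 * h * (x k * a k) else 0) := by
        refine Finset.sum_le_sum fun k _ => ?_
        simp only [a']
        split_ifs
        · nlinarith [sq_nonneg (h * x k)]
        · simp
      rw [Finset.sum_sub_distrib (fun k => 1 - a k ^ 2), Finset.sum_ite_mem, Finset.univ_inter,
        ← Finset.mul_sum] at h1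
      have : 0 ≤ 2 * h * ∑ k ∈ T, x k * a k := by positivity
      linarith
    obtain ⟨c, hc, hcv⟩ := ih a' n' hn' ha' hsum'
    refine ⟨c, hc, fun r => ?_⟩
    have e1 : ∑ k, (c k - a k) * v r k =
        ∑ k, (c k - a' k) * v r k + h * ∑ k ∈ T, x k * v r k := by
      rw [Finset.mul_sum, ← Finset.univ_inter T, ← Finset.sum_ite_mem, ← Finset.sum_add_distrib]
      refine Finset.sum_congr rfl fun k _ => ?_
      simp only [a']
      split_ifs <;> ring
    have e2 : (M * T.card) ^ (1 / 6 : ℝ) ≤ (4 / 3) ^ j * (M * S) ^ (1 / 6 : ℝ) := by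
      calc (M * T.card) ^ (1 / 6 : ℝ) ≤ (2 ^ j * (M * S)) ^ (1 / 6 : ℝ) :=
            Real.rpow_le_rpow (by positivity) (by nlinarith) (by norm_num)
        _ = ((2 : ℝ) ^ j) ^ (1 / 6 : ℝ) * (M * S) ^ (1 / 6 : ℝ) :=
            Real.mul_rpow (by positivity) (by positivity)
        _ ≤ _ := mul_le_mul_of_nonneg_right (pow_root_le j) (by positivity)
    have e3 : |h * ∑ k ∈ T, x k * v r k| ≤ (2 / 3) ^ j * (C * (M * S) ^ (1 / 6 : ℝ)) := by
      rw [abs_mul, abs_of_pos hh0]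
      have e4 : ((2 : ℝ) / 3) ^ j = h * (4 / 3) ^ j := by
        rw [hh, one_div, ← inv_pow, ← mul_pow]; norm_num
      calc h * |∑ k ∈ T, x k * v r k| ≤ h * (C * ((4 / 3) ^ j * (M * S) ^ (1 / 6 : ℝ))) :=
            mul_le_mul_of_nonneg_left ((hxv r).trans (mul_le_mul_of_nonneg_left e2 hC.le)) hh0.le
        _ = _ := by rw [e4]; ring
    rw [e1]
    refine (abs_add_le _ _).trans ?_
    have := hcv r
    rw [pow_succ]
    linarith

lemma round (J : ℕ) (a : ℝ) (ha : |a| ≤ 1) :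
    ∃ n : ℕ, n ≤ 2 ^ J ∧ a ^ 2 ≤ (-1 + 2 * (n : ℝ) / 2 ^ J) ^ 2 ∧
      |(-1 + 2 * (n : ℝ) / 2 ^ J) - a| ≤ 2 / 2 ^ J := by
  obtain ⟨h1, h2⟩ := abs_le.mp ha
  have hp : (0 : ℝ) < 2 ^ J := by positivity
  set t : ℝ := (a + 1) * 2 ^ J / 2 with ht
  have ht0 : 0 ≤ t := by have : 0 ≤ a + 1 := by linarith
                         positivity
  have ht1 : t ≤ ((2 ^ J : ℕ) : ℝ) := by push_cast; rw [ht]; nlinarith
  have hat : a = -1 + 2 * t / 2 ^ J := by rw [ht]; field_simp; ring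
  have key : ∀ n : ℝ, (-1 + 2 * n / 2 ^ J) - a = (n - t) * (2 / 2 ^ J) := fun n => by
    rw [hat]; ring
  have hq : (0 : ℝ) < 2 / 2 ^ J := by positivity
  rcases le_total 0 a with h0 | h0
  · refine ⟨⌈t⌉₊, Nat.ceil_le.mpr ht1, ?_, ?_⟩
    · have := key ⌈t⌉₊
      have h3 : 0 ≤ ((⌈t⌉₊ : ℝ) - t) * (2 / 2 ^ J) := mul_nonneg (by linarith [Nat.le_ceil t]) hq.le
      nlinarith
    · rw [key, abs_mul, abs_of_pos hq]
      have h3 := Nat.le_ceil t
      have h4 := Nat.ceil_lt_add_one ht0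
      have : |(⌈t⌉₊ : ℝ) - t| ≤ 1 := abs_le.mpr ⟨by linarith, by linarith⟩
      nlinarith
  · refine ⟨⌊t⌋₊, Nat.floor_le_of_le ht1, ?_, ?_⟩
    · have := key ⌊t⌋₊
      have h3 : ((⌊t⌋₊ : ℝ) - t) * (2 / 2 ^ J) ≤ 0 :=
        mul_nonpos_of_nonpos_of_nonneg (by linarith [Nat.floor_le ht0]) hq.le
      nlinarith
    · rw [key, abs_mul, abs_of_pos hq]
      have h3 := Nat.floor_le ht0
      have h4 := Nat.lt_floor_add_one t
      have : |(⌊t⌋₊ : ℝ) - t| ≤ 1 := abs_le.mpr ⟨by linarith, by linarith⟩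
      nlinarith

end Dyadic

theorem dyadic_round {ι κ : Type} [Fintype ι] (C M : ℝ) (hC : 0 < C) (hM : 0 < M) (v : κ → ι → ℝ)
    (hv : ∀ r k, |v r k| ≤ 1)
    (hdisc : ∀ T : Finset ι, ∃ x : ι → ℝ, (∀ k, x k = 1 ∨ x k = -1) ∧
      ∀ r, |∑ k ∈ T, x k * v r k| ≤ C * (M * T.card) ^ (1 / 6 : ℝ))
    (a : ι → ℝ) (ha : ∀ k, |a k| ≤ 1) :
    ∃ c : ι → ℝ, (∀ k, c k = 1 ∨ c k = -1) ∧
      ∀ r, |∑ k, (c k - a k) * v r k| ≤ 10 * C * (M * ∑ k, (1 - a k ^ 2)) ^ (1 / 6 : ℝ) := by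
  have hnn : ∀ k, 0 ≤ 1 - a k ^ 2 := fun k => by
    have := abs_le.mp (ha k); nlinarith
  set S := ∑ k, (1 - a k ^ 2) with hSdef
  have hS : 0 ≤ S := Finset.sum_nonneg fun k _ => hnn k
  rcases hS.eq_or_lt with h0 | h0
  · refine ⟨a, fun k => ?_, fun r => ?_⟩
    · have := (Finset.sum_eq_zero_iff_of_nonneg fun k _ => hnn k).mp h0.symm k (Finset.mem_univ _)
      have h1 : (a k - 1) * (a k + 1) = 0 := by linarith
      rcases mul_eq_zero.mp h1 with h | h
      · left; linarith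
      · right; linarith
    · simp only [sub_self, zero_mul, Finset.sum_const_zero, abs_zero]
      positivity
  · set R := C * (M * S) ^ (1 / 6 : ℝ) with hR
    have hR0 : 0 < R := by positivity
    obtain ⟨J, hJ⟩ := pow_unbounded_of_one_lt (Fintype.card ι * 2 / R) (by norm_num : (1 : ℝ) < 2)
    choose n hn1 hn2 hn3 using fun k => Dyadic.round J (a k) (ha k)
    obtain ⟨c, hc, hcv⟩ := Dyadic.level C M hC hM v hdisc S hS J
      (fun k => -1 + 2 * (n k : ℝ) / 2 ^ J) n hn1 (fun _ => rfl)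
      (Finset.sum_le_sum fun k _ => by linarith [hn2 k])
    refine ⟨c, hc, fun r => ?_⟩
    have e1 : ∑ k, (c k - a k) * v r k = ∑ k, (c k - (-1 + 2 * (n k : ℝ) / 2 ^ J)) * v r k +
        ∑ k, ((-1 + 2 * (n k : ℝ) / 2 ^ J) - a k) * v r k := by
      rw [← Finset.sum_add_distrib]
      exact Finset.sum_congr rfl fun k _ => by ring
    have e2 : |∑ k, ((-1 + 2 * (n k : ℝ) / 2 ^ J) - a k) * v r k| ≤ R := by
      refine (Finset.abs_sum_le_sum_abs _ _).trans ?_
      have h1 : ∑ k, |((-1 + 2 * (n k : ℝ) / 2 ^ J) - a k) * v r k| ≤ ∑ _k : ι, (2 : ℝ) / 2 ^ J := by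
        refine Finset.sum_le_sum fun k _ => ?_
        rw [abs_mul]
        have := hn3 k
        have := hv r k
        have := abs_nonneg ((-1 + 2 * (n k : ℝ) / 2 ^ J) - a k)
        nlinarith
      rw [Finset.sum_const, Finset.card_univ, nsmul_eq_mul] at h1
      refine h1.trans ?_
      rw [div_lt_iff₀ hR0] at hJ
      rw [← mul_div_assoc, div_le_iff₀ (by positivity)]
      linarith
    rw [e1]
    refine (abs_add_le _ _).trans ?_
    have h1 := hcv r
    have h2 : (0 : ℝ) ≤ (2 / 3) ^ J := by positivity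
    have h3 : 10 * C * (M * S) ^ (1 / 6 : ℝ) = 10 * R := by rw [hR]; ring
    rw [h3]
    nlinarith

end Crest.Agent.R75
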