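import Crest.Agent.R75.Defs

/-! Row 75: the Fourier expansion of a quadratic chirp and a Parseval lower bound. -/

set_option autoImplicit false

namespace Crest.Agent.R75

open Real

namespace Gauss

lemma ee_eq (n : ℕ) [NeZero n] (m : ℤ) :
    ee ((m : ℝ) / n) = ZMod.stdAddChar ((m : ℤ) : ZMod n) := by
  rw [ZMod.stdAddChar_coe, ee]
  congr 1
  push_cast
  ring

lemma sum_fin (n : ℕ) [NeZero n] (f : ZMod n → ℂ) :
    ∑ j : Fin n, f ((j : ℕ) : ZMod n) = ∑ x : ZMod n, f x := by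
  obtain ⟨m, rfl⟩ := Nat.exists_eq_succ_of_ne_zero (NeZero.ne n)
  exact Finset.sum_congr rfl fun j _ => congrArg f (ZMod.natCast_zmod_val (n := m + 1) j)

lemma sum_char (n : ℕ) [NeZero n] (b : ZMod n) :
    ∑ x : ZMod n, ZMod.stdAddChar (x * b) = if b = 0 then (n : ℂ) else 0 := by
  rw [AddChar.sum_mulShift b (ZMod.isPrimitive_stdAddChar n), ZMod.card]
  split_ifs <;> simp

/-- The twisted quadratic Gauss sum. -/
noncomputable def G (n : ℕ) [NeZero n] (c j : ZMod n) : ℂ :=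
  ∑ x : ZMod n, ZMod.stdAddChar (c * x ^ 2 - j * x)

lemma G_inv (n : ℕ) [NeZero n] (c k : ZMod n) :
    ∑ j : ZMod n, ZMod.stdAddChar (k * j) * G n c j = n * ZMod.stdAddChar (c * k ^ 2) := by
  simp only [G, Finset.mul_sum]
  rw [Finset.sum_comm]
  have h : ∀ x : ZMod n, ∑ j : ZMod n, ZMod.stdAddChar (k * j) *
      ZMod.stdAddChar (c * x ^ 2 - j * x) =
      if x = k then (n : ℂ) * ZMod.stdAddChar (c * x ^ 2) else 0 := by
    intro x
    have h1 : ∀ j : ZMod n, ZMod.stdAddChar (k * j) * ZMod.stdAddChar (c * x ^ 2 - j * x) =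
        ZMod.stdAddChar (j * (k - x)) * ZMod.stdAddChar (c * x ^ 2) := by
      intro j
      rw [← AddChar.map_add_eq_mul, ← AddChar.map_add_eq_mul]
      congr 1
      ring
    simp only [h1]
    rw [← Finset.sum_mul, sum_char]
    simp only [sub_eq_zero, eq_comm (a := k), ite_mul, zero_mul]
  simp only [h]
  simp

lemma G_norm (n : ℕ) [NeZero n] {c : ZMod n} (hc : IsUnit (2 * c)) (j : ZMod n) :
    ‖G n c j‖ = √n := by
  have h : G n c j * (starRingEnd ℂ) (G n c j) = n := by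
    simp only [G, map_sum, ← AddChar.map_neg_eq_conj, Finset.mul_sum, Finset.sum_mul]
    have h1 : ∀ y : ZMod n, ∑ x : ZMod n, ZMod.stdAddChar (c * x ^ 2 - j * x) *
        ZMod.stdAddChar (-(c * y ^ 2 - j * y)) =
        ∑ h : ZMod n, ZMod.stdAddChar (y * (2 * c * h)) * ZMod.stdAddChar (c * h ^ 2 - j * h) := by
      intro y
      rw [← Equiv.sum_comp (Equiv.addLeft y)]
      refine Finset.sum_congr rfl fun h _ => ?_
      rw [← AddChar.map_add_eq_mul, ← AddChar.map_add_eq_mul]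
      congr 1
      simp only [Equiv.coe_addLeft]
      ring
    simp only [h1]
    rw [Finset.sum_comm]
    simp only [← Finset.sum_mul, sum_char, hc.mul_right_eq_zero, ite_mul, zero_mul]
    simp
  rw [Complex.mul_conj, Complex.normSq_eq_norm_sq] at h
  have h2 : ‖G n c j‖ ^ 2 = n := by exact_mod_cast h
  rw [← h2, Real.sqrt_sq (norm_nonneg _)]

end Gauss

theorem gauss_expand (n : ℕ) (hn : Odd n) (c : ℤ) (hc : IsCoprime c (n : ℤ)) :
    ∃ φ : Fin n → ℝ, ∀ k : ℤ,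
      ∑ j : Fin n, ee ((k : ℝ) * (j : ℕ) / n + φ j) = (√n : ℝ) * ee (c * (k : ℝ) ^ 2 / n) := by
  have : NeZero n := ⟨hn.pos.ne'⟩
  have hn0 : (0 : ℝ) < n := by exact_mod_cast hn.pos
  have hs : (0 : ℝ) < √n := Real.sqrt_pos.2 hn0
  have hs' : ((√n : ℝ) : ℂ) ≠ 0 := by exact_mod_cast hs.ne'
  have hu : IsUnit (2 * (c : ZMod n)) := by
    refine IsUnit.mul ?_ ?_
    · have := (ZMod.isUnit_iff_coprime 2 n).2 ((Nat.coprime_two_left).2 hn)
      simpa using this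
    · exact (ZMod.coe_int_isUnit_iff_isCoprime c n).2 hc.symm
  have h1 : ∀ j : ZMod n, ∃ θ : ℝ, Gauss.G n c j = (√n : ℝ) * ee θ := by
    intro j
    obtain ⟨θ, -, -, h⟩ := exists_ee_of_norm_one (z := Gauss.G n c j / (√n : ℝ)) (by
      rw [norm_div, Gauss.G_norm n hu, Complex.norm_real, Real.norm_of_nonneg hs.le,
        div_self hs.ne'])
    exact ⟨θ, by rw [← h, mul_div_cancel₀ _ hs']⟩
  choose θ hθ using h1
  refine ⟨fun j => θ ((j : ℕ) : ZMod n), fun k => ?_⟩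
  have h2 := Gauss.G_inv n c k
  rw [← Gauss.sum_fin] at h2
  have h3 : ee (c * (k : ℝ) ^ 2 / n) = ZMod.stdAddChar ((c : ZMod n) * (k : ZMod n) ^ 2) := by
    have := Gauss.ee_eq n (c * k ^ 2)
    push_cast at this
    exact this
  have h4 : ∀ j : Fin n, ee ((k : ℝ) * (j : ℕ) / n) =
      ZMod.stdAddChar ((k : ZMod n) * ((j : ℕ) : ZMod n)) := by
    intro j
    have := Gauss.ee_eq n (k * (j : ℕ))
    push_cast at this
    exact this
  have h5 : (n : ℂ) = (√n : ℝ) * (√n : ℝ) := by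
    rw [← Complex.ofReal_mul, Real.mul_self_sqrt hn0.le]
    simp
  apply mul_left_cancel₀ hs'
  rw [h3, ← mul_assoc, ← h5, ← h2, Finset.mul_sum]
  refine Finset.sum_congr rfl fun j _ => ?_
  rw [ee_add, h4, hθ]
  ring

theorem sum_sq_ge (N : ℕ) (a : Fin N → ℝ) (β : ℝ) (hβ : 0 ≤ β)
    (h : ∀ z : ℂ, ‖z‖ = 1 → β ≤ ‖∑ k : Fin N, (a k : ℂ) * z ^ (k : ℕ)‖) (hN : 0 < N) :
    β ^ 2 ≤ ∑ k, a k ^ 2 := by
  have : NeZero N := ⟨hN.ne'⟩
  have hN0 : (0 : ℝ) < N := by exact_mod_cast hN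
  have h1 : ∑ x : ZMod N, ((‖∑ k : Fin N, (a k : ℂ) * ZMod.stdAddChar x ^ (k : ℕ)‖ ^ 2 : ℝ) : ℂ) =
      ((N * ∑ k, a k ^ 2 : ℝ) : ℂ) := by
    have h2 : ∀ x : ZMod N, ((‖∑ k : Fin N, (a k : ℂ) * ZMod.stdAddChar x ^ (k : ℕ)‖ ^ 2 : ℝ) : ℂ) =
        ∑ k : Fin N, ∑ l : Fin N, (a k * a l : ℂ) *
          ZMod.stdAddChar (x * (((k : ℕ) : ZMod N) - ((l : ℕ) : ZMod N))) := by
      intro x
      rw [← Complex.normSq_eq_norm_sq, ← Complex.mul_conj, map_sum, Finset.sum_mul_sum]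
      refine Finset.sum_congr rfl fun k _ => Finset.sum_congr rfl fun l _ => ?_
      rw [map_mul, Complex.conj_ofReal, ← AddChar.map_nsmul_eq_pow, ← AddChar.map_nsmul_eq_pow,
        ← AddChar.map_neg_eq_conj, mul_mul_mul_comm, ← AddChar.map_add_eq_mul]
      congr 2
      simp only [nsmul_eq_mul]
      ring
    simp only [h2]
    rw [Finset.sum_comm]
    push_cast
    rw [Finset.mul_sum]
    refine Finset.sum_congr rfl fun k _ => ?_
    rw [Finset.sum_comm]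
    have h3 : ∀ l : Fin N, (((k : ℕ) : ZMod N) - ((l : ℕ) : ZMod N) = 0) ↔ k = l := by
      intro l
      rw [sub_eq_zero, ZMod.natCast_eq_natCast_iff', Nat.mod_eq_of_lt k.2, Nat.mod_eq_of_lt l.2,
        Fin.ext_iff]
    simp only [← Finset.mul_sum, Gauss.sum_char, h3, mul_ite, mul_zero]
    rw [Finset.sum_ite_eq]
    simp only [Finset.mem_univ, if_true]
    ring
  have h4 : ∑ x : ZMod N, ‖∑ k : Fin N, (a k : ℂ) * ZMod.stdAddChar x ^ (k : ℕ)‖ ^ 2 =
      N * ∑ k, a k ^ 2 := by exact_mod_cast h1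
  have h5 := Finset.card_nsmul_le_sum (Finset.univ : Finset (ZMod N))
    (fun x => ‖∑ k : Fin N, (a k : ℂ) * ZMod.stdAddChar x ^ (k : ℕ)‖ ^ 2) (β ^ 2)
    (fun x _ => pow_le_pow_left₀ hβ (h _ (AddChar.norm_apply _ _)) 2)
  rw [h4, Finset.card_univ, ZMod.card, nsmul_eq_mul] at h5
  exact le_of_mul_le_mul_left h5 hN0

end Crest.Agent.R75
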