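import Crest.Agent.R75.Defs

/-! Small number-theoretic facts used in the arc packing. -/

set_option autoImplicit false

namespace Crest.Agent.R75

open Real

namespace Generic

open Polynomial in
/-- finitely many non-zero integer vectors are simultaneously non-orthogonal to some vector -/
lemma exists_avoid {r : ℕ} {κ : Type} [Fintype κ] (u : κ → Fin r → ℤ) (hu : ∀ k, u k ≠ 0) :
    ∃ z : Fin r → ℤ, ∀ k, dot (u k) z ≠ 0 := by
  classical
  let P : κ → ℤ[X] := fun k => ∑ l : Fin r, monomial (l : ℕ) (u k l)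
  have hP : ∀ k, P k ≠ 0 := by
    intro k h
    apply hu k
    funext l
    have h1 : (P k).coeff l = u k l := by
      simp only [P, finsetSum_coeff, coeff_monomial]
      rw [Finset.sum_eq_single l]
      · simp
      · intro l' _ hl
        rw [if_neg (fun h => hl (Fin.ext h))]
      · simp
    rw [← h1, h]; simp
  have h0 : ∏ k, P k ≠ 0 := Finset.prod_ne_zero_iff.2 fun k _ => hP k
  have h1 : ∃ T : ℤ, (∏ k, P k).eval T ≠ 0 := by
    by_contra h
    push Not at h
    exact h0 (Polynomial.funext fun T => by rw [h T]; simp)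
  obtain ⟨T, hT⟩ := h1
  refine ⟨fun l => T ^ (l : ℕ), fun k hk => hT ?_⟩
  rw [eval_prod]
  refine Finset.prod_eq_zero (Finset.mem_univ k) ?_
  rw [← hk]
  simp [P, dot, eval_finsetSum]

lemma dot_comm {r : ℕ} (u v : Fin r → ℤ) : dot u v = dot v u := by
  simp [dot, mul_comm]

lemma dot_comb {r : ℕ} (a b : ℤ) (u v z : Fin r → ℤ) :
    dot (a • u + b • v) z = a * dot u z + b * dot v z := by
  simp only [dot, Pi.add_apply, Pi.smul_apply, smul_eq_mul, Finset.mul_sum,
    ← Finset.sum_add_distrib]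
  exact Finset.sum_congr rfl fun l _ => by ring

lemma crt {κ : Type} [Fintype κ] (s : κ → ℕ) (hs : ∀ i j, i ≠ j → Nat.Coprime (s i) (s j))
    (x : κ → ℤ) : ∃ y : ℤ, ∀ i, y ≡ x i [ZMOD s i] := by
  obtain ⟨y, hy⟩ := Ideal.exists_forall_sub_mem_ideal (R := ℤ)
    (I := fun i => Ideal.span {(s i : ℤ)}) (fun i j hij => by
      simp only [Function.onFun]
      rw [Ideal.isCoprime_span_singleton_iff]
      exact Nat.isCoprime_iff_coprime.2 (hs i j hij)) x
  refine ⟨y, fun i => ?_⟩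
  have := Ideal.mem_span_singleton.1 (hy i)
  exact (Int.modEq_iff_dvd.2 this).symm

end Generic

open Generic

theorem exists_generic {r : ℕ} {ι : Type} [Fintype ι] (m : ι → Fin r → ℤ)
    (h1 : ∀ i, ∃ l, m i l = 1)
    (h2 : ∀ i j, i ≠ j → ∀ a b : ℤ, a • m i + b • m j = 0 → a = 0 ∧ b = 0) :
    ∃ (k0 : Fin r → ℤ) (a : ι → Fin r → ℤ), (∀ i, dot (m i) k0 ≠ 0) ∧ (∀ i, dot (m i) (a i) = 0) ∧
      ∀ i j, i ≠ j → dot (m i) (a j) ≠ 0 := by
  classical
  have hpos : ∀ i, dot (m i) (m i) ≠ 0 := by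
    intro i
    obtain ⟨l, hl⟩ := h1 i
    have : m i l * m i l ≤ ∑ l, m i l * m i l :=
      Finset.single_le_sum (f := fun l => m i l * m i l) (fun l _ => mul_self_nonneg _)
        (Finset.mem_univ l)
    rw [hl] at this
    unfold dot; omega
  let u : ι × ι → Fin r → ℤ := fun p => if p.1 = p.2 then m p.1 else
    dot (m p.2) (m p.2) • m p.1 + (-dot (m p.1) (m p.2)) • m p.2
  have hu : ∀ p, u p ≠ 0 := by
    rintro ⟨i, j⟩ h
    by_cases hij : i = j
    · obtain ⟨l, hl⟩ := h1 i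
      simp only [u, if_pos hij] at h
      simp [h] at hl
    · simp only [u, if_neg hij] at h
      exact hpos j (h2 i j hij _ _ h).1
  obtain ⟨z, hz⟩ := exists_avoid u hu
  refine ⟨z, fun j => dot (m j) (m j) • z + (-dot (m j) z) • m j, fun i => ?_, fun i => ?_,
    fun i j hij => ?_⟩
  · simpa [u] using hz (i, i)
  · rw [dot_comm, dot_comb, dot_comm z]; ring
  · have := hz (i, j)
    simp only [u, if_neg hij] at this
    rw [dot_comb] at this
    rw [dot_comm, dot_comb, dot_comm z, dot_comm (m j) (m i)]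
    intro h; apply this; linarith

theorem exists_coprime {ι : Type} [Fintype ι] (y : ι → ℝ) (hy : ∀ i, 0 < y i) (G : ℕ) (hG : 0 < G)
    (η : ℝ) (hη : 0 < η) :
    ∃ (Rep : ℕ) (q : ι → ℕ), 0 < Rep ∧ (∀ i, Nat.Coprime (q i) G) ∧
      (∀ i j, i ≠ j → Nat.Coprime (q i) (q j)) ∧
      ∀ i, Rep * y i ≤ q i ∧ (q i : ℝ) ≤ (1 + η) * (Rep * y i) := by
  classical
  obtain ⟨U, hU0, hU⟩ : ∃ U : ℕ, 0 < U ∧ ∀ i, 3 ≤ η * (U * y i) := by
    obtain ⟨U, hU⟩ := exists_nat_gt (∑ i, 3 / (η * y i))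
    refine ⟨U + 1, Nat.succ_pos _, fun i => ?_⟩
    have h1 : 3 / (η * y i) ≤ ∑ i, 3 / (η * y i) :=
      Finset.single_le_sum (f := fun i => 3 / (η * y i))
        (fun i _ => by have := hy i; positivity) (Finset.mem_univ i)
    have h2 : 0 < η * y i := mul_pos hη (hy i)
    have h3 : 3 / (η * y i) ≤ (U + 1 : ℕ) := by push_cast; linarith
    rw [div_le_iff₀ h2] at h3
    linarith
  set K : ℕ := Fintype.card ι + 1 with hK
  let idx : ι → ℕ := fun i => (Fintype.equivFin ι i : ℕ)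
  have hidx : ∀ i, idx i < K := fun i => (Fintype.equivFin ι i).2.trans (Nat.lt_succ_self _)
  let u : ι → ℕ := fun i => K * ⌈U * y i⌉₊ + idx i
  have huinj : ∀ i j, u i = u j → i = j := by
    intro i j h
    have h1 : u i % K = u j % K := by rw [h]
    simp only [u, Nat.mul_add_mod, Nat.mod_eq_of_lt (hidx _)] at h1
    exact (Fintype.equivFin ι).injective (Fin.ext h1)
  let f : ι × ι → ℕ := fun p => if p.1 = p.2 then 1 else ((u p.1 : ℤ) - u p.2).natAbs
  set T : ℕ := G * ∏ p, f p with hT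
  have hT0 : 0 < T := by
    refine Nat.mul_pos hG (Finset.prod_pos fun p _ => ?_)
    simp only [f]
    split_ifs with h
    · exact one_pos
    · refine Int.natAbs_pos.2 fun h' => h (huinj _ _ ?_)
      omega
  have hcop : ∀ i, Nat.Coprime (u i * T + 1) T := fun i => by simp
  refine ⟨U * K * T, fun i => u i * T + 1, by positivity, fun i => ?_, fun i j hij => ?_,
    fun i => ⟨?_, ?_⟩⟩
  · exact (hcop i).coprime_dvd_right (Dvd.intro _ rfl)
  · set g := Nat.gcd (u i * T + 1) (u j * T + 1) with hg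
    have h1 : Nat.Coprime g T := (hcop i).coprime_dvd_left (Nat.gcd_dvd_left _ _)
    have h2 : (g : ℤ) ∣ ((u i : ℤ) - u j) * T := by
      have h3 : (g : ℤ) ∣ ((u i * T + 1 : ℕ) : ℤ) :=
        Int.natCast_dvd_natCast.2 (Nat.gcd_dvd_left _ _)
      have h4 : (g : ℤ) ∣ ((u j * T + 1 : ℕ) : ℤ) :=
        Int.natCast_dvd_natCast.2 (Nat.gcd_dvd_right _ _)
      exact (dvd_sub h3 h4).trans (dvd_of_eq (by push_cast; ring))
    have h5 : ((u i : ℤ) - u j).natAbs ∣ T := by
      have : f (i, j) ∣ ∏ p, f p := Finset.dvd_prod_of_mem _ (Finset.mem_univ _)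
      simp only [f, if_neg hij] at this
      exact this.mul_left G
    have h6 : g ∣ T * T := by
      have h7 : g ∣ ((u i : ℤ) - u j).natAbs * T := by
        have := Int.natAbs_dvd_natAbs.2 h2
        simpa [Int.natAbs_mul] using this
      exact h7.trans (Nat.mul_dvd_mul_right h5 _)
    exact Nat.Coprime.eq_one_of_dvd (h1.mul_right h1) h6
  · have h1 : (U * y i : ℝ) ≤ ⌈U * y i⌉₊ := Nat.le_ceil _
    have h2 : (0 : ℝ) ≤ (idx i : ℝ) * T := by positivity
    have h3 : (0 : ℝ) ≤ (K : ℝ) * T := by positivity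
    have := mul_le_mul_of_nonneg_left h1 h3
    simp only [u]
    push_cast
    nlinarith
  · have h1 : (⌈U * y i⌉₊ : ℝ) ≤ U * y i + 1 :=
      (Nat.ceil_lt_add_one (by have := hy i; positivity)).le
    have h2 : (idx i : ℝ) ≤ K := by exact_mod_cast (hidx i).le
    have h3 : (1 : ℝ) ≤ (K : ℝ) * T := by
      have : 1 ≤ K * T := Nat.mul_pos (Nat.succ_pos _) hT0
      exact_mod_cast this
    have h4 := mul_le_mul_of_nonneg_left h1 (zero_le_one.trans h3)
    have h5 := mul_le_mul_of_nonneg_left (hU i) (zero_le_one.trans h3)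
    have h6 := mul_le_mul_of_nonneg_right h2 (Nat.cast_nonneg T : (0 : ℝ) ≤ T)
    simp only [u]
    push_cast
    nlinarith

theorem exists_alpha {r : ℕ} {ι : Type} [Fintype ι] [DecidableEq ι] (m a : ι → Fin r → ℤ)
    (ha : ∀ i, dot (m i) (a i) = 0) (q : ι → ℕ) (hq0 : ∀ i, 0 < q i)
    (hq : ∀ i j, i ≠ j → Nat.Coprime (q i) (q j))
    (hqa : ∀ i j, i ≠ j → IsCoprime (dot (m i) (a j)) (q j : ℤ)) :
    ∃ (c : ι → ℤ) (α : Fin r → ℝ), ∀ i,
      IsCoprime (c i) ((∏ j ∈ Finset.univ.erase i, q j : ℕ) : ℤ) ∧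
      ∑ l, (m i l : ℝ) * α l = c i / ((∏ j ∈ Finset.univ.erase i, q j : ℕ) : ℝ) := by
  refine ⟨fun i => ∑ j ∈ Finset.univ.erase i,
      dot (m i) (a j) * ∏ k ∈ (Finset.univ.erase i).erase j, (q k : ℤ),
    fun l => ∑ j, (a j l : ℝ) / q j, fun i => ⟨?_, ?_⟩⟩
  · rw [Nat.cast_prod]
    refine IsCoprime.prod_right fun j hj => ?_
    beta_reduce
    rw [← Finset.add_sum_erase _ _ hj]
    have hji : i ≠ j := (Finset.ne_of_mem_erase hj).symm
    have h1 : IsCoprime (dot (m i) (a j) * ∏ k ∈ (Finset.univ.erase i).erase j, (q k : ℤ))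
        (q j : ℤ) := by
      refine (hqa i j hji).mul_left (IsCoprime.prod_left fun k hk => ?_)
      exact Nat.isCoprime_iff_coprime.2 (hq k j (Finset.ne_of_mem_erase hk))
    have h2 : (q j : ℤ) ∣ ∑ j' ∈ (Finset.univ.erase i).erase j,
        dot (m i) (a j') * ∏ k ∈ (Finset.univ.erase i).erase j', (q k : ℤ) := by
      refine Finset.dvd_sum fun j' hj' => Dvd.dvd.mul_left ?_ _
      exact Finset.dvd_prod_of_mem _
        (Finset.mem_erase.2 ⟨(Finset.ne_of_mem_erase hj').symm, hj⟩)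
    obtain ⟨w, hw⟩ := h2
    rw [hw]
    exact h1.add_mul_left_left w
  · have h1 : ∑ l, (m i l : ℝ) * ∑ j, (a j l : ℝ) / q j = ∑ j, (dot (m i) (a j) : ℝ) / q j := by
      simp only [dot, Finset.mul_sum, Int.cast_sum, Finset.sum_div]
      rw [Finset.sum_comm]
      refine Finset.sum_congr rfl fun j _ => Finset.sum_congr rfl fun l _ => ?_
      push_cast; ring
    rw [h1, ← Finset.add_sum_erase _ _ (Finset.mem_univ i), ha i]
    simp only [Int.cast_zero, zero_div, zero_add, Int.cast_sum, Finset.sum_div]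
    refine Finset.sum_congr rfl fun j hj => ?_
    rw [← Finset.mul_prod_erase _ _ hj]
    have h2 : (0 : ℝ) < q j := by exact_mod_cast hq0 j
    have h3 : (0 : ℝ) < ∏ k ∈ (Finset.univ.erase i).erase j, (q k : ℝ) :=
      Finset.prod_pos fun k _ => by exact_mod_cast hq0 k
    push_cast
    field_simp

theorem exists_lift {r : ℕ} {ι : Type} [Fintype ι] (m : ι → Fin r → ℤ) (h1 : ∀ i, ∃ l, m i l = 1)
    (D : ℕ) [NeZero D] (q : ι → ℕ) (hq0 : ∀ i, 0 < q i)
    (hq : ∀ i j, i ≠ j → Nat.Coprime (q i) (q j))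
    (hD : ∀ i, Nat.Coprime (q i) D) (n : Fin r → ZMod D) (cl : ι → ℤ) :
    ∃ ν : Fin r → ℤ, (∀ l, (ν l : ZMod D) = n l) ∧ ∀ i, dot (m i) ν ≡ cl i [ZMOD q i] := by
  classical
  have _ := hq0
  choose li hli using h1
  let s : Option ι → ℕ := fun o => o.elim D q
  have hs : ∀ i j, i ≠ j → Nat.Coprime (s i) (s j) := by
    rintro (_ | i) (_ | j) hij
    · exact absurd rfl hij
    · exact (hD j).symm
    · exact hD i
    · exact hq i j fun h => hij (by rw [h])
  choose ν hν using fun l : Fin r =>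
    crt s hs fun o => o.elim ((n l).val : ℤ) fun i => if l = li i then cl i else 0
  refine ⟨ν, fun l => ?_, fun i => ?_⟩
  · have : ν l ≡ ((n l).val : ℤ) [ZMOD D] := hν l none
    rw [(ZMod.intCast_eq_intCast_iff _ _ _).2 this]
    simp
  · have h2 : ∀ l, ν l ≡ (if l = li i then cl i else 0) [ZMOD q i] := fun l => hν l (some i)
    have h3 : ∑ l, m i l * ν l ≡ ∑ l, m i l * (if l = li i then cl i else 0) [ZMOD q i] :=
      Int.ModEq.sum fun l _ => (h2 l).mul_left _
    simpa [dot, hli] using h3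

end Crest.Agent.R75
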