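import Crest.Agent.R75.PackingCore
import Crest.Agent.R75.Generic
import Crest.Agent.R75.Colouring

/-! The arc packing. -/

set_option autoImplicit false

namespace Crest.Agent.R75

open Real

namespace Packing

lemma card_key_le {α κ : Type} [DecidableEq κ] [AddCommGroup κ] {d : ℤ} (hd : d ≠ 0) {W : ℕ}
    (hW : 0 < W) (hdW : d.natAbs ∣ W) (good : Finset (Fin W × α)) (f : α → κ) (c : Fin W → κ)
    (x : ℝ) (hx : 0 ≤ x)
    (h : ∀ (σ : Fin W) (z : κ), ((good.filter fun b => b.1 = σ ∧ f b.2 = z).card : ℝ) ≤ x)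
    (z : κ) (s : ℤ) :
    ((good.filter fun b => f b.2 + c b.1 = z ∧ lo d b.1 % W = s).card : ℝ) ≤ d.natAbs * x := by
  classical
  have h1 : (good.filter fun b => f b.2 + c b.1 = z ∧ lo d b.1 % W = s) ⊆
      (Finset.univ.filter fun σ : Fin W => lo d σ % W = s).biUnion
        fun σ => good.filter fun b => b.1 = σ ∧ f b.2 = z - c σ := by
    intro b hb
    simp only [Finset.mem_filter] at hb
    simp only [Finset.mem_biUnion, Finset.mem_filter, Finset.mem_univ, true_and]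
    exact ⟨b.1, hb.2.2, hb.1, rfl, eq_sub_of_add_eq hb.2.1⟩
  have h2 := (Finset.card_le_card h1).trans Finset.card_biUnion_le
  have h3 : ((good.filter fun b => f b.2 + c b.1 = z ∧ lo d b.1 % W = s).card : ℝ) ≤
      ∑ σ ∈ (Finset.univ.filter fun σ : Fin W => lo d σ % W = s),
        ((good.filter fun b => b.1 = σ ∧ f b.2 = z - c σ).card : ℝ) := by exact_mod_cast h2
  refine h3.trans ((Finset.sum_le_card_nsmul _ _ x fun σ _ => h σ _).trans ?_)
  rw [nsmul_eq_mul]
  exact mul_le_mul_of_nonneg_right (by exact_mod_cast card_lo_le hd hW hdW s) hx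

lemma ratio_bound {g Rep W D E P ρ q dd e η : ℝ} (hRep : 0 < Rep) (hW : 0 < W) (hD : 0 < D)
    (hE : 0 < E) (hP : 0 < P) (hρ : 0 < ρ) (hdd : 0 < dd) (he : 0 < e) (he1 : e ≤ 1 / 4)
    (heη : 4 * e ≤ η) (h1 : (1 - e) * (W * E * P) ≤ g) (h2 : g ≤ (1 + e) * (W * E * P))
    (h3 : Rep * (2 * (dd * ((1 + e) * (E / D * P / ρ)))) ≤ q)
    (h4 : q ≤ (1 + e) * (Rep * (2 * (dd * ((1 + e) * (E / D * P / ρ)))))) :
    |2 * (g * Rep) * dd / (W * D * q) - ρ| ≤ η * ρ := by
  have hq : 0 < q := lt_of_lt_of_le (by positivity) h3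
  have hWDq : 0 < W * D * q := by positivity
  set A : ℝ := 2 * (W * E * P) * Rep * dd with hA
  have hA0 : 0 < A := by positivity
  have h5 : (1 + e) * A ≤ ρ * (W * D * q) := by
    have := mul_le_mul_of_nonneg_left h3 (by positivity : 0 ≤ ρ * (W * D))
    refine le_trans (le_of_eq ?_) (this.trans (le_of_eq (by ring)))
    rw [hA]; field_simp
  have h6 : ρ * (W * D * q) ≤ (1 + e) ^ 2 * A := by
    have := mul_le_mul_of_nonneg_left h4 (by positivity : 0 ≤ ρ * (W * D))
    refine le_trans (le_of_eq (by ring)) (this.trans (le_of_eq ?_))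
    rw [hA]; field_simp
  have h7 : 2 * (g * Rep) * dd ≤ (1 + e) * A := by
    have := mul_le_mul_of_nonneg_left h2 (by positivity : 0 ≤ 2 * Rep * dd)
    rw [hA]; linarith
  have h8 : (1 - e) * A ≤ 2 * (g * Rep) * dd := by
    have := mul_le_mul_of_nonneg_left h1 (by positivity : 0 ≤ 2 * Rep * dd)
    rw [hA]; linarith
  rw [abs_le]
  constructor
  · have h9 : (1 - 4 * e) * ρ ≤ 2 * (g * Rep) * dd / (W * D * q) := by
      rw [le_div_iff₀ hWDq]
      have h10 := mul_le_mul_of_nonneg_left h6 (by linarith : 0 ≤ 1 - 4 * e)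
      have h11 : (1 - 4 * e) * (1 + e) ^ 2 ≤ 1 - e := by nlinarith [sq_nonneg e, pow_pos he 3]
      have h12 := mul_le_mul_of_nonneg_right h11 hA0.le
      nlinarith
    nlinarith
  · have h9 : 2 * (g * Rep) * dd / (W * D * q) ≤ ρ := by
      rw [div_le_iff₀ hWDq]; linarith
    nlinarith

end Packing

open Packing

theorem packing {r : ℕ} {ι : Type} [Fintype ι] [Nonempty ι] (m : ι → Fin r → ℤ)
    (h1 : ∀ i, ∃ l, m i l = 1)
    (h2 : ∀ i j, i ≠ j → ∀ a b : ℤ, a • m i + b • m j = 0 → a = 0 ∧ b = 0)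
    (ρ : ι → ℝ) (hρ : ∀ i, 0 < ρ i) (hsum : ∑ i, ρ i = 1) (η : ℝ) (hη : 0 < η) :
    ∃ (n : ι → ℕ) (c : ι → ℤ) (α : Fin r → ℝ) (L : ℕ) (k0 : Fin r → ℤ) (B : ℕ)
      (ν : Fin B → Fin r → ℤ) (st : ι → ℕ),
      (∀ i, Odd (n i)) ∧ (∀ i, IsCoprime (c i) (n i : ℤ)) ∧
      (∀ i, ∑ l, (m i l : ℝ) * α l = c i / n i) ∧ 0 < L ∧ Even L ∧ (∀ i, st i * n i = L) ∧
      (∀ i, dot (m i) k0 ≠ 0) ∧ 0 < B ∧
      (∀ i, |2 * B * n i * |(dot (m i) k0 : ℝ)| / L - ρ i| ≤ η * ρ i) ∧
      Function.Injective (cellMap (J := Σ i : ι, Fin B × Fin (n i)) L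
        (fun I => dot (m I.1) (ν I.2.1) + ((I.2.2 : ℕ) * st I.1 : ℕ)) (fun I => dot (m I.1) k0)) := by
  classical
  obtain ⟨e, he, he1, heη⟩ : ∃ e : ℝ, 0 < e ∧ e ≤ 1 / 4 ∧ 4 * e ≤ η :=
    ⟨min η 1 / 4, by positivity, by have := min_le_right η 1; linarith,
      by have := min_le_left η 1; linarith⟩
  obtain ⟨k0, a, hk0, ha, ha'⟩ := exists_generic m h1 h2
  let d : ι → ℤ := fun i => dot (m i) k0
  have hd : ∀ i, 0 < (d i).natAbs := fun i => Int.natAbs_pos.2 (hk0 i)
  obtain ⟨W, hW, hWe, hdW⟩ : ∃ W : ℕ, 0 < W ∧ Even W ∧ ∀ i, (d i).natAbs ∣ W :=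
    ⟨2 * ∏ i, (d i).natAbs, Nat.mul_pos two_pos (Finset.prod_pos fun i _ => hd i),
      even_two_mul _, fun i => (Finset.dvd_prod_of_mem _ (Finset.mem_univ i)).mul_left 2⟩
  obtain ⟨D, hDne, col, good, hcol, hgood, hlow, hup, hfib⟩ :=
    colouring m a h1 ha ha' ρ hρ hsum e he W fun σ i => lo (d i) σ / W
  have hD : 0 < D := Nat.pos_of_ne_zero hDne.out
  have hD' : (0 : ℝ) < D := by exact_mod_cast hD
  have hW' : (0 : ℝ) < W := by exact_mod_cast hW
  have hP : 0 < ∏ i, ρ i := Finset.prod_pos fun i _ => hρ i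
  let x : ι → ℝ := fun i => (1 + e) * ((D : ℝ) ^ r / D * (∏ i, ρ i) / ρ i)
  have hx : ∀ i, 0 < x i := fun i => by have := hρ i; positivity
  have hd' : ∀ i, (0 : ℝ) < (d i).natAbs := fun i => by exact_mod_cast hd i
  obtain ⟨G, hG, hG2, hGD, hGa⟩ : ∃ G : ℕ, 0 < G ∧ 2 ∣ G ∧ D ∣ G ∧
      ∀ i j, i ≠ j → (dot (m i) (a j)).natAbs ∣ G := by
    let f : ι × ι → ℕ := fun p => if p.1 = p.2 then 1 else (dot (m p.1) (a p.2)).natAbs
    refine ⟨2 * D * ∏ p, f p, Nat.mul_pos (by omega) (Finset.prod_pos fun p _ => ?_),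
      (Dvd.intro _ rfl).mul_right _, (Dvd.intro_left _ rfl).mul_right _, fun i j hij => ?_⟩
    · simp only [f]
      split_ifs with h
      · exact one_pos
      · exact Int.natAbs_pos.2 (ha' _ _ h)
    · have : f (i, j) ∣ ∏ p, f p := Finset.dvd_prod_of_mem _ (Finset.mem_univ _)
      simp only [f, if_neg hij] at this
      exact this.mul_left _
  obtain ⟨Rep, q, hRep, hqG, hqq, hq⟩ := exists_coprime (fun i => 2 * ((d i).natAbs * x i))
    (fun i => by have := hx i; have := hd' i; positivity) G hG e he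
  have hRep' : (0 : ℝ) < Rep := by exact_mod_cast hRep
  have hq0' : ∀ i, (0 : ℝ) < q i := fun i =>
    lt_of_lt_of_le (by have := hx i; have := hd' i; positivity) (hq i).1
  have hq0 : ∀ i, 0 < q i := fun i => by exact_mod_cast hq0' i
  have hqD : ∀ i, Nat.Coprime (q i) D := fun i => (hqG i).coprime_dvd_right hGD
  obtain ⟨c, α, hcα⟩ := exists_alpha m a ha q hq0 hqq fun i j hij => by
    rw [Int.isCoprime_iff_gcd_eq_one, Int.gcd_eq_natAbs, Int.natAbs_natCast]
    exact ((hqG j).coprime_dvd_right (hGa i j hij)).symm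
  let n : ι → ℕ := fun i => ∏ j ∈ Finset.univ.erase i, q j
  have hqn : ∀ i, q i * n i = ∏ j, q j := fun i =>
    Finset.mul_prod_erase _ _ (Finset.mem_univ i)
  have hn0 : ∀ i, 0 < n i := fun i => Finset.prod_pos fun j _ => hq0 j
  -- blocks
  obtain ⟨B, hB, ⟨E⟩⟩ : ∃ B : ℕ, B = good.card * Rep ∧ Nonempty (Fin B ≃ good × Fin Rep) :=
    ⟨Fintype.card (good × Fin Rep), by simp, ⟨(Fintype.equivFin _).symm⟩⟩
  let f : ι → (Fin r → ZMod D) → ZMod D := fun i v => ∑ l, (m i l : ZMod D) * v l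
  let g : Fin B → Fin W × (Fin r → ZMod D) := fun b => (E b).1.1
  let key : ι → Fin B → ZMod D × ℤ := fun i b =>
    (f i (g b).2 + ((lo (d i) (g b).1 / W : ℤ) : ZMod D), lo (d i) (g b).1 % W)
  choose cl hcl hclinj using fun i => exists_rank (key i)
  have hcl2 : ∀ i b, 2 * (cl i b + 1) ≤ q i := by
    intro i b
    have h3 : (Finset.univ.filter fun b' => key i b' = key i b).card ≤
        ((good.filter fun b' => f i b'.2 + ((lo (d i) b'.1 / W : ℤ) : ZMod D) = (key i b).1 ∧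
          lo (d i) b'.1 % W = (key i b).2) ×ˢ (Finset.univ : Finset (Fin Rep))).card := by
      refine Finset.card_le_card_of_injOn (fun b' => (g b', (E b').2)) ?_ ?_
      · intro b' hb'
        simp only [Finset.coe_filter, Finset.mem_univ, true_and, Set.mem_ofPred_eq] at hb'
        simp only [Finset.coe_product, Finset.coe_filter, Finset.coe_univ, Set.mem_prod,
          Set.mem_ofPred_eq, Set.mem_univ, and_true]
        rw [← hb']
        exact ⟨(E b').1.2, rfl, rfl⟩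
      · intro b1 _ b2 _ h
        simp only [Prod.mk.injEq] at h
        exact E.injective (Prod.ext (Subtype.ext h.1) h.2)
    have h4 := card_key_le (hk0 i) hW (hdW i) good (f i)
      (fun σ => ((lo (d i) σ / W : ℤ) : ZMod D)) (x i) (hx i).le (hfib i) (key i b).1 (key i b).2
    rw [Finset.card_product, Finset.card_univ, Fintype.card_fin] at h3
    have h5 : cl i b + 1 ≤ _ := (Nat.succ_le_of_lt (hcl i b)).trans h3
    have h6 : ((cl i b + 1 : ℕ) : ℝ) ≤ (d i).natAbs * x i * Rep := by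
      refine (Nat.cast_le.2 h5).trans ?_
      rw [Nat.cast_mul]
      exact mul_le_mul_of_nonneg_right h4 hRep'.le
    have h7 : ((2 * (cl i b + 1) : ℕ) : ℝ) ≤ q i := by
      have := (hq i).1
      rw [Nat.cast_mul, Nat.cast_ofNat]; linarith
    exact_mod_cast h7
  choose ν' hν'D hν'q using fun b : Fin B =>
    exists_lift m h1 D q hq0 hqq hqD (g b).2 fun i => cl i b - lo (d i) (g b).1 / W
  have hZ : ∀ i b, ((dot (m i) (ν' b) + lo (d i) (g b).1 / W : ℤ) : ZMod D) = (key i b).1 := by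
    intro i b
    simp only [key, f, dot, Int.cast_add, Int.cast_sum, Int.cast_mul, hν'D]
  have hinj := injective_core W D (∏ j, q j) hW hD q n hqn d hdW (fun b => ((g b).1 : ℕ))
    (fun i b => dot (m i) (ν' b)) col hcol
    (fun i b => by rw [hZ]; exact hgood _ (E b).1.2 i) cl hcl2
    (fun i b => by
      have := (hν'q b i).add_right (lo (d i) (g b).1 / W)
      simpa using this)
    (fun i b b' h3 h4 h5 => hclinj i b b' (Prod.ext (by rw [← hZ, ← hZ, h3]) h4) h5)
  have hgood0 : (0 : ℝ) < good.card := lt_of_lt_of_le (mul_pos (by linarith) (by positivity)) hlow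
  refine ⟨n, c, α, W * D * ∏ j, q j, k0, B, fun b l => W * ν' b l + ((g b).1 : ℕ) * k0 l,
    fun i => W * D * q i, fun i => ?_, fun i => (hcα i).1, fun i => (hcα i).2, ?_, ?_,
    fun i => ?_, hk0, ?_, fun i => ?_, ?_⟩
  · refine Finset.prod_induction _ Odd (fun _ _ => Odd.mul) odd_one fun j _ => ?_
    exact Nat.coprime_two_right.1 ((hqG j).coprime_dvd_right hG2)
  · exact Nat.mul_pos (Nat.mul_pos hW hD) (Finset.prod_pos fun j _ => hq0 j)
  · exact (hWe.mul_right _).mul_right _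
  · rw [mul_assoc, hqn]
  · rw [hB]; exact Nat.mul_pos (by exact_mod_cast hgood0) hRep
  · have h3 := ratio_bound hRep' hW' hD' (by positivity) hP (hρ i) (hd' i) he he1 heη hlow hup
      (hq i).1 (hq i).2
    have h4 : (0 : ℝ) < n i := by exact_mod_cast hn0 i
    have h5 : 2 * (B : ℝ) * n i * |(dot (m i) k0 : ℝ)| / ((W * D * ∏ j, q j : ℕ) : ℝ) =
        2 * (good.card * Rep) * (d i).natAbs / (W * D * q i) := by
      rw [← hqn i, hB, Nat.cast_natAbs]
      have := hq0' i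
      push_cast
      field_simp
      rfl
    rw [h5]; exact h3
  · have h3 : ∀ i b, dot (m i) (fun l => W * ν' b l + ((g b).1 : ℕ) * k0 l) =
        W * dot (m i) (ν' b) + ((g b).1 : ℕ) * d i := by
      intro i b
      simp only [d, dot, Finset.mul_sum, ← Finset.sum_add_distrib]
      exact Finset.sum_congr rfl fun l _ => by ring
    convert hinj using 3 with I
    rw [h3, add_right_comm]

end Crest.Agent.R75
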