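import Crest.Agent.R75.Defs

/-! A flat real trigonometric polynomial with pairwise independent modes (task T2a). -/

set_option autoImplicit false

namespace Crest.Agent.R75

open Real

namespace Trig

/-- the requirements on a system of modes and amplitudes, except for the energy bound -/
def Good {r : ℕ} (S : Finset (Fin r → ℤ)) (f : (Fin r → ℤ) → ℝ) : Prop :=
  (∀ m ∈ S, f m ≠ 0) ∧ (∀ m ∈ S, ∃ l, m l = 1) ∧
    (∀ m ∈ S, ∀ m' ∈ S, m ≠ m' → ∀ a b : ℤ, a • m + b • m' = 0 → a = 0 ∧ b = 0) ∧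
    (∀ φ : Fin r → ℝ, |∑ m ∈ S, 2 * f m * cos (2 * π * ∑ l, (m l : ℝ) * φ l)| ≤ 1)

/-- the Fourier coefficients of `(1 - G ^ 2) / 2` -/
noncomputable def H {r : ℕ} (S : Finset (Fin r → ℤ)) (f : (Fin r → ℤ) → ℝ) :
    (Fin r → ℤ) →₀ ℝ :=
  Finsupp.single 0 (1 / 2) - ∑ m ∈ S, ∑ m' ∈ S,
    (Finsupp.single (m + m') (f m * f m' / 2) + Finsupp.single (m - m') (f m * f m' / 2) +
      Finsupp.single (-m + m') (f m * f m' / 2) + Finsupp.single (-m - m') (f m * f m' / 2))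

lemma cos_four (A A' B : ℝ) :
    cos (B + (A + A')) + cos (B + (A - A')) + cos (B + (-A + A')) + cos (B + (-A - A')) =
      4 * cos A * cos A' * cos B := by
  simp only [cos_add, sin_add, cos_sub, sin_sub, cos_neg, sin_neg]
  ring

lemma sum_H {r : ℕ} (S : Finset (Fin r → ℤ)) (f : (Fin r → ℤ) → ℝ) (φ₀ : ℝ) (φ : Fin r → ℝ) :
    ∑ m ∈ (H S f).support, H S f m * cos (2 * π * (φ₀ + ∑ l, (m l : ℝ) * φ l)) =
      (1 - (∑ m ∈ S, 2 * f m * cos (2 * π * ∑ l, (m l : ℝ) * φ l)) ^ 2) / 2 *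
        cos (2 * π * φ₀) := by
  have h1 : ∑ m ∈ (H S f).support, H S f m * cos (2 * π * (φ₀ + ∑ l, (m l : ℝ) * φ l)) =
      Finsupp.linearCombination ℝ
        (fun m : Fin r → ℤ => cos (2 * π * (φ₀ + ∑ l, (m l : ℝ) * φ l))) (H S f) := by
    rw [Finsupp.linearCombination_apply, Finsupp.sum]
    simp only [smul_eq_mul]
  rw [h1, H, map_sub, map_sum, Finsupp.linearCombination_single, sq, Finset.sum_mul_sum]
  simp only [map_sum, map_add, Finsupp.linearCombination_single, smul_eq_mul]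
  have h2 : ∀ m m' : Fin r → ℤ,
      f m * f m' / 2 * cos (2 * π * (φ₀ + ∑ l, (((m + m') l : ℤ) : ℝ) * φ l)) +
        f m * f m' / 2 * cos (2 * π * (φ₀ + ∑ l, (((m - m') l : ℤ) : ℝ) * φ l)) +
        f m * f m' / 2 * cos (2 * π * (φ₀ + ∑ l, (((-m + m') l : ℤ) : ℝ) * φ l)) +
        f m * f m' / 2 * cos (2 * π * (φ₀ + ∑ l, (((-m - m') l : ℤ) : ℝ) * φ l)) =
      2 * f m * cos (2 * π * ∑ l, (m l : ℝ) * φ l) *
        (2 * f m' * cos (2 * π * ∑ l, (m' l : ℝ) * φ l)) / 2 * cos (2 * π * φ₀) := by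
    intro m m'
    have := cos_four (2 * π * ∑ l, (m l : ℝ) * φ l) (2 * π * ∑ l, (m' l : ℝ) * φ l) (2 * π * φ₀)
    simp only [Pi.add_apply, Pi.sub_apply, Pi.neg_apply, Int.cast_add, Int.cast_sub, Int.cast_neg,
      add_mul, sub_mul, neg_mul, Finset.sum_add_distrib, Finset.sum_sub_distrib,
      Finset.sum_neg_distrib, mul_add, mul_sub, mul_neg]
    linear_combination (f m * f m' / 2) * this
  simp only [h2, Pi.zero_apply, Int.cast_zero, zero_mul, Finset.sum_const_zero, add_zero]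
  simp only [← Finset.sum_mul, ← Finset.sum_div]
  ring

lemma H_zero {r : ℕ} {S : Finset (Fin r → ℤ)} {f : (Fin r → ℤ) → ℝ} (hS : Good S f) :
    H S f 0 = (1 - ∑ m ∈ S, 2 * f m ^ 2) / 2 := by
  classical
  obtain ⟨-, h2, h3, -⟩ := hS
  have hadd : ∀ m ∈ S, ∀ m' ∈ S, m + m' ≠ 0 := by
    intro m hm m' hm' h0
    by_cases hmm : m = m'
    · subst hmm
      obtain ⟨l, hl⟩ := h2 m hm
      have := congrFun h0 l
      simp [hl] at this
    · have := (h3 m hm m' hm' hmm 1 1 (by simpa using h0)).1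
      exact one_ne_zero this
  have key : ∀ m ∈ S, ∑ m' ∈ S,
      (Finsupp.single (m + m') (f m * f m' / 2) + Finsupp.single (m - m') (f m * f m' / 2) +
      Finsupp.single (-m + m') (f m * f m' / 2) + Finsupp.single (-m - m') (f m * f m' / 2) :
        (Fin r → ℤ) →₀ ℝ) 0 = f m ^ 2 := by
    intro m hm
    rw [Finset.sum_eq_single m]
    · have h1 := hadd m hm m hm
      have h4 : -m - m ≠ 0 := fun h => h1 (by rw [← neg_eq_zero, ← h]; ring)
      simp only [Finsupp.add_apply, Finsupp.single_apply, if_neg h1, if_neg h4, sub_self,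
        neg_add_cancel, if_true]
      ring
    · intro m' hm' hne
      have h1 := hadd m hm m' hm'
      have h4 : -m - m' ≠ 0 := fun h => h1 (by rw [← neg_eq_zero, ← h]; ring)
      have h5 : m - m' ≠ 0 := sub_ne_zero.2 hne.symm
      have h6 : -m + m' ≠ 0 := fun h => h5 (by rw [← neg_eq_zero, ← h]; ring)
      simp only [Finsupp.add_apply, Finsupp.single_apply, if_neg h1, if_neg h4, if_neg h5,
        if_neg h6, add_zero]
    · intro h; exact absurd hm h
  rw [H, Finsupp.sub_apply, Finsupp.single_eq_same, Finsupp.finsetSum_apply]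
  simp only [Finsupp.finsetSum_apply]
  rw [Finset.sum_congr rfl key, ← Finset.mul_sum]
  ring

/-- one step of the martingale construction -/
lemma step {r : ℕ} {S : Finset (Fin r → ℤ)} {f : (Fin r → ℤ) → ℝ} (hS : Good S f) :
    ∃ (S' : Finset (Fin (r + 1) → ℤ)) (f' : (Fin (r + 1) → ℤ) → ℝ), Good S' f' ∧
      ∑ m ∈ S, 2 * f m ^ 2 + (1 - ∑ m ∈ S, 2 * f m ^ 2) ^ 2 / 8 ≤ ∑ m ∈ S', 2 * f' m ^ 2 := by
  classical
  let c : ℤ → (Fin r → ℤ) → (Fin (r + 1) → ℤ) := fun a m => Fin.cons a m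
  have hc0 : ∀ a m, c a m 0 = a := fun a m => rfl
  have hcs : ∀ a m (l : Fin r), c a m l.succ = m l := fun a m l => rfl
  have hinj : ∀ a, Function.Injective (c a) := fun a m m' h =>
    funext fun l => by rw [← hcs a m l, h, hcs]
  let f' : (Fin (r + 1) → ℤ) → ℝ := fun v =>
    if v 0 = 0 then f (Fin.tail v) else H S f (Fin.tail v) / 2
  have hf0 : ∀ m, f' (c 0 m) = f m := fun m => by simp [f', c]
  have hf1 : ∀ m, f' (c 1 m) = H S f m / 2 := fun m => by simp [f', c]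
  have hdisj : Disjoint (S.image (c 0)) ((H S f).support.image (c 1)) := by
    rw [Finset.disjoint_left]
    intro v hv hv'
    obtain ⟨m, -, rfl⟩ := Finset.mem_image.1 hv
    obtain ⟨m', -, h⟩ := Finset.mem_image.1 hv'
    have := congrFun h 0
    rw [hc0, hc0] at this
    exact one_ne_zero this
  have hsum : ∀ g : (Fin (r + 1) → ℤ) → ℝ,
      ∑ v ∈ S.image (c 0) ∪ (H S f).support.image (c 1), g v =
        ∑ m ∈ S, g (c 0 m) + ∑ m ∈ (H S f).support, g (c 1 m) := by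
    intro g
    rw [Finset.sum_union hdisj, Finset.sum_image fun _ _ _ _ h => hinj 0 h,
      Finset.sum_image fun _ _ _ _ h => hinj 1 h]
  have hmem : ∀ v ∈ S.image (c 0) ∪ (H S f).support.image (c 1),
      (∃ m ∈ S, v = c 0 m) ∨ ∃ m ∈ (H S f).support, v = c 1 m := by
    intro v hv
    rcases Finset.mem_union.1 hv with hv | hv
    · obtain ⟨m, hm, rfl⟩ := Finset.mem_image.1 hv
      exact Or.inl ⟨m, hm, rfl⟩
    · obtain ⟨m, hm, rfl⟩ := Finset.mem_image.1 hv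
      exact Or.inr ⟨m, hm, rfl⟩
  obtain ⟨h1, h2, h3, h4⟩ := id hS
  refine ⟨S.image (c 0) ∪ (H S f).support.image (c 1), f', ⟨?_, ?_, ?_, ?_⟩, ?_⟩
  · intro v hv
    rcases hmem v hv with ⟨m, hm, rfl⟩ | ⟨m, hm, rfl⟩
    · rw [hf0]; exact h1 m hm
    · rw [hf1]; exact div_ne_zero (Finsupp.mem_support_iff.1 hm) two_ne_zero
  · intro v hv
    rcases hmem v hv with ⟨m, hm, rfl⟩ | ⟨m, hm, rfl⟩
    · obtain ⟨l, hl⟩ := h2 m hm
      exact ⟨l.succ, by rw [hcs, hl]⟩
    · exact ⟨0, rfl⟩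
  · intro v hv v' hv' hne a b hab
    have e0 := congrFun hab 0
    have es : ∀ l : Fin r, a * v l.succ + b * v' l.succ = 0 := fun l => by
      simpa using congrFun hab l.succ
    simp only [Pi.add_apply, Pi.smul_apply, smul_eq_mul, Pi.zero_apply] at e0
    rcases hmem v hv with ⟨m, hm, rfl⟩ | ⟨m, hm, rfl⟩ <;>
      rcases hmem v' hv' with ⟨m', hm', rfl⟩ | ⟨m', hm', rfl⟩ <;>
      simp only [hc0, hcs] at e0 es
    · refine h3 m hm m' hm' (fun h => hne (by rw [h])) a b (funext fun l => ?_)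
      simpa using es l
    · obtain ⟨l, hl⟩ := h2 m hm
      have := es l
      rw [hl] at this
      have hb : b = 0 := by omega
      subst hb
      omega
    · obtain ⟨l, hl⟩ := h2 m' hm'
      have := es l
      rw [hl] at this
      have ha : a = 0 := by omega
      subst ha
      omega
    · have hmm : m ≠ m' := fun h => hne (by rw [h])
      obtain ⟨l, hl⟩ := Function.ne_iff.1 hmm
      have hb : b = -a := by omega
      subst hb
      have : a * (m l - m' l) = 0 := by linear_combination es l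
      have ha : a = 0 := (mul_eq_zero.1 this).resolve_right (sub_ne_zero.2 hl)
      simp [ha]
  · intro φ
    rw [hsum]
    simp only [hf0, hf1, Fin.sum_univ_succ, hc0, hcs, Int.cast_zero, zero_mul, zero_add,
      Int.cast_one, one_mul]
    have e1 : ∀ m, 2 * (H S f m / 2) = H S f m := fun m => by ring
    simp only [e1]
    rw [sum_H S f (φ 0) (fun l => φ l.succ)]
    have hG := h4 (fun l => φ l.succ)
    set G := ∑ m ∈ S, 2 * f m * cos (2 * π * ∑ l, (m l : ℝ) * φ l.succ)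
    have hcos := abs_cos_le_one (2 * π * φ 0)
    have hG2 : 0 ≤ 1 - G ^ 2 := by
      have := abs_le.1 hG
      nlinarith
    calc |G + (1 - G ^ 2) / 2 * cos (2 * π * φ 0)|
        ≤ |G| + (1 - G ^ 2) / 2 * |cos (2 * π * φ 0)| := by
          refine (abs_add_le _ _).trans (le_of_eq ?_)
          rw [abs_mul, abs_of_nonneg (by positivity : 0 ≤ (1 - G ^ 2) / 2)]
      _ ≤ |G| + (1 - G ^ 2) / 2 * 1 := by gcongr
      _ ≤ 1 := by
          rw [← sq_abs G]
          nlinarith [sq_nonneg (1 - |G|)]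
  · rw [hsum]
    simp only [hf0, hf1]
    have e : (1 - ∑ m ∈ S, 2 * f m ^ 2) ^ 2 / 8 = 2 * (H S f 0 / 2) ^ 2 := by
      rw [H_zero hS]; ring
    rw [e]
    gcongr
    by_cases h0 : (0 : Fin r → ℤ) ∈ (H S f).support
    · exact Finset.single_le_sum (f := fun m => 2 * (H S f m / 2) ^ 2)
        (fun m _ => by positivity) h0
    · rw [Finsupp.notMem_support_iff.1 h0]
      simp only [zero_div, ne_eq, OfNat.ofNat_ne_zero, not_false_eq_true, zero_pow, mul_zero]
      positivity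

lemma exists_energy (ε : ℝ) (hε : 0 < ε) (n : ℕ) :
    ∃ (r : ℕ) (S : Finset (Fin r → ℤ)) (f : (Fin r → ℤ) → ℝ), Good S f ∧
      min (1 - ε) (n * (ε ^ 2 / 8)) ≤ ∑ m ∈ S, 2 * f m ^ 2 := by
  induction n with
  | zero => exact ⟨0, ∅, fun _ => 0, ⟨by simp, by simp, by simp, by simp⟩, by simp⟩
  | succ n ih =>
    obtain ⟨r, S, f, hS, hE⟩ := ih
    by_cases h : 1 - ε ≤ ∑ m ∈ S, 2 * f m ^ 2
    · exact ⟨r, S, f, hS, (min_le_left _ _).trans h⟩
    · obtain ⟨S', f', hS', hE'⟩ := step hS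
      refine ⟨r + 1, S', f', hS', (min_le_right _ _).trans (le_trans ?_ hE')⟩
      push Not at h
      have h1 : n * (ε ^ 2 / 8) ≤ ∑ m ∈ S, 2 * f m ^ 2 := by
        rcases min_le_iff.1 hE with h' | h'
        · exact absurd h' (not_le.2 h)
        · exact h'
      have h2 : ε ^ 2 ≤ (1 - ∑ m ∈ S, 2 * f m ^ 2) ^ 2 := by
        apply pow_le_pow_left₀ hε.le
        linarith
      push_cast
      linarith

end Trig

theorem exists_trig (ε : ℝ) (hε : 0 < ε) :
    ∃ (r : ℕ) (S : Finset (Fin r → ℤ)) (f : (Fin r → ℤ) → ℝ),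
      (∀ m ∈ S, f m ≠ 0) ∧ (∀ m ∈ S, ∃ l, m l = 1) ∧
      (∀ m ∈ S, ∀ m' ∈ S, m ≠ m' → ∀ a b : ℤ, a • m + b • m' = 0 → a = 0 ∧ b = 0) ∧
      (∀ φ : Fin r → ℝ, |∑ m ∈ S, 2 * f m * cos (2 * π * ∑ l, (m l : ℝ) * φ l)| ≤ 1) ∧
      1 - ε ≤ ∑ m ∈ S, 2 * f m ^ 2 := by
  obtain ⟨n, hn⟩ := exists_nat_ge ((1 - ε) / (ε ^ 2 / 8))
  obtain ⟨r, S, f, ⟨h1, h2, h3, h4⟩, hE⟩ := Trig.exists_energy ε hε n
  refine ⟨r, S, f, h1, h2, h3, h4, le_trans ?_ hE⟩
  rw [div_le_iff₀ (by positivity)] at hn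
  exact le_min le_rfl hn

end Crest.Agent.R75
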