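import Crest.Agent.R75.System
import Crest.Agent.R75.Trig
import Crest.Agent.R75.Gauss
import Crest.Agent.R75.Packing
import Crest.Agent.R75.Tiling

/-! A real polynomial with coefficients at most `1 + ε` and modulus `(1 ± ε) √N`. -/

set_option autoImplicit false

namespace Crest.Agent.R75

open Real Filter

lemma ev1 (c lam0 : ℝ) (hc : 0 < c) : ∀ᶠ N : ℕ in atTop, lam0 ≤ c * N :=
  (tendsto_natCast_atTop_atTop.const_mul_atTop hc).eventually_ge_atTop lam0

lemma ev2 (C ε : ℝ) (hε : 0 < ε) : ∀ᶠ N : ℕ in atTop, C / √N ≤ ε := by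
  have h : Tendsto (fun N : ℕ => C / √(N : ℝ)) atTop (nhds 0) :=
    tendsto_const_nhds.div_atTop (Real.tendsto_sqrt_atTop.comp tendsto_natCast_atTop_atTop)
  exact h.eventually_le_const hε

lemma amp_bounds {η δ x ρ y A : ℝ} (hη : 0 < η) (hη' : η ≤ 1 / 10) (hδ : 0 < δ) (hδ' : δ ≤ η)
    (hx : |x - ρ| ≤ η * ρ) (hy : 0 ≤ y) (hy2 : y ^ 2 = ρ / 2) (hA : 0 ≤ A)
    (hA2 : A ^ 2 * (1 - 3 * η) = x / 2 * ((1 - 2 * δ) * (1 + 2 * η))) :
    y ≤ A ∧ A ≤ (1 + 10 * η) * y := by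
  have hρ : 0 ≤ ρ := by nlinarith [sq_nonneg y]
  obtain ⟨hx1, hx2⟩ := abs_le.1 hx
  have h3 : 0 < 1 - 3 * η := by linarith
  have hx0 : 0 ≤ x := by nlinarith
  constructor
  · refine (pow_le_pow_iff_left₀ hy hA two_ne_zero).1 (le_of_mul_le_mul_right ?_ h3)
    rw [hA2, hy2]
    have h1 : (1 - 2 * η) * (1 + 2 * η) ≤ (1 - 2 * δ) * (1 + 2 * η) := by nlinarith
    have h2 : (1 - η) * ρ ≤ x := by linarith
    have h4 : 1 - 3 * η ≤ (1 - η) * ((1 - 2 * η) * (1 + 2 * η)) := by nlinarith [sq_nonneg η]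
    calc ρ / 2 * (1 - 3 * η) ≤ ρ / 2 * ((1 - η) * ((1 - 2 * η) * (1 + 2 * η))) := by gcongr
      _ = (1 - η) * ρ / 2 * ((1 - 2 * η) * (1 + 2 * η)) := by ring
      _ ≤ x / 2 * ((1 - 2 * δ) * (1 + 2 * η)) := by
        apply mul_le_mul (by linarith) h1 (by nlinarith) (by linarith)
  · refine (pow_le_pow_iff_left₀ hA (by positivity) two_ne_zero).1 (le_of_mul_le_mul_right ?_ h3)
    rw [hA2, mul_pow, hy2]
    have h1 : (1 - 2 * δ) * (1 + 2 * η) ≤ 1 + 2 * η := by nlinarith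
    have h2 : x ≤ (1 + η) * ρ := by linarith
    have h4 : (1 + η) * (1 + 2 * η) ≤ (1 + 10 * η) ^ 2 * (1 - 3 * η) := by
      nlinarith [sq_nonneg η, mul_pos hη hη, mul_nonneg (mul_pos hη hη).le (sub_nonneg.2 hη')]
    calc x / 2 * ((1 - 2 * δ) * (1 + 2 * η)) ≤ (1 + η) * ρ / 2 * (1 + 2 * η) :=
          mul_le_mul (by linarith) h1 (by nlinarith) (by positivity)
      _ = ρ / 2 * ((1 + η) * (1 + 2 * η)) := by ring
      _ ≤ ρ / 2 * ((1 + 10 * η) ^ 2 * (1 - 3 * η)) := by gcongr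
      _ = _ := by ring

lemma filler_bound (R L : ℕ) (hL : 0 < L) (p : Fin R → ℝ) {η δ N : ℝ} (k : ℝ) (hη : 0 < η)
    (hη' : η ≤ 1 / 10) (hδ : 0 < δ) (hδ' : δ < 1 / 2) (hN : 0 < N) (hR : 2 * (R : ℝ) ≤ η * L) :
    |2 * (∑ f : Fin R, term δ (p f) (1 / L) N (η + (f : ℕ) * 2 * ((1 - 3 * η) / (2 * R)))
      ((1 - 3 * η) / (2 * R)) 0 (fun y => y ^ 2 / 2) k).re| ≤
      10 * √η + R * (4 / (√N * ((1 - 3 * η) / (2 * R)))) := by
  rcases Nat.eq_zero_or_pos R with rfl | hR0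
  · simp
  have hLr : (0 : ℝ) < L := by exact_mod_cast hL
  have hRr : (0 : ℝ) < R := by exact_mod_cast hR0
  have h3 : 0 < 1 - 3 * η := by linarith
  refine (filler_part R p η k hδ' (by positivity) hN (by positivity)).trans
    (add_le_add_left ?_ _)
  have : √(|1 / (L : ℝ)| * (1 - 2 * δ) / ((1 - 3 * η) / (2 * R))) ≤ 5 / 4 * √η := by
    rw [Real.sqrt_le_iff]
    refine ⟨by positivity, ?_⟩
    rw [mul_pow, Real.sq_sqrt hη.le, abs_of_pos (by positivity), div_le_iff₀ (by positivity)]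
    have e : (5 / 4) ^ 2 * η * ((1 - 3 * η) / (2 * R)) =
        1 / L * ((5 / 4) ^ 2 * (1 - 3 * η) * (η * L / (2 * R))) := by field_simp
    rw [e]
    have h1 : 1 ≤ η * L / (2 * R) := by rw [le_div_iff₀ (by positivity)]; linarith
    gcongr
    nlinarith
  linarith

theorem flat_real (ε₁ : ℝ) (hε : 0 < ε₁) (hε1 : ε₁ ≤ 1) :
    ∃ N0 : ℕ, ∀ N : ℕ, N0 ≤ N → ∃ a : Fin N → ℝ, (∀ k, |a k| ≤ 1 + ε₁) ∧
      ∀ z : ℂ, ‖z‖ = 1 → |‖∑ k : Fin N, (a k : ℂ) * z ^ (k : ℕ)‖ - √N| ≤ ε₁ * √N := by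
  classical
  obtain ⟨r, S, f0, hf0, hS1, hS2, hF, hE⟩ := exists_trig (ε₁ / 8) (by positivity)
  set f : S → ℝ := fun i => f0 i with hf
  set m : S → Fin r → ℤ := fun i => i with hm
  set E : ℝ := ∑ i, 2 * f i ^ 2 with hEdef
  have hE' : 1 - ε₁ / 8 ≤ E := by
    rw [hEdef]; simp only [hf]; rwa [Finset.sum_coe_sort S fun i => 2 * f0 i ^ 2]
  have hEpos : 0 < E := by linarith
  have hF' : ∀ φ : Fin r → ℝ, |∑ i, 2 * f i * cos (2 * π * ∑ l, (m i l : ℝ) * φ l)| ≤ 1 := by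
    intro φ
    simp only [hf, hm]
    rw [Finset.sum_coe_sort S fun i => 2 * f0 i * cos (2 * π * ∑ l, (i l : ℝ) * φ l)]
    exact hF φ
  have : Nonempty S := by
    by_contra h
    rw [not_nonempty_iff] at h
    simp [hEdef] at hEpos
  set β : ℝ := 1 / √E with hβ
  have hsE : 0 < √E := Real.sqrt_pos.2 hEpos
  have hβ0 : 0 ≤ β := by positivity
  have hβ1 : β ≤ 1 + ε₁ / 4 := by
    rw [hβ, div_le_iff₀ hsE]
    have : 1 - ε₁ / 8 ≤ √E := Real.le_sqrt_of_sq_le (by nlinarith)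
    nlinarith
  set Φ : ℝ := ∑ i, |f i| with hΦ
  have hΦ0 : 0 ≤ Φ := Finset.sum_nonneg fun i _ => abs_nonneg _
  set e : ℝ := ε₁ / (400 * (Φ + 1)) with he
  have he0 : 0 < e := by positivity
  have he1 : e * (Φ + 1) = ε₁ / 400 := by rw [he]; field_simp
  have he2 : e ≤ 1 / 400 := by nlinarith
  set η : ℝ := e ^ 2 with hηdef
  have hη : 0 < η := by positivity
  have hηe : η ≤ e := by nlinarith
  have hη' : η ≤ 1 / 10 := by linarith
  have h3 : 0 < 1 - 3 * η := by linarith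
  obtain ⟨n, c, α, L, k0, B, ν, st, hodd, hcop, hα, hL, hLe, hst, hd, hB, hrat, hinj⟩ :=
    packing m (fun i => hS1 i i.2) (fun i j hij => hS2 i i.2 j j.2 fun h => hij (Subtype.ext h))
      (fun i => 2 * f i ^ 2 / E) (fun i => by have := hf0 i i.2; positivity)
      (by rw [← Finset.sum_div, div_self hEpos.ne']) η hη
  obtain ⟨R, Pf, hcount, htile⟩ := complete_tiling L hL hLe _ _ hinj
  obtain ⟨Γ, g, g', lam0, hlam0, hΓ0, hΓ, hg, hg', hpos, hg0, hg1, hb⟩ := osc_body η η hη hη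
  choose φ hφ using fun i => gauss_expand (n i) (hodd i) (c i) (hcop i)
  have hLr : (0 : ℝ) < L := by exact_mod_cast hL
  have hBr : (0 : ℝ) < B := by exact_mod_cast hB
  have hR : 2 * (R : ℝ) ≤ η * L := by
    have h1 : (2 : ℝ) * (∑ i, B * n i * |(dot (m i) k0 : ℝ)|) + 2 * R = L := by
      have := congrArg (Nat.cast : ℕ → ℝ) hcount
      rw [Fintype.sum_sigma] at this
      simpa [Nat.cast_natAbs] using this
    have h2 : ∑ i, (1 - η) * (2 * f i ^ 2 / E) ≤ ∑ i, 2 * B * n i * |(dot (m i) k0 : ℝ)| / L :=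
      Finset.sum_le_sum fun i _ => by linarith [(abs_le.1 (hrat i)).1]
    rw [← Finset.mul_sum, ← Finset.sum_div, ← Finset.sum_div, div_self hEpos.ne',
      le_div_iff₀ hLr] at h2
    have h4 : ∑ i, 2 * B * n i * |(dot (m i) k0 : ℝ)| = 2 * ∑ i, B * n i * |(dot (m i) k0 : ℝ)| := by
      rw [Finset.mul_sum]; exact Finset.sum_congr rfl fun i _ => by ring
    linarith
  set τ : ℝ := (1 - 3 * η) / (B * (1 + 2 * η)) with hτdef
  set τf : ℝ := (1 - 3 * η) / (2 * R) with hτf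
  have hτ : 0 < τ := by positivity
  set Z : ℝ := ∑ I : (Σ i : S, Fin B × Fin (n i)) ⊕ Fin R,
    √|((Sum.elim (fun I : Σ i : S, Fin B × Fin (n i) => dot (m I.1) k0) (fun _ => 1) I : ℤ) / L : ℝ)|
    with hZ
  have hZ0 : 0 ≤ Z := Finset.sum_nonneg fun I _ => Real.sqrt_nonneg _
  set e' : ℝ := ε₁ / (128 * (Z + 1)) with he'
  have he'0 : 0 < e' := by positivity
  have he'1 : e' * (Z + 1) = ε₁ / 128 := by rw [he']; field_simp
  have he'2 : e' ≤ 1 := by nlinarith
  set δ : ℝ := η * e' ^ 2 with hδdef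
  have hδ : 0 < δ := by positivity
  have hδη : δ ≤ η := mul_le_of_le_one_right hη.le (by nlinarith)
  have hδ' : δ < 1 / 2 := by linarith
  have h12 : 0 < 1 - 2 * δ := by linarith
  have hμ : ∀ i, (dot (m i) k0 / L : ℝ) ≠ 0 := fun i =>
    div_ne_zero (by exact_mod_cast hd i) hLr.ne'
  have ha : ∀ i, β * |f i| ≤ √(n i) * √(|(dot (m i) k0 / L : ℝ)| * (1 - 2 * δ) / τ) ∧
      √(n i) * √(|(dot (m i) k0 / L : ℝ)| * (1 - 2 * δ) / τ) ≤ (1 + 10 * η) * (β * |f i|) := by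
    intro i
    refine amp_bounds hη hη' hδ hδη (hrat i) (by positivity) ?_ (by positivity) ?_
    · rw [mul_pow, sq_abs, hβ, div_pow, Real.sq_sqrt hEpos.le]; ring
    · rw [mul_pow, Real.sq_sqrt (by positivity), Real.sq_sqrt (by positivity), abs_div,
        abs_of_pos hLr, hτdef]
      field_simp
  obtain ⟨N1, hN1⟩ := eventually_atTop.1 ((eventually_all.2 fun i =>
    ev1 (|(dot (m i) k0 / L : ℝ)| * (1 - 2 * δ) * τ) lam0
      (by have := abs_pos.2 (hμ i); positivity)).and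
    ((ev2 (B * ((∑ i, (n i : ℝ)) * (4 / (τ * η))) + R * (4 / τf)) (ε₁ / 8) (by positivity)).and
      (eventually_gt_atTop 0)))
  obtain ⟨N0, hN0⟩ := system_flat L hL _ _ (by rintro (I | I) <;> simp [hd]) htile η hη
    (by linarith) δ hδ hδ'
    (Sum.elim (fun I => η + (I.2.1 : ℕ) * (1 + 2 * η) * τ) fun I => η + (I : ℕ) * 2 * τf)
    (Sum.elim (fun _ => τ) fun _ => τf)
    (Sum.elim (fun I => φ I.1 I.2.2 + sgnPhase (f I.1) (dot (m I.1) k0 / L)) fun _ => 0)
    (Sum.elim (fun _ => Γ) fun _ y => y ^ 2 / 2) (Sum.elim (fun _ => g) fun _ y => y)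
    (Sum.elim (fun _ => g') fun _ _ => 1)
    (by rintro (I | I) <;> simp [hΓ0])
    (by rintro (I | I) y
        · exact hΓ y
        · simpa using (hasDerivAt_pow 2 y).div_const 2)
    (by rintro (I | I) y
        · exact hg y
        · exact hasDerivAt_id y)
    (by rintro (I | I)
        · exact hg'
        · exact continuous_const)
    (by rintro (I | I) y
        · exact zero_le_one.trans (hpos y)
        · exact zero_le_one)
    (by rintro (I | I) <;> simp [hg0])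
    (by rintro (I | I)
        · simp only [Sum.elim_inl]; exact le_add_of_nonneg_right (by positivity)
        · simp only [Sum.elim_inr]; exact le_add_of_nonneg_right (by positivity))
    (by rintro (I | I)
        · exact hτ
        · have : (0 : ℝ) < R := by exact_mod_cast I.pos
          simp only [Sum.elim_inr]; positivity)
    (by rintro (I | I)
        · simp only [Sum.elim_inl]
          have h1 : ((I.2.1 : ℕ) : ℝ) + 1 ≤ B := by exact_mod_cast I.2.1.2
          have h2 : τ * (B * (1 + 2 * η)) = 1 - 3 * η := by rw [hτdef]; field_simp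
          have h4 : τ * g 1 ≤ τ * (1 + 2 * η) := by gcongr; linarith
          have h5 : (((I.2.1 : ℕ) : ℝ) + 1) * ((1 + 2 * η) * τ) ≤ B * ((1 + 2 * η) * τ) := by gcongr
          linarith
        · simp only [Sum.elim_inr]
          have h0 : (0 : ℝ) < R := by exact_mod_cast I.pos
          have h1 : ((I : ℕ) : ℝ) + 1 ≤ R := by exact_mod_cast I.2
          have h2 : τf * (2 * R) = 1 - 3 * η := by rw [hτf]; field_simp
          have h4 : 0 < τf := by positivity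
          have h5 : (((I : ℕ) : ℝ) + 1) * (2 * τf) ≤ R * (2 * τf) := by gcongr
          linarith)
    (1 + ε₁ * 7 / 8) N1
    (by
      intro N hN k
      obtain ⟨a1, a2, a3⟩ := hN1 N hN
      have hNr : (0 : ℝ) < N := by exact_mod_cast a3
      rw [Fintype.sum_sum_type, Complex.add_re, mul_add]
      simp only [Sum.elim_inl, Sum.elim_inr, Int.cast_one]
      have b1 := main_part m f hF' n c α hα L hL st hst k0 hd B ν φ hφ hη hη hΓ hg hg'
        (fun y => zero_le_one.trans (hpos y)) hg0 hg1 hb η hδ' hNr hτ k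
        (fun i => by
          rw [abs_mul, abs_mul, abs_mul, abs_of_pos h12, abs_of_pos hNr, abs_of_pos hτ]
          linarith [a1 i]) β (10 * η) hβ0 (by positivity) ha
      have b2 := filler_bound R L hL (fun I => (Pf I : ℝ) / L) (k : ℝ) hη hη' hδ hδ' hNr hR
      refine (abs_add_le _ _).trans ((add_le_add b1 b2).trans ?_)
      have c1 : √η = e := by rw [hηdef, Real.sqrt_sq he0.le]
      have c2 : B * ((∑ i, (n i : ℝ)) * (4 / (√N * τ * η))) +
          R * (4 / (√N * ((1 - 3 * η) / (2 * R)))) =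
          (B * ((∑ i, (n i : ℝ)) * (4 / (τ * η))) + R * (4 / τf)) / √N := by
        rw [← hτf]; ring_nf
      have c3 : η * β * Φ ≤ e * 2 * (Φ + 1) := by
        gcongr
        · linarith
        · linarith
      have c4 : η * (η * β * Φ) ≤ 1 / 10 * (η * β * Φ) := by gcongr
      have c5 : e ≤ e * (Φ + 1) := le_mul_of_one_le_right he0.le (by linarith)
      rw [← hΦ, c1]
      linarith)
    ε₁ hε
  refine ⟨N0, fun N hN => ?_⟩
  obtain ⟨a, ha1, ha2⟩ := hN0 N hN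
  refine ⟨a, fun k => (ha1 k).trans ?_, ha2⟩
  rw [← hZ]
  have c1 : √(δ / η) = e' := by
    rw [hδdef, mul_div_cancel_left₀ _ hη.ne', Real.sqrt_sq he'0.le]
  rw [c1]
  nlinarith

end Crest.Agent.R75
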