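import Crest.Agent.R75.Defs

/-! Sup norm from `2 N` grid points, and the final rounding. -/

set_option autoImplicit false

namespace Crest.Agent.R75

open Real

namespace Grid

lemma ee_ne_one {M : ℕ} {m : ℤ} (h0 : m ≠ 0) (hm : |m| < M) : ee ((m : ℝ) / M) ≠ 1 := by
  intro h
  have hM : 0 < M := by
    have := abs_nonneg m
    omega
  have hM' : (M : ℝ) ≠ 0 := by positivity
  obtain ⟨n, hn⟩ := Complex.exp_eq_one_iff.1 h
  have h1 : (((2 * π * ((m : ℝ) / M) : ℝ) : ℂ)) = ((n * (2 * π) : ℝ) : ℂ) := by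
    have h2 : (((2 * π * ((m : ℝ) / M) : ℝ) : ℂ)) * Complex.I =
        ((n * (2 * π) : ℝ) : ℂ) * Complex.I := by
      rw [hn]; push_cast; ring
    exact mul_right_cancel₀ Complex.I_ne_zero h2
  have h2 : 2 * π * ((m : ℝ) / M) = n * (2 * π) := by exact_mod_cast h1
  have h3 : (m : ℝ) = n * M := by
    have hpi : (2 * π : ℝ) ≠ 0 := by positivity
    have : (m : ℝ) / M = n := by
      apply mul_left_cancel₀ hpi
      rw [h2]; ring
    rwa [div_eq_iff hM'] at this
  have h4 : m = n * M := by exact_mod_cast h3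
  have hn0 : n ≠ 0 := by
    rintro rfl
    simp at h4
    exact h0 h4
  have h5 : 1 ≤ |n| := Int.one_le_abs hn0
  rw [h4, abs_mul, abs_of_nonneg (by positivity : (0 : ℤ) ≤ M)] at hm
  nlinarith

lemma orth (M : ℕ) (m : ℤ) (hm : |m| < M) :
    ∑ j ∈ Finset.range M, ee ((j : ℝ) * ((m : ℝ) / M)) = if m = 0 then (M : ℂ) else 0 := by
  have hM : 0 < M := by
    have := abs_nonneg m
    omega
  have hM' : (M : ℝ) ≠ 0 := by positivity
  split_ifs with h
  · subst h; simp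
  · simp only [ee_nat_mul]
    rw [geom_sum_eq (ee_ne_one h hm), ← ee_nat_mul, mul_div_cancel₀ _ hM', ee_intCast]
    simp

/-- Dirichlet kernel at the grid points. -/
noncomputable def G (M m : ℕ) (x : ℝ) (j : ℕ) : ℂ :=
  ∑ a ∈ Finset.range m, ee (-(a * x)) * ee ((j : ℝ) * a / M)

lemma sum_mul_conj_G {M m n : ℕ} (hn : n < m) (hm : m ≤ M) (x : ℝ) :
    ∑ j ∈ Finset.range M, ee ((j : ℝ) * n / M) * (starRingEnd ℂ) (G M m x j) =
      M * ee (n * x) := by
  have h1 : ∀ j : ℕ, ee ((j : ℝ) * n / M) * (starRingEnd ℂ) (G M m x j) =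
      ∑ a ∈ Finset.range m, ee (a * x) * ee ((j : ℝ) * ((((n : ℤ) - a : ℤ) : ℝ) / M)) := by
    intro j
    simp only [G, map_sum, conj_ee, Finset.mul_sum, ← ee_add]
    refine Finset.sum_congr rfl fun a _ => ?_
    congr 1
    push_cast
    ring
  simp only [h1]
  rw [Finset.sum_comm]
  simp only [← Finset.mul_sum]
  rw [Finset.sum_eq_single n]
  · rw [orth _ _ (by simp; omega)]
    simp [mul_comm]
  · intro a ha han
    rw [Finset.mem_range] at ha
    rw [orth _ _ (by rw [abs_lt]; omega), if_neg (by omega), mul_zero]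
  · intro h
    exact absurd (Finset.mem_range.2 hn) h

lemma parseval {M m : ℕ} (hm : m ≤ M) (x : ℝ) :
    ∑ j ∈ Finset.range M, ‖G M m x j‖ ^ 2 = m * M := by
  have h1 : ∑ j ∈ Finset.range M, G M m x j * (starRingEnd ℂ) (G M m x j) = m * M := by
    have h2 : ∀ j, G M m x j * (starRingEnd ℂ) (G M m x j) = ∑ a ∈ Finset.range m,
        ee (-(a * x)) * (ee ((j : ℝ) * a / M) * (starRingEnd ℂ) (G M m x j)) := by
      intro j
      conv_lhs => rw [show G M m x j * (starRingEnd ℂ) (G M m x j) =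
        (∑ a ∈ Finset.range m, ee (-(a * x)) * ee ((j : ℝ) * a / M)) *
          (starRingEnd ℂ) (G M m x j) from rfl]
      rw [Finset.sum_mul]
      simp only [mul_assoc]
    simp only [h2]
    rw [Finset.sum_comm]
    simp only [← Finset.mul_sum]
    rw [Finset.sum_congr rfl (g := fun _ => (M : ℂ))]
    · simp
    · intro a ha
      rw [sum_mul_conj_G (Finset.mem_range.1 ha) hm, mul_left_comm, ← ee_add]
      simp
  simp only [Complex.mul_conj, Complex.normSq_eq_norm_sq] at h1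
  exact_mod_cast h1

end Grid

open Grid in
theorem grid_sup (N : ℕ) (b : Fin N → ℂ) (B : ℝ)
    (h : ∀ j : Fin (2 * N), ‖∑ k : Fin N, b k * ee (((j : ℕ) : ℝ) * (k : ℕ) / (2 * N))‖ ≤ B)
    (hB : 0 ≤ B) (z : ℂ) (hz : ‖z‖ = 1) : ‖∑ k : Fin N, b k * z ^ (k : ℕ)‖ ≤ 2 * B := by
  rcases Nat.eq_zero_or_pos N with rfl | hN
  · simp; exact hB
  obtain ⟨x, -, -, rfl⟩ := exists_ee_of_norm_one hz
  set M := 2 * N with hM
  have hMc : ((M : ℕ) : ℝ) = 2 * N := by simp [hM]
  let P : ℕ → ℂ := fun j => ∑ k : Fin N, b k * ee ((j : ℝ) * (k : ℕ) / (M : ℕ))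
  have hP : ∀ j ∈ Finset.range M, ‖P j‖ ≤ B := fun j hj => by
    have := h ⟨j, Finset.mem_range.1 hj⟩
    simpa only [P, hMc] using this
  have key : ∑ j ∈ Finset.range M, P j * G M N x j * (starRingEnd ℂ) (G M M x j) =
      (N * M : ℂ) * ∑ k : Fin N, b k * ee x ^ (k : ℕ) := by
    have h1 : ∀ j : ℕ, P j * G M N x j * (starRingEnd ℂ) (G M M x j) =
        ∑ k : Fin N, ∑ a ∈ Finset.range N, (b k * ee (-(a * x))) *
          (ee ((j : ℝ) * (((k : ℕ) + a : ℕ) : ℝ) / M) * (starRingEnd ℂ) (G M M x j)) := by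
      intro j
      generalize (starRingEnd ℂ) (G M M x j) = c
      simp only [P, G, Finset.sum_mul, Finset.mul_sum]
      rw [Finset.sum_comm]
      refine Finset.sum_congr rfl fun k _ => Finset.sum_congr rfl fun a _ => ?_
      have : ee ((j : ℝ) * (((k : ℕ) + a : ℕ) : ℝ) / M) =
          ee ((j : ℝ) * (k : ℕ) / M) * ee ((j : ℝ) * a / M) := by
        rw [← ee_add]; congr 1; push_cast; ring
      rw [this]; ring
    simp only [h1]
    rw [Finset.sum_comm, Finset.mul_sum]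
    refine Finset.sum_congr rfl fun k _ => ?_
    rw [Finset.sum_comm]
    simp only [← Finset.mul_sum]
    rw [Finset.sum_congr rfl (g := fun _ => (M : ℂ) * (b k * ee x ^ (k : ℕ)))]
    · simp [mul_assoc]
    · intro a ha
      have ha' := Finset.mem_range.1 ha
      have hk := k.2
      rw [sum_mul_conj_G (by omega) le_rfl, ← ee_nat_mul]
      have : ee ((((k : ℕ) + a : ℕ) : ℝ) * x) = ee ((k : ℕ) * x) * ee (a * x) := by
        rw [← ee_add]; congr 1; push_cast; ring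
      have h2 : ee (-(a * x)) * ee (a * x) = 1 := by rw [← ee_add]; simp
      rw [this]
      linear_combination (M : ℂ) * b k * ee ((k : ℕ) * x) * h2
  have hbound : ‖∑ j ∈ Finset.range M, P j * G M N x j * (starRingEnd ℂ) (G M M x j)‖ ≤
      ∑ j ∈ Finset.range M, B * (‖G M N x j‖ ^ 2 + ‖G M M x j‖ ^ 2 / 4) := by
    refine (norm_sum_le _ _).trans (Finset.sum_le_sum fun j hj => ?_)
    rw [norm_mul, norm_mul, Complex.norm_conj, mul_assoc]
    refine mul_le_mul (hP j hj) ?_ (by positivity) hB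
    nlinarith [sq_nonneg (‖G M N x j‖ - ‖G M M x j‖ / 2)]
  rw [key, ← Finset.mul_sum, Finset.sum_add_distrib, ← Finset.sum_div,
    parseval (by omega), parseval le_rfl, norm_mul, norm_mul, Complex.norm_natCast,
    Complex.norm_natCast, hMc] at hbound
  have hN' : (0 : ℝ) < N := by exact_mod_cast hN
  have h3 : (0 : ℝ) < N * (2 * N) := by positivity
  refine le_of_mul_le_mul_left (hbound.trans ?_) h3
  nlinarith [mul_nonneg hB h3.le]

theorem rounding_of (C : ℝ) (hC : 0 < C)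
    (hrows : ∀ (N : ℕ) (v : Fin (2 * N) × Bool → Fin N → ℝ), 0 < N → (∀ r k, |v r k| ≤ 1) →
      ∀ a : Fin N → ℝ, (∀ k, |a k| ≤ 1) → ∃ c : Fin N → ℝ, (∀ k, c k = 1 ∨ c k = -1) ∧
        ∀ r, |∑ k, (c k - a k) * v r k| ≤
          C * ((4 * N : ℝ) ^ 2 * ∑ k, (1 - a k ^ 2)) ^ (1 / 6 : ℝ))
    (ε : ℝ) (hε : 0 < ε) : ∃ δ : ℝ, 0 < δ ∧ ∀ (N : ℕ) (a : Fin N → ℝ),
    (∀ k, |a k| ≤ 1) → ∑ k, (1 - a k ^ 2) ≤ δ * N →
    ∃ c : Fin N → ℤˣ, ∀ z : ℂ, ‖z‖ = 1 →
      ‖∑ k : Fin N, (((c k : ℤ) : ℂ) - (a k : ℂ)) * z ^ (k : ℕ)‖ ≤ ε * √N := by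
  refine ⟨(ε / (4 * C)) ^ 6 / 16, by positivity, fun N a ha hsum => ?_⟩
  rcases Nat.eq_zero_or_pos N with rfl | hN
  · exact ⟨fun _ => 1, fun z _ => by simp⟩
  let v : Fin (2 * N) × Bool → Fin N → ℝ := fun r k =>
    if r.2 then (ee (((r.1 : ℕ) : ℝ) * (k : ℕ) / (2 * N))).re
    else (ee (((r.1 : ℕ) : ℝ) * (k : ℕ) / (2 * N))).im
  have hv : ∀ r k, |v r k| ≤ 1 := by
    intro r k
    simp only [v]
    split_ifs
    · exact (Complex.abs_re_le_norm _).trans (norm_ee _).le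
    · exact (Complex.abs_im_le_norm _).trans (norm_ee _).le
  obtain ⟨c, hc, hcr⟩ := hrows N v hN hv a ha
  have hnn : 0 ≤ ∑ k, (1 - a k ^ 2) := Finset.sum_nonneg fun k _ => by
    have := ha k
    have h2 := sq_abs (a k)
    have h3 := abs_nonneg (a k)
    nlinarith
  have hN' : (0 : ℝ) < N := by exact_mod_cast hN
  have hpow : ((4 * N : ℝ) ^ 2 * ∑ k, (1 - a k ^ 2)) ^ (1 / 6 : ℝ) ≤ ε / (4 * C) * √N := by
    have h1 : (4 * N : ℝ) ^ 2 * ∑ k, (1 - a k ^ 2) ≤ (ε / (4 * C) * √N) ^ 6 := by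
      have h2 : (√(N : ℝ)) ^ 6 = (N : ℝ) ^ 3 := by
        rw [show 6 = 2 * 3 from rfl, pow_mul, Real.sq_sqrt hN'.le]
      rw [mul_pow, mul_pow, h2]
      calc (4 : ℝ) ^ 2 * (N : ℝ) ^ 2 * ∑ k, (1 - a k ^ 2)
          ≤ 4 ^ 2 * (N : ℝ) ^ 2 * ((ε / (4 * C)) ^ 6 / 16 * N) := by gcongr
        _ = _ := by ring
    refine (Real.rpow_le_rpow (by positivity) h1 (by norm_num)).trans_eq ?_
    rw [one_div]
    exact Real.pow_rpow_inv_natCast (by positivity) (by norm_num)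
  have hrow : ∀ r, |∑ k, (c k - a k) * v r k| ≤ ε / 4 * √N := fun r => by
    refine (hcr r).trans ((mul_le_mul_of_nonneg_left hpow hC.le).trans_eq ?_)
    field_simp
  let c' : Fin N → ℤˣ := fun k => if c k = 1 then 1 else -1
  have hc' : ∀ k, (((c' k : ℤˣ) : ℤ) : ℂ) = (c k : ℂ) := by
    intro k
    rcases hc k with h | h
    · simp [c', h]
    · have : c k ≠ 1 := by rw [h]; norm_num
      simp only [c', if_neg this]
      simp [h]
  refine ⟨c', fun z hz => ?_⟩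
  have := grid_sup N (fun k => (((c' k : ℤˣ) : ℤ) : ℂ) - (a k : ℂ)) (ε / 2 * √N) (fun j => ?_)
    (by positivity) z hz
  · refine this.trans_eq ?_
    ring
  · refine (Complex.norm_le_abs_re_add_abs_im _).trans ?_
    have h1 := hrow (j, true)
    have h2 := hrow (j, false)
    simp only [v, if_true, Bool.false_eq_true, if_false] at h1 h2
    simp only [hc', Complex.re_sum, Complex.im_sum, ← Complex.ofReal_sub, Complex.re_ofReal_mul,
      Complex.im_ofReal_mul]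
    linarith

end Crest.Agent.R75
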