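import Crest.Agent.R75.Defs

/-! Van der Corput's first and second derivative tests. -/

set_option autoImplicit false

namespace Crest.Agent.R75

open Real

namespace Vdc

lemma continuous_of_deriv {f f' : ℝ → ℝ} (h : ∀ y, HasDerivAt f (f' y) y) : Continuous f :=
  continuous_iff_continuousAt.2 fun y => (h y).continuousAt

lemma exists_level {ψ : ℝ → ℝ} {a b : ℝ} (hab : a ≤ b) (hc : Continuous ψ) (L : ℝ) :
    ∃ c ∈ Set.Icc a b, (c = a ∨ ψ c ≤ L) ∧ (c = b ∨ L ≤ ψ c) := by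
  by_cases h1 : L ≤ ψ a
  · exact ⟨a, ⟨le_rfl, hab⟩, Or.inl rfl, Or.inr h1⟩
  by_cases h2 : ψ b ≤ L
  · exact ⟨b, ⟨hab, le_rfl⟩, Or.inr h2, Or.inl rfl⟩
  obtain ⟨c, hc1, hc2⟩ := intermediate_value_Icc hab hc.continuousOn
    (⟨(not_le.1 h1).le, (not_le.1 h2).le⟩ : L ∈ Set.Icc (ψ a) (ψ b))
  exact ⟨c, hc1, Or.inr hc2.le, Or.inr hc2.ge⟩

lemma slope_ge {ψ ψ' : ℝ → ℝ} {a b lam : ℝ} (h : ∀ y, HasDerivAt ψ (ψ' y) y)
    (hs : ∀ y ∈ Set.Icc a b, lam ≤ ψ' y) {x y : ℝ} (hx : a ≤ x) (hxy : x ≤ y) (hy : y ≤ b) :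
    lam * (y - x) ≤ ψ y - ψ x := by
  rcases hxy.eq_or_lt with rfl | hlt
  · simp
  obtain ⟨c, hc, hc'⟩ := exists_hasDerivAt_eq_slope ψ ψ' hlt
    (continuous_of_deriv h).continuousOn (fun z _ => h z)
  have := hs c ⟨hx.trans hc.1.le, hc.2.le.trans hy⟩
  rw [hc', le_div_iff₀ (by linarith)] at this
  exact this

lemma exists_split {ψ ψ' : ℝ → ℝ} {a b lam μ : ℝ} (hab : a ≤ b) (hlam : 0 < lam) (hμ : 0 < μ)
    (h : ∀ y, HasDerivAt ψ (ψ' y) y) (hs : ∀ y ∈ Set.Icc a b, lam ≤ ψ' y) :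
    ∃ c d, a ≤ c ∧ c ≤ d ∧ d ≤ b ∧ (c = a ∨ ∀ y ∈ Set.Icc a c, μ ≤ |ψ y|) ∧
      (d = b ∨ ∀ y ∈ Set.Icc d b, μ ≤ |ψ y|) ∧ lam * (d - c) ≤ 2 * μ := by
  have hc := continuous_of_deriv h
  obtain ⟨c, ⟨hac, hcb⟩, hc1, hc2⟩ := exists_level hab hc (-μ)
  obtain ⟨d, ⟨hcd, hdb⟩, hd1, hd2⟩ := exists_level hcb hc μ
  refine ⟨c, d, hac, hcd, hdb, ?_, ?_, ?_⟩
  · rcases hc1 with h1 | h1
    · exact Or.inl h1
    · right
      intro y hy
      have := slope_ge h hs hy.1 hy.2 hcb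
      have h2 : 0 ≤ lam * (c - y) := mul_nonneg hlam.le (by linarith [hy.2])
      exact le_abs.2 (Or.inr (by linarith))
  · rcases hd2 with h1 | h1
    · exact Or.inl h1
    · right
      intro y hy
      have := slope_ge h hs (hac.trans hcd) hy.1 hy.2
      have h2 : 0 ≤ lam * (y - d) := mul_nonneg hlam.le (by linarith [hy.1])
      exact le_abs.2 (Or.inl (by linarith))
  · rcases hd1 with h1 | h1
    · rw [h1]; simp; exact hμ.le
    · rcases hc2 with h2 | h2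
      · have : d = c := le_antisymm (h2 ▸ hdb) hcd
        rw [this]; simp; exact hμ.le
      · have := slope_ge h hs hac hcd hdb
        linarith

end Vdc

open Vdc in
theorem vdc1 {φ φ' φ'' : ℝ → ℝ} {a b lam : ℝ} (hab : a ≤ b) (hlam : 0 < lam)
    (h1 : ∀ y, HasDerivAt φ (φ' y) y) (h2 : ∀ y, HasDerivAt φ' (φ'' y) y) (h3 : Continuous φ'')
    (hs : (∀ y ∈ Set.Icc a b, 0 ≤ φ'' y) ∨ (∀ y ∈ Set.Icc a b, φ'' y ≤ 0))
    (hl : ∀ y ∈ Set.Icc a b, lam ≤ |φ' y|) :
    ‖∫ y in a..b, ee (φ y)‖ ≤ 1 / lam := by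
  have hc0 := continuous_of_deriv h1
  have hc1 := continuous_of_deriv h2
  have hne : ∀ y ∈ Set.Icc a b, φ' y ≠ 0 := fun y hy h0 => by
    have := hl y hy; rw [h0, abs_zero] at this; linarith
  have huI : Set.uIcc a b = Set.Icc a b := Set.uIcc_of_le hab
  set g : ℝ → ℝ := fun y => (φ' y)⁻¹ with hg
  set g' : ℝ → ℝ := fun y => -φ'' y / (φ' y) ^ 2 with hg'
  have hgd : ∀ y ∈ Set.Icc a b, HasDerivAt g (g' y) y := fun y hy => (h2 y).inv (hne y hy)
  have hg'c : ContinuousOn g' (Set.Icc a b) :=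
    h3.neg.continuousOn.div (hc1.pow 2).continuousOn (fun y hy => pow_ne_zero 2 (hne y hy))
  have hgb : ∀ y ∈ Set.Icc a b, |g y| ≤ 1 / lam := fun y hy => by
    simp only [hg, abs_inv, one_div]
    exact inv_anti₀ hlam (hl y hy)
  have hg'i : IntervalIntegrable g' MeasureTheory.volume a b :=
    (huI ▸ hg'c).intervalIntegrable
  have hftc : ∫ y in a..b, g' y = g b - g a :=
    intervalIntegral.integral_eq_sub_of_hasDerivAt (fun y hy => hgd y (huI ▸ hy)) hg'i
  have habs : ∫ y in a..b, |g' y| ≤ 2 / lam := by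
    have hb := hgb b ⟨hab, le_rfl⟩
    have ha := hgb a ⟨le_rfl, hab⟩
    have h2l : 2 / lam = 1 / lam + 1 / lam := by ring
    rcases hs with hs | hs
    · have : ∫ y in a..b, |g' y| = ∫ y in a..b, -g' y := by
        apply intervalIntegral.integral_congr
        intro y hy
        rw [huI] at hy
        exact abs_of_nonpos (div_nonpos_of_nonpos_of_nonneg (by linarith [hs y hy]) (sq_nonneg _))
      rw [this, intervalIntegral.integral_neg, hftc, h2l]
      linarith [(abs_le.1 hb).1, (abs_le.1 ha).2]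
    · have : ∫ y in a..b, |g' y| = ∫ y in a..b, g' y := by
        apply intervalIntegral.integral_congr
        intro y hy
        rw [huI] at hy
        exact abs_of_nonneg (div_nonneg (by linarith [hs y hy]) (sq_nonneg _))
      rw [this, hftc, h2l]
      linarith [(abs_le.1 hb).2, (abs_le.1 ha).1]
  set κ : ℂ := 2 * π * Complex.I with hκ
  have hκn : ‖κ‖ = 2 * π := by
    simp [hκ, abs_of_pos pi_pos]
  have hF : ∀ y ∈ Set.uIcc a b, HasDerivAt (fun y => ee (φ y) * (g y : ℂ))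
      (κ * ee (φ y) + ee (φ y) * (g' y : ℂ)) y := by
    intro y hy
    rw [huI] at hy
    have e1 : HasDerivAt (fun y => ee (φ y)) ((φ' y) • (κ * ee (φ y))) y :=
      (hasDerivAt_ee (φ y)).scomp y (h1 y)
    have e2 : HasDerivAt (fun y => (g y : ℂ)) (g' y : ℂ) y := (hgd y hy).ofReal_comp
    have e3 : HasDerivAt (fun y => ee (φ y) * (g y : ℂ))
        ((φ' y) • (κ * ee (φ y)) * (g y : ℂ) + ee (φ y) * (g' y : ℂ)) y := e1.mul e2
    have e4 : (φ' y) • (κ * ee (φ y)) * (g y : ℂ) = κ * ee (φ y) := by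
      have : (φ' y : ℂ) ≠ 0 := by exact_mod_cast hne y hy
      simp only [hg, Complex.real_smul, Complex.ofReal_inv]
      field_simp
    rw [e4] at e3
    exact e3
  have hec : Continuous fun y => ee (φ y) := continuous_ee.comp hc0
  have hi1 : IntervalIntegrable (fun y => κ * ee (φ y)) MeasureTheory.volume a b :=
    (continuous_const.mul hec).intervalIntegrable _ _
  have hi2 : IntervalIntegrable (fun y => ee (φ y) * (g' y : ℂ)) MeasureTheory.volume a b := by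
    apply ContinuousOn.intervalIntegrable
    rw [huI]
    exact hec.continuousOn.mul (Complex.continuous_ofReal.comp_continuousOn hg'c)
  have hmain := intervalIntegral.integral_eq_sub_of_hasDerivAt hF (hi1.add hi2)
  rw [intervalIntegral.integral_add hi1 hi2, intervalIntegral.integral_const_mul] at hmain
  have hn2 : ‖∫ y in a..b, ee (φ y) * (g' y : ℂ)‖ ≤ 2 / lam := by
    refine (intervalIntegral.norm_integral_le_integral_norm hab).trans ?_
    refine le_trans (le_of_eq ?_) habs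
    apply intervalIntegral.integral_congr
    intro y _
    simp
  have hn3 : ∀ y ∈ Set.Icc a b, ‖ee (φ y) * (g y : ℂ)‖ ≤ 1 / lam := fun y hy => by
    rw [norm_mul, norm_ee, one_mul, Complex.norm_real, Real.norm_eq_abs]
    exact hgb y hy
  have hkey : ‖κ * ∫ y in a..b, ee (φ y)‖ ≤ 4 / lam := by
    have : κ * ∫ y in a..b, ee (φ y) = ee (φ b) * (g b : ℂ) - ee (φ a) * (g a : ℂ) -
        ∫ y in a..b, ee (φ y) * (g' y : ℂ) := by rw [← hmain]; ring
    rw [this]
    refine (norm_sub_le _ _).trans ?_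
    refine (add_le_add (norm_sub_le _ _) le_rfl).trans ?_
    have hb := hn3 b ⟨hab, le_rfl⟩
    have ha := hn3 a ⟨le_rfl, hab⟩
    have : 4 / lam = 1 / lam + 1 / lam + 2 / lam := by ring
    linarith
  rw [norm_mul, hκn] at hkey
  have h4 : 4 / lam = 4 * (1 / lam) := by ring
  have hpi : 4 ≤ 2 * π := by linarith [pi_gt_three]
  nlinarith [norm_nonneg (∫ y in a..b, ee (φ y))]

open Vdc in
theorem vdc2 {φ φ' φ'' : ℝ → ℝ} {a b lam : ℝ} (hab : a ≤ b) (hlam : 0 < lam)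
    (h1 : ∀ y, HasDerivAt φ (φ' y) y) (h2 : ∀ y, HasDerivAt φ' (φ'' y) y) (h3 : Continuous φ'')
    (hs : (∀ y ∈ Set.Icc a b, lam ≤ φ'' y) ∨ (∀ y ∈ Set.Icc a b, φ'' y ≤ -lam)) :
    ‖∫ y in a..b, ee (φ y)‖ ≤ 4 / √lam := by
  have hμ : 0 < √lam := Real.sqrt_pos.2 hlam
  have hsplit : ∃ c d, a ≤ c ∧ c ≤ d ∧ d ≤ b ∧ (c = a ∨ ∀ y ∈ Set.Icc a c, √lam ≤ |φ' y|) ∧
      (d = b ∨ ∀ y ∈ Set.Icc d b, √lam ≤ |φ' y|) ∧ lam * (d - c) ≤ 2 * √lam := by
    rcases hs with hs | hs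
    · exact exists_split hab hlam hμ h2 hs
    · have := exists_split (ψ := fun y => -φ' y) (ψ' := fun y => -φ'' y) hab hlam hμ
        (fun y => (h2 y).neg) (fun y hy => by linarith [hs y hy])
      simpa only [abs_neg] using this
  obtain ⟨c, d, hac, hcd, hdb, hc, hd, hlen⟩ := hsplit
  have hsign : ∀ u v, a ≤ u → v ≤ b →
      (∀ y ∈ Set.Icc u v, 0 ≤ φ'' y) ∨ (∀ y ∈ Set.Icc u v, φ'' y ≤ 0) := by
    intro u v hu hv
    rcases hs with hs | hs
    · left; intro y hy; linarith [hs y ⟨hu.trans hy.1, hy.2.trans hv⟩]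
    · right; intro y hy; linarith [hs y ⟨hu.trans hy.1, hy.2.trans hv⟩]
  have hec : Continuous fun y => ee (φ y) := continuous_ee.comp (continuous_of_deriv h1)
  have hI1 : ‖∫ y in a..c, ee (φ y)‖ ≤ 1 / √lam := by
    rcases hc with rfl | hc
    · simp
    · exact vdc1 hac hμ h1 h2 h3 (hsign a c le_rfl (hcd.trans hdb)) hc
  have hI3 : ‖∫ y in d..b, ee (φ y)‖ ≤ 1 / √lam := by
    rcases hd with rfl | hd
    · simp
    · exact vdc1 hdb hμ h1 h2 h3 (hsign d b (hac.trans hcd) le_rfl) hd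
  have hI2 : ‖∫ y in c..d, ee (φ y)‖ ≤ 2 / √lam := by
    have := intervalIntegral.norm_integral_le_of_norm_le_const (a := c) (b := d) (C := 1)
      (f := fun y => ee (φ y)) (fun y _ => (norm_ee _).le)
    refine this.trans ?_
    rw [one_mul, abs_of_nonneg (by linarith), le_div_iff₀ hμ]
    have hsq : √lam * √lam = lam := Real.mul_self_sqrt hlam.le
    have : √lam * ((d - c) * √lam) ≤ √lam * 2 := by nlinarith
    exact le_of_mul_le_mul_left this hμ
  have hsum : ∫ y in a..b, ee (φ y) =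
      (∫ y in a..c, ee (φ y)) + (∫ y in c..d, ee (φ y)) + ∫ y in d..b, ee (φ y) := by
    rw [intervalIntegral.integral_add_adjacent_intervals (hec.intervalIntegrable _ _)
      (hec.intervalIntegrable _ _), intervalIntegral.integral_add_adjacent_intervals
      (hec.intervalIntegrable _ _) (hec.intervalIntegrable _ _)]
  rw [hsum]
  refine norm_add₃_le.trans ?_
  have : 4 / √lam = 1 / √lam + 2 / √lam + 1 / √lam := by ring
  linarith

end Crest.Agent.R75
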