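import Crest.Agent.R75.Defs
import Crest.Agent.R75.Vdc

/-! The time profile with steep linear connectors. -/

set_option autoImplicit false

namespace Crest.Agent.R75

open Real

namespace Prof

lemma clamp_nonneg (y : ℝ) : 0 ≤ clamp y := le_max_left _ _

lemma clamp_le_one (y : ℝ) : clamp y ≤ 1 := max_le zero_le_one (min_le_left _ _)

lemma clamp_of_nonpos {y : ℝ} (h : y ≤ 0) : clamp y = 0 :=
  max_eq_left ((min_le_right _ _).trans h)

lemma clamp_of_one_le {y : ℝ} (h : 1 ≤ y) : clamp y = 1 := by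
  unfold clamp; rw [min_eq_left h, max_eq_right zero_le_one]

lemma clamp_of_mem {y : ℝ} (h0 : 0 ≤ y) (h1 : y ≤ 1) : clamp y = y := by
  unfold clamp; rw [min_eq_right h1, max_eq_right h0]

lemma clamp_lip (x y : ℝ) : |clamp x - clamp y| ≤ |x - y| := by
  unfold clamp
  have h1 := abs_max_sub_max_le_max 0 (min 1 x) 0 (min 1 y)
  have h2 := abs_min_sub_min_le_max 1 x 1 y
  simp only [sub_self, abs_zero] at h1 h2
  exact (h1.trans (max_le (abs_nonneg _) le_rfl)).trans (h2.trans (max_le (abs_nonneg _) le_rfl))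

lemma clamp_lip' (c d x y : ℝ) (hd : 0 < d) :
    |clamp ((x - c) / d) - clamp ((y - c) / d)| ≤ |x - y| / d := by
  refine (clamp_lip _ _).trans (le_of_eq ?_)
  have : (x - c) / d - (y - c) / d = (x - y) / d := by ring
  rw [this, abs_div, abs_of_pos hd]

lemma continuous_clamp : Continuous clamp := by unfold clamp; fun_prop

section pieces

set_option linter.unusedSectionVars false

variable {δ : ℝ} (hδ : 0 < δ) (hδ' : δ < 1 / 2)
include hδ hδ'

lemma prof_left (b : ℝ → ℝ) {y : ℝ} (hy : y ≤ δ) : prof δ b y = b 0 * clamp (y / δ) := by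
  unfold prof
  rw [clamp_of_nonpos (y := (y - δ) / (1 - 2 * δ))
      (div_nonpos_of_nonpos_of_nonneg (by linarith) (by linarith)),
    clamp_of_nonpos (y := (y - (1 - δ)) / δ)
      (div_nonpos_of_nonpos_of_nonneg (by linarith) (by linarith))]
  ring

lemma prof_mid (b : ℝ → ℝ) {y : ℝ} (hy : δ ≤ y) (hy' : y ≤ 1 - δ) :
    prof δ b y = b ((y - δ) / (1 - 2 * δ)) := by
  unfold prof
  rw [clamp_of_one_le (y := y / δ) (by rw [le_div_iff₀ hδ]; linarith),
    clamp_of_mem (y := (y - δ) / (1 - 2 * δ)) (div_nonneg (by linarith) (by linarith))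
      (by rw [div_le_iff₀ (by linarith)]; linarith),
    clamp_of_nonpos (y := (y - (1 - δ)) / δ)
      (div_nonpos_of_nonpos_of_nonneg (by linarith) (by linarith))]
  ring

lemma prof_right (b : ℝ → ℝ) {y : ℝ} (hy : 1 - δ ≤ y) :
    prof δ b y = b 1 * (1 - clamp ((y - (1 - δ)) / δ)) := by
  unfold prof
  rw [clamp_of_one_le (y := y / δ) (by rw [le_div_iff₀ hδ]; linarith),
    clamp_of_one_le (y := (y - δ) / (1 - 2 * δ)) (by rw [le_div_iff₀ (by linarith)]; linarith)]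
  ring

lemma corr_left (c₁ c₂ : ℝ) {y : ℝ} (hy : y ≤ 1 - δ) : corr δ c₁ c₂ y = c₁ * clamp (y / δ) := by
  unfold corr
  rw [clamp_of_nonpos (y := (y - (1 - δ)) / δ)
      (div_nonpos_of_nonpos_of_nonneg (by linarith) (by linarith))]
  ring

lemma corr_right (c₁ c₂ : ℝ) {y : ℝ} (hy : δ ≤ y) :
    corr δ c₁ c₂ y = c₁ + c₂ * clamp ((y - (1 - δ)) / δ) := by
  unfold corr
  rw [clamp_of_one_le (y := y / δ) (by rw [le_div_iff₀ hδ]; linarith)]
  ring

end pieces

lemma continuous_prof (δ : ℝ) {b : ℝ → ℝ} (hb : Continuous b) : Continuous (prof δ b) := by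
  unfold prof
  have := continuous_clamp
  fun_prop

lemma continuous_corr (δ c₁ c₂ : ℝ) : Continuous (corr δ c₁ c₂) := by
  unfold corr
  have := continuous_clamp
  fun_prop

lemma quad_bound {a b lam : ℝ} (hab : a ≤ b) (hlam : 0 < lam) (A B C : ℝ) (hA : lam ≤ |2 * A|) :
    ‖∫ y in a..b, ee (A * y ^ 2 + B * y + C)‖ ≤ 4 / √lam := by
  refine vdc2 (φ := fun y => A * y ^ 2 + B * y + C) (φ' := fun y => 2 * A * y + B)
    (φ'' := fun _ => 2 * A) hab hlam (fun y => ?_) (fun y => ?_) continuous_const ?_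
  · have := (((hasDerivAt_pow 2 y).const_mul A).add ((hasDerivAt_id y).const_mul B)).add_const C
    have e : 2 * A * y + B = A * (((2 : ℕ) : ℝ) * y ^ (2 - 1)) + B * 1 := by
      simp; ring
    rw [e]
    exact this
  · have := ((hasDerivAt_id y).const_mul (2 * A)).add_const B
    rw [mul_one] at this
    exact this
  · rcases le_abs.1 hA with h | h
    · left; intro y _; exact h
    · right; intro y _; linarith

end Prof

open Prof

theorem prof_props (δ : ℝ) (hδ : 0 < δ) (hδ' : δ < 1 / 2) (b b' : ℝ → ℝ)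
    (hb : ∀ y, HasDerivAt b (b' y) y) (hb' : Continuous b') (hpos : ∀ y, 0 ≤ b' y) (M : ℝ)
    (h0 : 0 ≤ b 0) (h1 : b 1 ≤ M) :
    (∃ K : ℝ, ∀ y y', |prof δ b y - prof δ b y'| ≤ K * |y - y'|) ∧
      (∀ y, y ≤ 0 ∨ 1 ≤ y → prof δ b y = 0) ∧ ∀ y, 0 ≤ prof δ b y ∧ prof δ b y ≤ M := by
  have hmono : Monotone b := monotone_of_hasDerivAt_nonneg hb hpos
  have h01 : b 0 ≤ b 1 := hmono zero_le_one
  refine ⟨?_, ?_, ?_⟩
  · obtain ⟨C, hC⟩ := isCompact_Icc.exists_bound_of_continuousOn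
      (hb'.continuousOn (s := Set.Icc (0 : ℝ) 1))
    have hC0 : 0 ≤ C := (norm_nonneg _).trans (hC 0 ⟨le_rfl, zero_le_one⟩)
    have hL : ∀ x ∈ Set.Icc (0 : ℝ) 1, ∀ y ∈ Set.Icc (0 : ℝ) 1, ‖b y - b x‖ ≤ C * ‖y - x‖ :=
      fun x hx y hy => (convex_Icc 0 1).norm_image_sub_le_of_norm_hasDerivWithin_le
        (fun z _ => (hb z).hasDerivWithinAt) hC hx hy
    refine ⟨b 0 / δ + C / (1 - 2 * δ) + b 1 / δ, fun y y' => ?_⟩
    have e1 := clamp_lip' 0 δ y y' hδ
    have e2 := clamp_lip' δ (1 - 2 * δ) y y' (by linarith)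
    have e3 := clamp_lip' (1 - δ) δ y y' hδ
    simp only [sub_zero] at e1
    have e4 := hL _ ⟨clamp_nonneg ((y' - δ) / (1 - 2 * δ)), clamp_le_one _⟩
      _ ⟨clamp_nonneg ((y - δ) / (1 - 2 * δ)), clamp_le_one _⟩
    rw [Real.norm_eq_abs, Real.norm_eq_abs] at e4
    have e5 := e4.trans (mul_le_mul_of_nonneg_left e2 hC0)
    have e6 := mul_le_mul_of_nonneg_left e1 h0
    have e7 := mul_le_mul_of_nonneg_left e3 (h0.trans h01)
    have : prof δ b y - prof δ b y' = b 0 * (clamp (y / δ) - clamp (y' / δ)) +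
        (b (clamp ((y - δ) / (1 - 2 * δ))) - b (clamp ((y' - δ) / (1 - 2 * δ)))) -
        b 1 * (clamp ((y - (1 - δ)) / δ) - clamp ((y' - (1 - δ)) / δ)) := by
      unfold prof; ring
    rw [this]
    refine (abs_sub _ _).trans ?_
    refine (add_le_add (abs_add_le _ _) le_rfl).trans ?_
    rw [abs_mul, abs_mul, abs_of_nonneg h0, abs_of_nonneg (h0.trans h01)]
    have : (b 0 / δ + C / (1 - 2 * δ) + b 1 / δ) * |y - y'| =
      b 0 * (|y - y'| / δ) + C * (|y - y'| / (1 - 2 * δ)) + b 1 * (|y - y'| / δ) := by ring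
    linarith
  · rintro y (hy | hy)
    · rw [prof_left hδ hδ' b (by linarith),
        clamp_of_nonpos (div_nonpos_of_nonpos_of_nonneg hy hδ.le), mul_zero]
    · rw [prof_right hδ hδ' b (by linarith),
        clamp_of_one_le (by rw [le_div_iff₀ hδ]; linarith), sub_self, mul_zero]
  · intro y
    rcases le_total y δ with hy | hy
    · rw [prof_left hδ hδ' b hy]
      have := clamp_nonneg (y / δ)
      have := clamp_le_one (y / δ)
      constructor <;> nlinarith
    rcases le_total y (1 - δ) with hy' | hy'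
    · rw [prof_mid hδ hδ' b hy hy']
      have g0 : 0 ≤ (y - δ) / (1 - 2 * δ) := div_nonneg (by linarith) (by linarith)
      have g1 : (y - δ) / (1 - 2 * δ) ≤ 1 := by rw [div_le_iff₀ (by linarith)]; linarith
      exact ⟨h0.trans (hmono g0), (hmono g1).trans h1⟩
    · rw [prof_right hδ hδ' b hy']
      have := clamp_nonneg ((y - (1 - δ)) / δ)
      have := clamp_le_one ((y - (1 - δ)) / δ)
      constructor <;> nlinarith

theorem corr_props (δ : ℝ) (hδ : 0 < δ) (hδ' : δ < 1 / 2) (c₁ c₂ : ℝ) (h₁ : |c₁| ≤ 1)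
    (h₂ : |c₂| ≤ 1) :
    (∀ y y', |corr δ c₁ c₂ y - corr δ c₁ c₂ y'| ≤ 2 / δ * |y - y'|) ∧
      (∀ y, y ≤ 0 → corr δ c₁ c₂ y = 0) ∧ (∀ y, 1 ≤ y → corr δ c₁ c₂ y = c₁ + c₂) := by
  refine ⟨fun y y' => ?_, fun y hy => ?_, fun y hy => ?_⟩
  · have e1 := clamp_lip' 0 δ y y' hδ
    have e3 := clamp_lip' (1 - δ) δ y y' hδ
    simp only [sub_zero] at e1
    have : corr δ c₁ c₂ y - corr δ c₁ c₂ y' = c₁ * (clamp (y / δ) - clamp (y' / δ)) +
        c₂ * (clamp ((y - (1 - δ)) / δ) - clamp ((y' - (1 - δ)) / δ)) := by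
      unfold corr; ring
    rw [this]
    refine (abs_add_le _ _).trans ?_
    rw [abs_mul, abs_mul]
    have g1 := mul_le_mul h₁ e1 (abs_nonneg _) zero_le_one
    have g2 := mul_le_mul h₂ e3 (abs_nonneg _) zero_le_one
    have : 2 / δ * |y - y'| = 1 * (|y - y'| / δ) + 1 * (|y - y'| / δ) := by ring
    linarith
  · rw [corr_left hδ hδ' c₁ c₂ (by linarith),
      clamp_of_nonpos (div_nonpos_of_nonpos_of_nonneg hy hδ.le), mul_zero]
  · rw [corr_right hδ hδ' c₁ c₂ (by linarith),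
      clamp_of_one_le (by rw [le_div_iff₀ hδ]; linarith), mul_one]

theorem arc_split (δ : ℝ) (hδ : 0 < δ) (hδ' : δ < 1 / 2) (Γ b : ℝ → ℝ) (hΓ0 : Γ 0 = 0)
    (hΓ : ∀ y, HasDerivAt Γ (b y) y) (hb : Continuous b) (ρ : ℝ) (hρ : 0 < ρ) (h0 : ρ ≤ b 0)
    (h1 : ρ ≤ b 1) (p μ N k c₁ c₂ : ℝ) (hμ : μ ≠ 0) (hN : 0 < N) :
    ‖(√N : ℝ) * arcCoeff p μ N (prof δ b) (corr δ c₁ c₂) k -
        (√N * (|μ| * (1 - 2 * δ)) : ℝ) * ee (k * (p + μ * δ) - μ * N * (b 0 * δ / 2) - c₁) *
          ∫ y in (0 : ℝ)..1, ee (μ * (1 - 2 * δ) * (k * y - N * Γ y))‖ ≤ 8 * √(|μ| * δ / ρ) := by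
  have hpc := continuous_prof δ hb
  have hd : 0 < 1 - 2 * δ := by linarith
  have hμ' : 0 < |μ| := abs_pos.2 hμ
  set P : ℝ → ℝ := fun y => ∫ t in (0 : ℝ)..y, prof δ b t with hP
  have hPc : Continuous P :=
    intervalIntegral.continuous_primitive (fun _ _ => hpc.intervalIntegrable _ _) 0
  have hPadd : ∀ x y, P y = P x + ∫ t in x..y, prof δ b t := fun x y =>
    (intervalIntegral.integral_add_adjacent_intervals (hpc.intervalIntegrable _ _)
      (hpc.intervalIntegrable _ _)).symm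
  have hP1 : ∀ y, 0 ≤ y → y ≤ δ → P y = b 0 / (2 * δ) * y ^ 2 := by
    intro y hy hy'
    have : P y = ∫ t in (0 : ℝ)..y, b 0 / δ * t := by
      apply intervalIntegral.integral_congr
      intro t ht
      rw [Set.uIcc_of_le hy] at ht
      show prof δ b t = b 0 / δ * t
      rw [prof_left hδ hδ' b (ht.2.trans hy'), clamp_of_mem (div_nonneg ht.1 hδ.le)
        (by rw [div_le_iff₀ hδ]; linarith [ht.2])]
      ring
    rw [this, intervalIntegral.integral_const_mul, integral_id]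
    field_simp
    ring
  have hP2 : ∀ z, 0 ≤ z → z ≤ 1 → P ((1 - 2 * δ) * z + δ) = b 0 * δ / 2 + (1 - 2 * δ) * Γ z := by
    intro z hz hz'
    rw [hPadd δ, hP1 δ hδ.le le_rfl]
    have e1 : ∫ t in δ..((1 - 2 * δ) * z + δ), prof δ b t =
        (1 - 2 * δ) • ∫ t in (0 : ℝ)..z, prof δ b ((1 - 2 * δ) * t + δ) := by
      rw [intervalIntegral.smul_integral_comp_mul_add]; simp
    have e2 : ∫ t in (0 : ℝ)..z, prof δ b ((1 - 2 * δ) * t + δ) = ∫ t in (0 : ℝ)..z, b t := by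
      apply intervalIntegral.integral_congr
      intro t ht
      rw [Set.uIcc_of_le hz] at ht
      simp only
      rw [prof_mid hδ hδ' b (by nlinarith [ht.1]) (by nlinarith [ht.2])]
      congr 1
      field_simp
      ring
    rw [e1, e2, intervalIntegral.integral_eq_sub_of_hasDerivAt (fun y _ => hΓ y)
      (hb.intervalIntegrable _ _), hΓ0, smul_eq_mul]
    field_simp
    ring
  have hP3 : ∀ y, 1 - δ ≤ y → y ≤ 1 →
      P y = P (1 - δ) + b 1 / δ * ((y - (1 - δ)) - (y ^ 2 - (1 - δ) ^ 2) / 2) := by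
    intro y hy hy'
    rw [hPadd (1 - δ) y]
    congr 1
    have : ∫ t in (1 - δ)..y, prof δ b t = ∫ t in (1 - δ)..y, b 1 / δ * (1 - t) := by
      apply intervalIntegral.integral_congr
      intro t ht
      rw [Set.uIcc_of_le hy] at ht
      simp only
      rw [prof_right hδ hδ' b ht.1, clamp_of_mem (div_nonneg (by linarith [ht.1]) hδ.le)
        (by rw [div_le_iff₀ hδ]; linarith [ht.2])]
      field_simp
      ring
    rw [this, intervalIntegral.integral_const_mul, intervalIntegral.integral_sub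
      (continuous_const.intervalIntegrable _ _) (continuous_id'.intervalIntegrable _ _),
      integral_id]
    simp
  set G : ℝ → ℂ := fun y => ee (k * (p + μ * y) - μ * N * P y - corr δ c₁ c₂ y) with hG
  have hGc : Continuous G := by
    have := continuous_corr δ c₁ c₂
    simp only [hG]
    fun_prop
  have hsplit : ∫ y in (0 : ℝ)..1, G y =
      (∫ y in (0 : ℝ)..δ, G y) + (∫ y in δ..(1 - δ), G y) + ∫ y in (1 - δ)..1, G y := by
    rw [intervalIntegral.integral_add_adjacent_intervals (hGc.intervalIntegrable _ _)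
      (hGc.intervalIntegrable _ _), intervalIntegral.integral_add_adjacent_intervals
      (hGc.intervalIntegrable _ _) (hGc.intervalIntegrable _ _)]
  have hlam : 0 < |μ| * N * ρ / δ := by positivity
  have hI1 : ‖∫ y in (0 : ℝ)..δ, G y‖ ≤ 4 / √(|μ| * N * ρ / δ) := by
    have : ∫ y in (0 : ℝ)..δ, G y = ∫ y in (0 : ℝ)..δ,
        ee (-(μ * N * (b 0 / (2 * δ))) * y ^ 2 + (k * μ - c₁ / δ) * y + k * p) := by
      apply intervalIntegral.integral_congr
      intro y hy
      rw [Set.uIcc_of_le hδ.le] at hy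
      simp only [hG]
      rw [hP1 y hy.1 hy.2, corr_left hδ hδ' c₁ c₂ (by linarith [hy.2]),
        clamp_of_mem (div_nonneg hy.1 hδ.le) (by rw [div_le_iff₀ hδ]; linarith [hy.2])]
      congr 1
      ring
    rw [this]
    apply quad_bound hδ.le hlam
    have e : 2 * -(μ * N * (b 0 / (2 * δ))) = -(μ * (N * b 0 / δ)) := by field_simp
    rw [e, abs_neg, abs_mul, abs_of_pos (by have := hρ.trans_le h0; positivity : 0 < N * b 0 / δ),
      mul_assoc, mul_div_assoc]
    gcongr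
  have hI3 : ‖∫ y in (1 - δ)..1, G y‖ ≤ 4 / √(|μ| * N * ρ / δ) := by
    have : ∫ y in (1 - δ)..1, G y = ∫ y in (1 - δ)..1,
        ee ((μ * N * (b 1 / (2 * δ))) * y ^ 2 + (k * μ - μ * N * (b 1 / δ) - c₂ / δ) * y +
          (k * p - μ * N * (P (1 - δ) + b 1 / δ * (-(1 - δ) + (1 - δ) ^ 2 / 2)) - c₁ +
            c₂ * (1 - δ) / δ)) := by
      apply intervalIntegral.integral_congr
      intro y hy
      rw [Set.uIcc_of_le (by linarith)] at hy
      simp only [hG]
      rw [hP3 y hy.1 hy.2, corr_right hδ hδ' c₁ c₂ (by linarith [hy.1]),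
        clamp_of_mem (div_nonneg (by linarith [hy.1]) hδ.le)
          (by rw [div_le_iff₀ hδ]; linarith [hy.2])]
      congr 1
      ring
    rw [this]
    apply quad_bound (by linarith) hlam
    have e : 2 * (μ * N * (b 1 / (2 * δ))) = (μ * (N * b 1 / δ)) := by field_simp
    rw [e, abs_mul, abs_of_pos (by have := hρ.trans_le h1; positivity : 0 < N * b 1 / δ),
      mul_assoc, mul_div_assoc]
    gcongr
  have hI2 : ∫ y in δ..(1 - δ), G y = ((1 - 2 * δ : ℝ) : ℂ) *
      (ee (k * (p + μ * δ) - μ * N * (b 0 * δ / 2) - c₁) *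
        ∫ y in (0 : ℝ)..1, ee (μ * (1 - 2 * δ) * (k * y - N * Γ y))) := by
    have e1 : ∫ y in δ..(1 - δ), G y =
        (1 - 2 * δ) • ∫ t in (0 : ℝ)..1, G ((1 - 2 * δ) * t + δ) := by
      rw [intervalIntegral.smul_integral_comp_mul_add]
      congr 1 <;> ring
    rw [e1, Complex.real_smul]
    congr 1
    rw [← intervalIntegral.integral_const_mul]
    apply intervalIntegral.integral_congr
    intro z hz
    rw [Set.uIcc_of_le zero_le_one] at hz
    simp only [hG]
    rw [hP2 z hz.1 hz.2, ← ee_add, corr_left hδ hδ' c₁ c₂ (by nlinarith [hz.2]),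
      clamp_of_one_le (by rw [le_div_iff₀ hδ]; nlinarith [hz.1])]
    congr 1
    ring
  have harc : arcCoeff p μ N (prof δ b) (corr δ c₁ c₂) k = (|μ| : ℝ) * ∫ y in (0 : ℝ)..1, G y := rfl
  rw [harc, hsplit, hI2]
  have e : ((√N : ℝ) : ℂ) * ((|μ| : ℝ) * ((∫ y in (0 : ℝ)..δ, G y) + ((1 - 2 * δ : ℝ) : ℂ) *
      (ee (k * (p + μ * δ) - μ * N * (b 0 * δ / 2) - c₁) *
        ∫ y in (0 : ℝ)..1, ee (μ * (1 - 2 * δ) * (k * y - N * Γ y))) + ∫ y in (1 - δ)..1, G y)) -
      (√N * (|μ| * (1 - 2 * δ)) : ℝ) * ee (k * (p + μ * δ) - μ * N * (b 0 * δ / 2) - c₁) *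
          ∫ y in (0 : ℝ)..1, ee (μ * (1 - 2 * δ) * (k * y - N * Γ y)) =
      ((√N * |μ| : ℝ) : ℂ) * ((∫ y in (0 : ℝ)..δ, G y) + ∫ y in (1 - δ)..1, G y) := by
    push_cast; ring
  rw [e, norm_mul, Complex.norm_real, Real.norm_eq_abs, abs_of_nonneg (by positivity)]
  have hsum := (norm_add_le _ _).trans (add_le_add hI1 hI3)
  refine (mul_le_mul_of_nonneg_left hsum (by positivity)).trans (le_of_eq ?_)
  have hs : 0 < √(|μ| * N * ρ / δ) := Real.sqrt_pos.2 hlam
  have key : √N * |μ| = √(|μ| * δ / ρ) * √(|μ| * N * ρ / δ) := by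
    rw [← Real.sqrt_mul (by positivity)]
    have : |μ| * δ / ρ * (|μ| * N * ρ / δ) = N * |μ| ^ 2 := by field_simp
    rw [this, Real.sqrt_mul hN.le, Real.sqrt_sq hμ'.le]
  rw [key]
  field_simp
  ring

end Crest.Agent.R75
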