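import Crest.Agent.R75.Body
import Crest.Agent.R75.Prof
import Crest.Agent.R75.Vdc

/-! Normalised oscillatory integrals and the contribution of one arc. -/

set_option autoImplicit false

namespace Crest.Agent.R75

open Real

/-- normalised oscillatory integral -/
noncomputable def osc (Γ : ℝ → ℝ) (lam x : ℝ) : ℂ :=
  (√|lam| : ℝ) * ∫ y in (0 : ℝ)..1, ee (lam * (x * y - Γ y))

lemma osc_deriv {Γ g g' : ℝ → ℝ} (hΓ : ∀ y, HasDerivAt Γ (g y) y) (hg : ∀ y, HasDerivAt g (g' y) y)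
    (lam x : ℝ) :
    (∀ y, HasDerivAt (fun y => lam * (x * y - Γ y)) (lam * (x - g y)) y) ∧
      (∀ y, HasDerivAt (fun y => lam * (x - g y)) (lam * (-g' y)) y) := by
  refine ⟨fun y => ?_, fun y => ?_⟩
  · have := (((hasDerivAt_id y).const_mul x).sub (hΓ y)).const_mul lam
    simpa using this
  · have := ((hasDerivAt_const y x).sub (hg y)).const_mul lam
    simpa using this

lemma osc_far {Γ g g' : ℝ → ℝ} (hΓ : ∀ y, HasDerivAt Γ (g y) y) (hg : ∀ y, HasDerivAt g (g' y) y)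
    (hg' : Continuous g') (hpos : ∀ y, 0 ≤ g' y) {lam x γ : ℝ} (hlam : lam ≠ 0) (hγ : 0 < γ)
    (hx : ∀ y ∈ Set.Icc (0 : ℝ) 1, γ ≤ |x - g y|) : ‖osc Γ lam x‖ ≤ 1 / (√|lam| * γ) := by
  obtain ⟨h1, h2⟩ := osc_deriv hΓ hg lam x
  have hl : 0 < |lam| := abs_pos.2 hlam
  have h := vdc1 (a := 0) (b := 1) (lam := |lam| * γ) zero_le_one (by positivity) h1 h2
    (by fun_prop) (by
      rcases le_total 0 lam with h | h
      · right; intro y _; have := hpos y; nlinarith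
      · left; intro y _; have := hpos y; nlinarith)
    (fun y hy => by rw [abs_mul]; exact mul_le_mul_of_nonneg_left (hx y hy) hl.le)
  rw [osc, norm_mul, Complex.norm_real, Real.norm_of_nonneg (Real.sqrt_nonneg _)]
  have hs : 0 < √|lam| := Real.sqrt_pos.2 hl
  calc √|lam| * ‖∫ y in (0 : ℝ)..1, ee (lam * (x * y - Γ y))‖ ≤ √|lam| * (1 / (|lam| * γ)) := by
        gcongr
    _ = 1 / (√|lam| * γ) := by
        conv_lhs => rw [← Real.mul_self_sqrt hl.le]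
        rw [Real.sqrt_mul_self hs.le]
        field_simp

lemma osc_le {Γ g g' : ℝ → ℝ} (hΓ : ∀ y, HasDerivAt Γ (g y) y) (hg : ∀ y, HasDerivAt g (g' y) y)
    (hg' : Continuous g') (hpos : ∀ y, 1 ≤ g' y) {lam : ℝ} (x : ℝ) (hlam : lam ≠ 0) :
    ‖osc Γ lam x‖ ≤ 4 := by
  obtain ⟨h1, h2⟩ := osc_deriv hΓ hg lam x
  have hl : 0 < |lam| := abs_pos.2 hlam
  have h := vdc2 (a := 0) (b := 1) (lam := |lam|) zero_le_one hl h1 h2
    (by fun_prop) (by
      rcases le_total 0 lam with h | h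
      · right; intro y _; have := hpos y; rw [abs_of_nonneg h]; nlinarith
      · left; intro y _; have := hpos y; rw [abs_of_nonpos h]; nlinarith)
  rw [osc, norm_mul, Complex.norm_real, Real.norm_of_nonneg (Real.sqrt_nonneg _)]
  have hs : 0 < √|lam| := Real.sqrt_pos.2 hl
  calc √|lam| * ‖∫ y in (0 : ℝ)..1, ee (lam * (x * y - Γ y))‖ ≤ √|lam| * (4 / √|lam|) := by
        gcongr
    _ = 4 := by field_simp

lemma conj_osc (Γ : ℝ → ℝ) (lam x : ℝ) : (starRingEnd ℂ) (osc Γ lam x) = osc Γ (-lam) x := by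
  rw [osc, osc, map_mul, Complex.conj_ofReal, abs_neg]
  congr 1
  rw [intervalIntegral.integral_of_le zero_le_one, intervalIntegral.integral_of_le zero_le_one,
    ← integral_conj]
  congr 1
  ext y
  rw [conj_ee]; congr 1; ring

theorem osc_body (η ε : ℝ) (hη : 0 < η) (hε : 0 < ε) :
    ∃ (Γ g g' : ℝ → ℝ) (lam0 : ℝ), 0 < lam0 ∧ Γ 0 = 0 ∧ (∀ y, HasDerivAt Γ (g y) y) ∧
      (∀ y, HasDerivAt g (g' y) y) ∧ Continuous g' ∧ (∀ y, 1 ≤ g' y) ∧ g 0 = 0 ∧ g 1 ≤ 1 + η ∧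
      ∀ x : ℝ, ∃ w θ : ℝ, 0 ≤ w ∧ w ≤ 1 ∧ ∀ lam : ℝ, lam0 ≤ |lam| →
        ‖osc Γ lam x - w * ee (lam * θ - if 0 < lam then 1 / 8 else -1 / 8)‖ ≤ ε := by
  obtain ⟨Γ, g, g', lam0, h0, h1, h2, h3, h4, h5, h6, h7⟩ := body η ε hη hε
  refine ⟨Γ, g, g', max lam0 1, by positivity, h0, h1, h2, h3, h4, h5, h6, fun x => ?_⟩
  obtain ⟨w, θ, hw0, hw1, H⟩ := h7 x
  refine ⟨w, θ, hw0, hw1, fun lam hlam => ?_⟩
  have hl0 : lam0 ≤ |lam| := (le_max_left _ _).trans hlam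
  by_cases hp : 0 < lam
  · rw [if_pos hp, osc, abs_of_pos hp]
    exact H lam (by rwa [abs_of_pos hp] at hl0)
  · rw [if_neg hp]
    have hn : lam ≤ 0 := not_lt.1 hp
    have := H (-lam) (by rwa [abs_of_nonpos hn] at hl0)
    rw [← Complex.norm_conj, map_sub, conj_osc, map_mul, Complex.conj_ofReal, conj_ee, osc,
      abs_of_nonneg (by linarith)]
    convert this using 4
    ring_nf

/-- One arc: the phase corrections can be chosen so that the arc closes up and the body has a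
prescribed phase. -/
theorem arc_ready (δ : ℝ) (hδ : 0 < δ) (hδ' : δ < 1 / 2) {Γ g : ℝ → ℝ} (hΓ0 : Γ 0 = 0)
    (hΓ : ∀ y, HasDerivAt Γ (g y) y) (hg : Continuous g) (hg0 : g 0 = 0) (hg1 : 0 ≤ g 1)
    (ρ s0 τ : ℝ) (hρ : 0 < ρ) (hs0 : ρ ≤ s0) (hτ : 0 < τ) (μ N tgt : ℝ) (hμ : μ ≠ 0) (hN : 0 < N) :
    ∃ c₁ c₂ : ℝ, |c₁| ≤ 1 ∧ |c₂| ≤ 1 ∧
      (∃ z : ℤ, μ * N * (∫ t in (0 : ℝ)..1, prof δ (fun y => s0 + τ * g y) t) +
        corr δ c₁ c₂ 1 = z) ∧
      ∀ p k : ℝ, ‖(√N : ℝ) * arcCoeff p μ N (prof δ fun y => s0 + τ * g y) (corr δ c₁ c₂) k -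
        (√(|μ| * (1 - 2 * δ) / τ) : ℝ) * ee (k * (p + μ * δ) + tgt) *
          osc Γ (μ * (1 - 2 * δ) * N * τ) ((k / N - s0) / τ)‖ ≤ 8 * √(|μ| * δ / ρ) := by
  set c₁ := Int.fract (-(μ * N * (s0 * δ / 2)) - tgt) with hc₁
  set T := μ * N * (∫ t in (0 : ℝ)..1, prof δ (fun y => s0 + τ * g y) t) with hT
  set c₂ := Int.fract (-(T + c₁)) with hc₂
  have a1 : |c₁| ≤ 1 := by
    rw [abs_of_nonneg (Int.fract_nonneg _)]; exact (Int.fract_lt_one _).le
  have a2 : |c₂| ≤ 1 := by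
    rw [abs_of_nonneg (Int.fract_nonneg _)]; exact (Int.fract_lt_one _).le
  refine ⟨c₁, c₂, a1, a2, ⟨-⌊-(T + c₁)⌋, ?_⟩, fun p k => ?_⟩
  · rw [(corr_props δ hδ hδ' c₁ c₂ a1 a2).2.2 1 le_rfl, hc₂, Int.fract]
    push_cast; ring
  · have hb : ∀ y, HasDerivAt (fun y => s0 * y + τ * Γ y) (s0 + τ * g y) y := fun y => by
      have := ((hasDerivAt_id y).const_mul s0).fun_add ((hΓ y).const_mul τ)
      simpa using this
    have h := arc_split δ hδ hδ' (fun y => s0 * y + τ * Γ y) (fun y => s0 + τ * g y)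
      (by simp [hΓ0]) hb (by fun_prop) ρ hρ (by simpa [hg0] using hs0)
      (by have : 0 ≤ τ * g 1 := by positivity
          linarith) p μ N k c₁ c₂ hμ hN
    convert h using 3
    have h12 : 0 < 1 - 2 * δ := by linarith
    have hm : 0 < |μ| := abs_pos.2 hμ
    have e1 : ee (k * (p + μ * δ) + tgt) =
        ee (k * (p + μ * δ) - μ * N * ((s0 + τ * g 0) * δ / 2) - c₁) := by
      rw [← ee_add_int _ (⌊-(μ * N * (s0 * δ / 2)) - tgt⌋), hc₁, Int.fract, hg0]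
      congr 1; ring
    have e2 : √(|μ| * (1 - 2 * δ) / τ) * √|μ * (1 - 2 * δ) * N * τ| =
        √N * (|μ| * (1 - 2 * δ)) := by
      rw [← Real.sqrt_mul (by positivity), abs_mul, abs_mul, abs_mul, abs_of_pos h12,
        abs_of_pos hN, abs_of_pos hτ]
      rw [show |μ| * (1 - 2 * δ) / τ * (|μ| * (1 - 2 * δ) * N * τ) =
        N * (|μ| * (1 - 2 * δ)) ^ 2 by field_simp, Real.sqrt_mul hN.le,
        Real.sqrt_sq (by positivity)]
    have e3 : (∫ y in (0 : ℝ)..1, ee (μ * (1 - 2 * δ) * N * τ * ((k / N - s0) / τ * y - Γ y))) =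
        ∫ y in (0 : ℝ)..1, ee (μ * (1 - 2 * δ) * (k * y - N * (s0 * y + τ * Γ y))) := by
      congr 1; ext y; congr 1; field_simp; ring
    rw [osc, e1, e3, ← e2]
    push_cast; ring

end Crest.Agent.R75
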