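import Crest.Agent.R75.Defs

/-! Combinatorial core of the arc packing. -/

set_option autoImplicit false

namespace Crest.Agent.R75

open Real

namespace Packing

/-- rank inside the fibres of a map -/
lemma exists_rank {β κ : Type} [Fintype β] [DecidableEq κ] (key : β → κ) :
    ∃ cl : β → ℕ, (∀ b, cl b < (Finset.univ.filter fun b' => key b' = key b).card) ∧
      ∀ b b', key b = key b' → cl b = cl b' → b = b' := by
  classical
  let F : κ → Finset β := fun z => Finset.univ.filter fun b' => key b' = z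
  let e : ∀ z, F z → ℕ := fun z x => ((F z).equivFin x : ℕ)
  let e' : κ → β → ℕ := fun z b => if h : b ∈ F z then e z ⟨b, h⟩ else 0
  have hmem : ∀ b, b ∈ F (key b) := fun b => by simp [F]
  refine ⟨fun b => e' (key b) b, fun b => ?_, fun b b' hk hc => ?_⟩
  · simp only [e', dif_pos (hmem b), e]
    exact ((F (key b)).equivFin ⟨b, hmem b⟩).2
  · have h1 : b ∈ F (key b') := hk ▸ hmem b
    simp only [hk, e', dif_pos h1, dif_pos (hmem b'), e] at hc
    have := (F (key b')).equivFin.injective (Fin.ext hc)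
    simpa using this

/-- the lower end of the arc number `σ` in direction `d` -/
def lo (d : ℤ) (σ : ℕ) : ℤ := if 0 < d then σ * d else (σ + 1) * d

/-- offset of the `t`-th cell from the lower end -/
def off (d : ℤ) (t : ℕ) : ℤ := if 0 < d then t else d.natAbs - 1 - t

lemma off_nonneg {d : ℤ} {t : ℕ} (ht : t < d.natAbs) : 0 ≤ off d t := by
  unfold off; split_ifs <;> omega

lemma off_lt {d : ℤ} {t : ℕ} (ht : t < d.natAbs) : off d t < d.natAbs := by
  unfold off; split_ifs <;> omega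

lemma off_inj {d : ℤ} {t t' : ℕ} (h : off d t = off d t') : t = t' := by
  unfold off at h; split_ifs at h <;> omega

lemma dvd_lo (d : ℤ) (σ : ℕ) : (d.natAbs : ℤ) ∣ lo d σ := by
  rw [Int.natAbs_dvd]; unfold lo; split_ifs <;> exact Dvd.intro_left _ rfl

lemma dvd_lo_mod {d : ℤ} {W : ℕ} (hdW : d.natAbs ∣ W) (σ : ℕ) : (d.natAbs : ℤ) ∣ lo d σ % W := by
  rw [Int.emod_def]
  exact dvd_sub (dvd_lo d σ) ((Int.natCast_dvd_natCast.2 hdW).mul_right _)

lemma cell_true (d A : ℤ) (σ t : ℕ) : cell (A + σ * d) d t true = A + lo d σ + off d t := by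
  unfold cell lo off
  by_cases h : 0 < d
  · simp only [h, if_true]
  · have : (d.natAbs : ℤ) = -d := by omega
    simp only [h, if_true, if_false, this]; ring

lemma cell_false (P d : ℤ) (t : ℕ) : cell P d t false = -1 - cell P d t true := by
  simp [cell]

lemma lo_mod_add_le {d : ℤ} {W : ℕ} (hW : 0 < W) (hdW : d.natAbs ∣ W) (σ : ℕ) :
    lo d σ % W + d.natAbs ≤ W := by
  have h1 : (d.natAbs : ℤ) ∣ lo d σ % W := dvd_lo_mod hdW σ
  have h2 : (d.natAbs : ℤ) ∣ W - lo d σ % W := dvd_sub (Int.natCast_dvd_natCast.2 hdW) h1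
  have h3 : lo d σ % W < W := Int.emod_lt_of_pos _ (by exact_mod_cast hW)
  have := Int.le_of_dvd (by omega) h2
  omega

/-- at most `|d|` arcs start at the same place modulo `W` -/
lemma card_lo_le {d : ℤ} (hd : d ≠ 0) {W : ℕ} (hW : 0 < W) (hdW : d.natAbs ∣ W) (s : ℤ) :
    (Finset.univ.filter fun σ : Fin W => lo d σ % W = s).card ≤ d.natAbs := by
  obtain ⟨V, hV⟩ := hdW
  have hV0 : 0 < V := by
    rcases Nat.eq_zero_or_pos V with h | h
    · simp [h] at hV; omega
    · exact h
  have : (Finset.univ.filter fun σ : Fin W => lo d σ % W = s).card ≤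
      (Finset.range d.natAbs).card := by
    refine Finset.card_le_card_of_injOn (fun σ => (σ : ℕ) / V) ?_ ?_
    · intro σ _
      simp only [Finset.coe_range, Set.mem_Iio]
      rw [Nat.div_lt_iff_lt_mul hV0, ← hV]; exact σ.2
    · intro σ hσ σ' hσ' h
      simp only [Finset.coe_filter, Finset.mem_univ, true_and, Set.mem_ofPred_eq] at hσ hσ' h
      have h1 : (W : ℤ) ∣ lo d σ - lo d σ' := 
        Int.ModEq.dvd (hσ'.trans hσ.symm)
      have h2 : lo d σ - lo d σ' = d * ((σ : ℕ) - (σ' : ℕ)) := by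
        unfold lo; split_ifs <;> ring
      have h3 : (V : ℤ) ∣ ((σ : ℕ) : ℤ) - (σ' : ℕ) := by
        rw [h2] at h1
        have h4 : (d.natAbs : ℤ) * V ∣ d * (((σ : ℕ) : ℤ) - (σ' : ℕ)) := by
          have : ((d.natAbs : ℕ) : ℤ) * V = W := by exact_mod_cast hV.symm
          rwa [this]
        have h5 : d * V ∣ d * (((σ : ℕ) : ℤ) - (σ' : ℕ)) :=
          (mul_dvd_mul_right (Int.dvd_natAbs_self) _).trans h4
        exact (mul_dvd_mul_iff_left hd).1 h5
      have h6 : (σ : ℕ) % V = (σ' : ℕ) % V := by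
        have := (Nat.modEq_iff_dvd.2 h3)
        exact this.symm
      apply Fin.ext
      rw [← Nat.div_add_mod (σ : ℕ) V, ← Nat.div_add_mod (σ' : ℕ) V, h, h6]
  simpa using this

lemma split_mod {W M X X' u u' : ℤ} (hu : 0 ≤ u) (hu1 : u < W) (hu' : 0 ≤ u') (hu1' : u' < W)
    (h : W * M ∣ (W * X + u) - (W * X' + u')) : u = u' ∧ M ∣ X - X' := by
  have hW : 0 < W := by omega
  have h1 : W ∣ u - u' := by
    have h2 : W ∣ (W * X + u) - (W * X' + u') := (Dvd.intro _ rfl).trans h
    have h3 : (W * X + u) - (W * X' + u') = W * (X - X') + (u - u') := by ring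
    rw [h3] at h2
    exact (dvd_add_right (Dvd.intro _ rfl)).1 h2
  have h4 : u - u' = 0 := Int.eq_zero_of_abs_lt_dvd h1 (by rw [abs_lt]; omega)
  refine ⟨by omega, ?_⟩
  have h3 : (W * X + u) - (W * X' + u') = W * (X - X') := by
    have : u = u' := by omega
    rw [this]; ring
  rw [h3] at h
  exact (mul_dvd_mul_iff_left hW.ne').1 h

/-- The abstract injectivity statement. -/
lemma injective_core {ι β : Type} (W D Q : ℕ) (hW : 0 < W) (hD : 0 < D)
    (q n : ι → ℕ) (hq : ∀ i, q i * n i = Q) (d : ι → ℤ)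
    (hdW : ∀ i, (d i).natAbs ∣ W) (σ : β → ℕ) (Z : ι → β → ℤ) (col : ZMod D → ι)
    (hcol : ∀ z, col (-1 - z) = col z)
    (hZ : ∀ i b, col ((Z i b + lo (d i) (σ b) / W : ℤ) : ZMod D) = i)
    (cl : ι → β → ℕ) (hcl : ∀ i b, 2 * (cl i b + 1) ≤ q i)
    (hZcl : ∀ i b, Z i b + lo (d i) (σ b) / W ≡ cl i b [ZMOD q i])
    (hinj : ∀ i b b', ((Z i b + lo (d i) (σ b) / W : ℤ) : ZMod D) =
        ((Z i b' + lo (d i) (σ b') / W : ℤ) : ZMod D) → lo (d i) (σ b) % W = lo (d i) (σ b') % W →
        cl i b = cl i b' → b = b') :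
    Function.Injective (cellMap (J := Σ i : ι, β × Fin (n i)) (W * D * Q)
      (fun I => W * Z I.1 I.2.1 + ((I.2.2 : ℕ) * (W * D * q I.1) : ℕ) + σ I.2.1 * d I.1)
      (fun I => d I.1)) := by
  have hW' : (0 : ℤ) < W := by exact_mod_cast hW
  -- decomposition of the cells
  have hdec : ∀ (i : ι) (b : β) (j t : ℕ),
      cell (W * Z i b + (j * (W * D * q i) : ℕ) + σ b * d i) (d i) t true =
        W * (Z i b + lo (d i) (σ b) / W + j * D * q i) + (lo (d i) (σ b) % W + off (d i) t) := by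
    intro i b j t
    rw [cell_true]
    have := Int.mul_ediv_add_emod (lo (d i) (σ b)) W
    push_cast
    linear_combination -this
  have hdec' : ∀ (i : ι) (b : β) (j t : ℕ),
      cell (W * Z i b + (j * (W * D * q i) : ℕ) + σ b * d i) (d i) t false =
        W * (-1 - (Z i b + lo (d i) (σ b) / W + j * D * q i)) +
          (W - 1 - (lo (d i) (σ b) % W + off (d i) t)) := by
    intro i b j t
    rw [cell_false, hdec]; ring
  have hu0 : ∀ (i : ι) (b : β) (t : Fin (d i).natAbs), 0 ≤ lo (d i) (σ b) % W + off (d i) t :=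
    fun i b t => add_nonneg (Int.emod_nonneg _ hW'.ne') (off_nonneg t.2)
  have hu1 : ∀ (i : ι) (b : β) (t : Fin (d i).natAbs), lo (d i) (σ b) % W + off (d i) t < W :=
    fun i b t => by
      have := lo_mod_add_le hW (hdW i) (σ b)
      have := off_lt t.2
      omega
  have hcolX : ∀ (i : ι) (b : β) (j : ℕ),
      col ((Z i b + lo (d i) (σ b) / W + j * D * q i : ℤ) : ZMod D) = i := by
    intro i b j
    rw [Int.cast_add]
    have : ((j * D * q i : ℤ) : ZMod D) = 0 := by push_cast; simp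
    rw [this, add_zero, hZ]
  have hcolX' : ∀ (i : ι) (b : β) (j : ℕ),
      col ((-1 - (Z i b + lo (d i) (σ b) / W + j * D * q i) : ℤ) : ZMod D) = i := by
    intro i b j
    rw [Int.cast_sub, Int.cast_neg, Int.cast_one, hcol, hcolX]
  have hcongr : ∀ X X' : ℤ, (D : ℤ) * Q ∣ X - X' → col (X : ZMod D) = col (X' : ZMod D) := by
    intro X X' h
    have : (X' : ZMod D) = (X : ZMod D) :=
      (ZMod.intCast_eq_intCast_iff_dvd_sub _ _ _).2 ((Dvd.intro _ rfl).trans h)
    rw [this]
  have hqQ : ∀ i, (q i : ℤ) ∣ (D : ℤ) * Q := fun i =>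
    Dvd.dvd.mul_left (Int.natCast_dvd_natCast.2 (Dvd.intro _ (hq i))) _
  -- the mixed case is impossible
  have hmix : ∀ (i : ι) (b b' : β) (j j' : ℕ),
      ¬ ((D : ℤ) * Q ∣ (Z i b + lo (d i) (σ b) / W + j * D * q i) -
        (-1 - (Z i b' + lo (d i) (σ b') / W + j' * D * q i))) := by
    intro i b b' j j' h
    have h1 := (hqQ i).trans h
    have h2 := (hZcl i b).dvd
    have h3 := (hZcl i b').dvd
    have h4 : (q i : ℤ) ∣ (cl i b : ℤ) + cl i b' + 1 := by
      have h5 := dvd_sub (dvd_add (dvd_add h1 h2) h3)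
        (Dvd.intro_left ((j : ℤ) * D + j' * D) rfl : (q i : ℤ) ∣ ((j : ℤ) * D + j' * D) * q i)
      exact h5.trans (dvd_of_eq (by ring))
    have := Int.le_of_dvd (by positivity) h4
    have := hcl i b
    have := hcl i b'
    omega
  -- the equal-sign case
  have hsame : ∀ (i : ι) (b b' : β) (j j' : Fin (n i)) (t t' : Fin (d i).natAbs),
      lo (d i) (σ b) % W + off (d i) t = lo (d i) (σ b') % W + off (d i) t' →
      ((D : ℤ) * Q ∣ (Z i b + lo (d i) (σ b) / W + (j : ℕ) * D * q i) -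
        (Z i b' + lo (d i) (σ b') / W + (j' : ℕ) * D * q i)) → b = b' ∧ j = j' ∧ t = t' := by
    intro i b b' j j' t t' hu h
    have hdv : ∀ b, ((d i).natAbs : ℤ) ∣ lo (d i) (σ b) % W := fun b =>
      dvd_lo_mod (hdW i) _
    have ht : off (d i) t' - off (d i) t = 0 := by
      refine Int.eq_zero_of_abs_lt_dvd (m := ((d i).natAbs : ℤ)) ?_ ?_
      · have := dvd_sub (hdv b) (hdv b')
        exact this.trans (dvd_of_eq (by linarith))
      · have := off_nonneg t.2
        have := off_nonneg t'.2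
        have := off_lt t.2
        have := off_lt t'.2
        rw [abs_lt]; omega
    have htt : t = t' := Fin.ext (off_inj (d := d i) (by omega))
    have hs : lo (d i) (σ b) % W = lo (d i) (σ b') % W := by omega
    have hk : ((Z i b + lo (d i) (σ b) / W : ℤ) : ZMod D) =
        ((Z i b' + lo (d i) (σ b') / W : ℤ) : ZMod D) := by
      refine ((ZMod.intCast_eq_intCast_iff_dvd_sub _ _ _).2 ?_).symm
      have h1 : (D : ℤ) ∣ _ := (Dvd.intro _ rfl).trans h
      have h2 := dvd_sub h1 (Dvd.intro ((((j : ℕ) : ℤ) - (j' : ℕ)) * q i) rfl :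
        (D : ℤ) ∣ D * ((((j : ℕ) : ℤ) - (j' : ℕ)) * q i))
      exact h2.trans (dvd_of_eq (by ring))
    have hc : cl i b = cl i b' := by
      have h1 := (hqQ i).trans h
      have h2 := (hZcl i b).dvd
      have h3 := (hZcl i b').dvd
      have h4 : (q i : ℤ) ∣ (cl i b : ℤ) - cl i b' := by
        have h5 := dvd_sub (dvd_sub (dvd_add h1 h2) h3)
          (Dvd.intro_left ((((j : ℕ) : ℤ) - (j' : ℕ)) * D) rfl :
            (q i : ℤ) ∣ ((((j : ℕ) : ℤ) - (j' : ℕ)) * D) * q i)
        exact h5.trans (dvd_of_eq (by ring))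
      have h6 := Int.eq_zero_of_abs_lt_dvd h4 (by
        have := hcl i b
        have := hcl i b'
        rw [abs_lt]; omega)
      omega
    have hb := hinj i b b' hk hs hc
    subst hb
    refine ⟨rfl, ?_, htt⟩
    have hq0 : (0 : ℤ) < q i := by have := hcl i b; omega
    have h1 : ((D : ℤ) * q i) * n i ∣ ((D : ℤ) * q i) * (((j : ℕ) : ℤ) - (j' : ℕ)) := by
      have h2 : ((D : ℤ) * q i) * n i = D * Q := by rw [← hq i]; push_cast; ring
      rw [h2]; exact h.trans (dvd_of_eq (by ring))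
    have h3 := (mul_dvd_mul_iff_left (by positivity)).1 h1
    have h4 := Int.eq_zero_of_abs_lt_dvd h3 (by
      have := j.2
      have := j'.2
      rw [abs_lt]; omega)
    exact Fin.ext (by omega)
  rintro ⟨⟨⟨i, b, j⟩, t⟩, ε⟩ ⟨⟨⟨i', b', j'⟩, t'⟩, ε'⟩ h
  simp only [cellMap] at h t t'
  rw [eq_comm, ZMod.intCast_eq_intCast_iff_dvd_sub] at h
  have hL : ((W * D * Q : ℕ) : ℤ) = W * (D * Q) := by push_cast; ring
  rw [hL] at h
  have hu := hu0 i b t
  have hu' := hu0 i' b' t'
  have hv := hu1 i b t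
  have hv' := hu1 i' b' t'
  cases ε <;> cases ε'
  · rw [hdec', hdec'] at h
    obtain ⟨h1, h2⟩ := split_mod (by omega) (by omega) (by omega) (by omega) h
    have hi : i = i' := by rw [← hcolX' i b j, hcongr _ _ h2, hcolX']
    subst hi
    obtain ⟨rfl, rfl, rfl⟩ := hsame i b b' j j' t t' (by omega) (by
      rw [← dvd_neg]; exact h2.trans (dvd_of_eq (by ring)))
    rfl
  · rw [hdec', hdec] at h
    obtain ⟨h1, h2⟩ := split_mod (by omega) (by omega) (by omega) (by omega) h
    have hi : i = i' := by rw [← hcolX' i b j, hcongr _ _ h2, hcolX]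
    subst hi
    exact absurd (by rw [← dvd_neg]; exact h2.trans (dvd_of_eq (by ring))) (hmix i b' b j' j)
  · rw [hdec', hdec] at h
    obtain ⟨h1, h2⟩ := split_mod (by omega) (by omega) (by omega) (by omega) h
    have hi : i = i' := by rw [← hcolX i b j, hcongr _ _ h2, hcolX']
    subst hi
    exact absurd h2 (hmix i b b' j j')
  · rw [hdec, hdec] at h
    obtain ⟨h1, h2⟩ := split_mod (by omega) (by omega) (by omega) (by omega) h
    have hi : i = i' := by rw [← hcolX i b j, hcongr _ _ h2, hcolX]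
    subst hi
    obtain ⟨rfl, rfl, rfl⟩ := hsame i b b' j j' t t' h1 h2
    rfl

end Packing

end Crest.Agent.R75
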