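import Crest.Agent.R75.Disc
import Crest.Agent.R75.Dyadic
import Crest.Agent.R75.Grid

/-! Rounding nearly unimodular real coefficients to signs. -/

set_option autoImplicit false

namespace Crest.Agent.R75

open Real

theorem rounding (ε : ℝ) (hε : 0 < ε) : ∃ δ : ℝ, 0 < δ ∧ ∀ (N : ℕ) (a : Fin N → ℝ),
    (∀ k, |a k| ≤ 1) → ∑ k, (1 - a k ^ 2) ≤ δ * N →
    ∃ c : Fin N → ℤˣ, ∀ z : ℂ, ‖z‖ = 1 →
      ‖∑ k : Fin N, (((c k : ℤ) : ℂ) - (a k : ℂ)) * z ^ (k : ℕ)‖ ≤ ε * √N := by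
  obtain ⟨C, hC, H⟩ := disc
  refine rounding_of (10 * C) (by positivity) (fun N v hN hv a ha => ?_) ε hε
  refine dyadic_round C ((4 * N : ℝ) ^ 2) hC (by positivity) v hv (fun T => ?_) a ha
  have h := H (Fin N) (Fin (2 * N) × Bool) T v hv
    ((Finset.card_le_univ T).trans (by simp; omega))
  have e : (Fintype.card (Fin (2 * N) × Bool) : ℝ) = 4 * N := by simp; ring
  rwa [e] at h

end Crest.Agent.R75
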