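import Crest.Agent.R75.Block
import Crest.Agent.R75.ArcSystem

/-! From a system of arcs with bounded stationary phase terms to a flat real polynomial. -/

set_option autoImplicit false

namespace Crest.Agent.R75

open Real

/-- the body term of an arc -/
noncomputable def term (δ p μ N s0 τ tgt : ℝ) (Γ : ℝ → ℝ) (k : ℝ) : ℂ :=
  (√(|μ| * (1 - 2 * δ) / τ) : ℝ) * ee (k * (p + μ * δ) + tgt) *
    osc Γ (μ * (1 - 2 * δ) * N * τ) ((k / N - s0) / τ)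

lemma mono_of_deriv {g g' : ℝ → ℝ} (hg : ∀ y, HasDerivAt g (g' y) y) (hpos : ∀ y, 0 ≤ g' y) :
    Monotone g :=
  monotone_of_deriv_nonneg (fun y => (hg y).differentiableAt) fun y => by
    rw [(hg y).deriv]; exact hpos y

theorem system_flat {J : Type} [Fintype J] (L : ℕ) (hL : 0 < L) (P d : J → ℤ) (hd : ∀ I, d I ≠ 0)
    (htile : Function.Bijective (cellMap L P d)) (ρ : ℝ) (hρ : 0 < ρ) (hρ' : ρ < 1 / 4)
    (δ : ℝ) (hδ : 0 < δ) (hδ' : δ < 1 / 2) (s0 τ tgt : J → ℝ) (Γ g g' : J → ℝ → ℝ)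
    (hΓ0 : ∀ I, Γ I 0 = 0) (hΓ : ∀ I y, HasDerivAt (Γ I) (g I y) y)
    (hg : ∀ I y, HasDerivAt (g I) (g' I y) y) (hg' : ∀ I, Continuous (g' I))
    (hpos : ∀ I y, 0 ≤ g' I y) (hg0 : ∀ I, g I 0 = 0) (hs0 : ∀ I, ρ ≤ s0 I) (hτ : ∀ I, 0 < τ I)
    (htop : ∀ I, s0 I + τ I * g I 1 ≤ 1 - 2 * ρ) (X : ℝ) (N1 : ℕ)
    (hX : ∀ N : ℕ, N1 ≤ N → ∀ k : ℤ,
      |2 * (∑ I, term δ (P I / L) (d I / L) N (s0 I) (τ I) (tgt I) (Γ I) k).re| ≤ X)
    (ε : ℝ) (hε : 0 < ε) :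
    ∃ N0 : ℕ, ∀ N : ℕ, N0 ≤ N → ∃ a : Fin N → ℝ,
      (∀ k, |a k| ≤ X + 16 * (∑ I, √|(d I / L : ℝ)|) * √(δ / ρ)) ∧
      ∀ z : ℂ, ‖z‖ = 1 → |‖∑ k : Fin N, (a k : ℂ) * z ^ (k : ℕ)‖ - √N| ≤ ε * √N := by
  have hLr : (0 : ℝ) < L := by exact_mod_cast hL
  have hp := fun I => prof_props δ hδ hδ' (fun y => s0 I + τ I * g I y) (fun y => τ I * g' I y)
    (fun y => by simpa using ((hg I y).const_mul (τ I)).const_add (s0 I))
    (by have := hg' I; fun_prop) (fun y => mul_nonneg (hτ I).le (hpos I y)) (1 - 2 * ρ)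
    (by simp only [hg0]; linarith [hs0 I]) (htop I)
  choose K hK using fun I => (hp I).1
  set K0 : ℝ := 2 / δ + ∑ I, |K I| with hK0
  have hK1 : 2 / δ ≤ K0 := by
    have : 0 ≤ ∑ I, |K I| := Finset.sum_nonneg fun I _ => abs_nonneg _
    linarith
  have hK2 : ∀ I, K I ≤ K0 := fun I => by
    have h1 : |K I| ≤ ∑ I, |K I| :=
      Finset.single_le_sum (f := fun I => |K I|) (fun I _ => abs_nonneg _) (Finset.mem_univ I)
    have h2 : 0 < 2 / δ := by positivity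
    linarith [le_abs_self (K I)]
  obtain ⟨N0, hN0⟩ := arc_system L hL P d hd htile ρ hρ hρ'
    (fun I => prof δ fun y => s0 I + τ I * g I y) K0
    (fun I y y' => (hK I y y').trans (by gcongr; exact hK2 I)) (fun I => (hp I).2.1)
    (fun I => (hp I).2.2) ε hε
  refine ⟨max (max N0 N1) 1, fun N hN => ?_⟩
  have hN0' : N0 ≤ N := le_trans (le_trans (le_max_left _ _) (le_max_left _ _)) hN
  have hN1' : N1 ≤ N := le_trans (le_trans (le_max_right _ _) (le_max_left _ _)) hN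
  have hNpos : (0 : ℝ) < N := by
    have : 1 ≤ N := le_trans (le_max_right _ _) hN
    exact_mod_cast this
  have hμ : ∀ I, (d I / L : ℝ) ≠ 0 := fun I => div_ne_zero (by exact_mod_cast hd I) hLr.ne'
  choose c₁ c₂ h1 h2 h3 h4 using fun I => arc_ready δ hδ hδ' (hΓ0 I) (hΓ I)
    (continuous_iff_continuousAt.2 fun y => (hg I y).continuousAt) (hg0 I)
    (by rw [← hg0 I]; exact mono_of_deriv (hg I) (hpos I) zero_le_one) ρ (s0 I) (τ I) hρ (hs0 I)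
    (hτ I) (d I / L) N (tgt I) (hμ I) hNpos
  have hc := fun I => corr_props δ hδ hδ' (c₁ I) (c₂ I) (h1 I) (h2 I)
  obtain ⟨κ, A, hκ, hP⟩ := hN0 N hN0' (fun I => corr δ (c₁ I) (c₂ I))
    (fun I y y' => ((hc I).1 y y').trans (by gcongr)) (fun I => (hc I).2.1)
    (fun I y hy => by rw [(hc I).2.2 y hy, (hc I).2.2 1 le_rfl]) h3
  set v : Fin N → ℝ := fun j => 2 * (∑ I, arcCoeff (P I / L) (d I / L) N
    (prof δ fun y => s0 I + τ I * g I y) (corr δ (c₁ I) (c₂ I)) (((j : ℕ) : ℝ) - A)).re with hv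
  have hs : 0 < √(N : ℝ) := Real.sqrt_pos.2 hNpos
  refine ⟨fun j => √N * (κ j * v j), fun j => ?_, fun z hz => ?_⟩
  · have hb : |√N * v j| ≤ X + 16 * (∑ I, √|(d I / L : ℝ)|) * √(δ / ρ) := by
      have hXj := hX N hN1' (((j : ℕ) : ℤ) - A)
      push_cast at hXj
      have e1 : √N * v j = 2 * (∑ I, term δ (P I / L) (d I / L) N (s0 I) (τ I) (tgt I) (Γ I)
          (((j : ℕ) : ℝ) - A)).re + 2 * (∑ I, ((√N : ℝ) * arcCoeff (P I / L) (d I / L) N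
          (prof δ fun y => s0 I + τ I * g I y) (corr δ (c₁ I) (c₂ I)) (((j : ℕ) : ℝ) - A) -
          term δ (P I / L) (d I / L) N (s0 I) (τ I) (tgt I) (Γ I) (((j : ℕ) : ℝ) - A))).re := by
        rw [Finset.sum_sub_distrib, ← Finset.mul_sum, Complex.sub_re, Complex.re_ofReal_mul]
        simp only [hv]; ring
      rw [e1]
      refine (abs_add_le _ _).trans (add_le_add hXj ((two_re_le _).trans ?_))
      have e2 : 16 * (∑ I, √|(d I / L : ℝ)|) * √(δ / ρ) =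
          2 * ∑ I, 8 * √(|(d I / L : ℝ)| * δ / ρ) := by
        rw [← Finset.mul_sum, mul_assoc, Finset.sum_mul, ← mul_assoc]
        congr 1
        · norm_num
        · refine Finset.sum_congr rfl fun I _ => ?_
          rw [← Real.sqrt_mul (abs_nonneg _), mul_div_assoc]
      rw [e2]
      gcongr
      exact (norm_sum_le _ _).trans (Finset.sum_le_sum fun I _ => h4 I _ _)
    show |√N * (κ j * v j)| ≤ _
    rw [show √N * (κ j * v j) = κ j * (√N * v j) by ring, abs_mul, abs_of_nonneg (hκ j).1]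
    exact (mul_le_of_le_one_left (abs_nonneg _) (hκ j).2).trans hb
  · have := hP z hz
    have e : ∑ j : Fin N, ((√N * (κ j * v j) : ℝ) : ℂ) * z ^ (j : ℕ) =
        (√N : ℝ) * ∑ j : Fin N, ((κ j * v j : ℝ) : ℂ) * z ^ (j : ℕ) := by
      rw [Finset.mul_sum]
      refine Finset.sum_congr rfl fun j _ => by push_cast; ring
    rw [e, norm_mul, Complex.norm_real, Real.norm_of_nonneg hs.le, ← mul_sub_one, abs_mul,
      abs_of_pos hs, mul_comm]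
    gcongr

lemma term_far {Γ g g' : ℝ → ℝ} (hΓ : ∀ y, HasDerivAt Γ (g y) y) (hg : ∀ y, HasDerivAt g (g' y) y)
    (hg' : Continuous g') (hpos : ∀ y, 0 ≤ g' y) {δ μ N s0 τ k γ : ℝ} (p tgt : ℝ) (hδ' : δ < 1 / 2)
    (hμ : μ ≠ 0) (hN : 0 < N) (hτ : 0 < τ) (hγ : 0 < γ)
    (hx : ∀ y ∈ Set.Icc (0 : ℝ) 1, γ ≤ |(k / N - s0) / τ - g y|) :
    ‖term δ p μ N s0 τ tgt Γ k‖ ≤ 1 / (√N * τ * γ) := by
  have h12 : 0 < 1 - 2 * δ := by linarith
  have hm : 0 < |μ| := abs_pos.2 hμ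
  have h := osc_far hΓ hg hg' hpos (lam := μ * (1 - 2 * δ) * N * τ) (by positivity) hγ hx
  rw [term, norm_mul, norm_mul, norm_ee, mul_one, Complex.norm_real,
    Real.norm_of_nonneg (Real.sqrt_nonneg _)]
  refine (mul_le_mul_of_nonneg_left h (Real.sqrt_nonneg _)).trans (le_of_eq ?_)
  have e : √|μ * (1 - 2 * δ) * N * τ| = √(|μ| * (1 - 2 * δ) / τ) * (√N * τ) := by
    rw [abs_mul, abs_mul, abs_mul, abs_of_pos h12, abs_of_pos hN, abs_of_pos hτ]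
    rw [show |μ| * (1 - 2 * δ) * N * τ = |μ| * (1 - 2 * δ) / τ * (N * τ ^ 2) by field_simp,
      Real.sqrt_mul (by positivity), Real.sqrt_mul hN.le, Real.sqrt_sq hτ.le]
  have h1 : 0 < √(|μ| * (1 - 2 * δ) / τ) := Real.sqrt_pos.2 (by positivity)
  have h2 : 0 < √N := Real.sqrt_pos.2 hN
  rw [e]; field_simp

theorem filler_part (R : ℕ) (p : Fin R → ℝ) {δ μ N τ : ℝ} (ρ k : ℝ) (hδ' : δ < 1 / 2)
    (hμ : μ ≠ 0) (hN : 0 < N) (hτ : 0 < τ) :
    |2 * (∑ f : Fin R, term δ (p f) μ N (ρ + (f : ℕ) * 2 * τ) τ 0 (fun y => y ^ 2 / 2) k).re| ≤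
      8 * √(|μ| * (1 - 2 * δ) / τ) + R * (4 / (√N * τ)) := by
  have hΓ : ∀ y : ℝ, HasDerivAt (fun y : ℝ => y ^ 2 / 2) y y := fun y => by
    simpa using (hasDerivAt_pow 2 y).div_const 2
  have hg : ∀ y : ℝ, HasDerivAt (fun y : ℝ => y) ((fun _ => 1) y) y := fun y => hasDerivAt_id y
  have h12 : 0 < 1 - 2 * δ := by linarith
  have h2 : 0 < √N := Real.sqrt_pos.2 hN
  rw [Complex.re_sum, Finset.mul_sum]
  refine sum_slots _ (fun f => -1 / 2 < (k / N - ρ) / τ - (f : ℕ) * 2 ∧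
    (k / N - ρ) / τ - (f : ℕ) * 2 < -1 / 2 + 2) _ _ (by positivity) (by positivity)
    (fun b b' => slot_unique _ _ 2 two_pos b b') (fun f => (two_re_le _).trans ?_)
    (fun f hf => (two_re_le _).trans ?_)
  · have h := osc_le hΓ hg continuous_const (fun _ => le_rfl) (lam := μ * (1 - 2 * δ) * N * τ)
      ((k / N - (ρ + (f : ℕ) * 2 * τ)) / τ) (by positivity)
    rw [term, norm_mul, norm_mul, norm_ee, mul_one, Complex.norm_real,
      Real.norm_of_nonneg (Real.sqrt_nonneg _)]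
    nlinarith [Real.sqrt_nonneg (|μ| * (1 - 2 * δ) / τ)]
  · have h := term_far hΓ hg continuous_const (fun _ => zero_le_one) (δ := δ) (μ := μ) (N := N)
      (s0 := ρ + (f : ℕ) * 2 * τ) (τ := τ) (k := k) (γ := 1 / 2) (p f) 0 hδ' hμ hN hτ (by norm_num)
      (fun y hy => by
        have e : (k / N - (ρ + (f : ℕ) * 2 * τ)) / τ = (k / N - ρ) / τ - (f : ℕ) * 2 := by
          field_simp; ring
        rw [e, le_abs]
        rw [not_and_or, not_lt, not_lt] at hf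
        rcases hf with hf | hf
        · right; linarith [hy.1]
        · left; linarith [hy.2])
    calc _ ≤ 2 * (1 / (√N * τ * (1 / 2))) := by gcongr
      _ = _ := by field_simp; norm_num

theorem main_part {r : ℕ} {ι : Type} [Fintype ι] (m : ι → Fin r → ℤ) (f : ι → ℝ)
    (hF : ∀ φ : Fin r → ℝ, |∑ i, 2 * f i * cos (2 * π * ∑ l, (m i l : ℝ) * φ l)| ≤ 1)
    (n : ι → ℕ) (c : ι → ℤ) (α : Fin r → ℝ) (hα : ∀ i, ∑ l, (m i l : ℝ) * α l = c i / n i)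
    (L : ℕ) (hL : 0 < L) (st : ι → ℕ) (hst : ∀ i, st i * n i = L) (k0 : Fin r → ℤ)
    (hd : ∀ i, dot (m i) k0 ≠ 0) (B : ℕ) (ν : Fin B → Fin r → ℤ) (φ : ∀ i, Fin (n i) → ℝ)
    (hφ : ∀ i (k : ℤ), ∑ j : Fin (n i), ee ((k : ℝ) * (j : ℕ) / n i + φ i j) =
      (√(n i) : ℝ) * ee (c i * (k : ℝ) ^ 2 / n i))
    {η ε₂ lam0 : ℝ} (hη : 0 < η) (hε₂ : 0 < ε₂) {Γ g g' : ℝ → ℝ}
    (hΓ : ∀ y, HasDerivAt Γ (g y) y) (hg : ∀ y, HasDerivAt g (g' y) y) (hg' : Continuous g')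
    (hpos : ∀ y, 0 ≤ g' y) (hg0 : g 0 = 0) (hg1 : g 1 ≤ 1 + η)
    (hb : ∀ x : ℝ, ∃ w θ : ℝ, 0 ≤ w ∧ w ≤ 1 ∧ ∀ lam : ℝ, lam0 ≤ |lam| →
        ‖osc Γ lam x - w * ee (lam * θ - if 0 < lam then 1 / 8 else -1 / 8)‖ ≤ ε₂)
    {δ N τ : ℝ} (ρ : ℝ) (hδ' : δ < 1 / 2) (hN : 0 < N) (hτ : 0 < τ) (k : ℤ)
    (hlam : ∀ i, lam0 ≤ |(dot (m i) k0 / L : ℝ) * (1 - 2 * δ) * N * τ|)
    (β t : ℝ) (hβ : 0 ≤ β) (ht : 0 ≤ t)
    (ha : ∀ i, β * |f i| ≤ √(n i) * √(|(dot (m i) k0 / L : ℝ)| * (1 - 2 * δ) / τ) ∧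
      √(n i) * √(|(dot (m i) k0 / L : ℝ)| * (1 - 2 * δ) / τ) ≤ (1 + t) * (β * |f i|)) :
    |2 * (∑ I : Σ i : ι, Fin B × Fin (n i),
      term δ (((dot (m I.1) (ν I.2.1) + ((I.2.2 : ℕ) * st I.1 : ℕ) : ℤ) : ℝ) / L)
        (dot (m I.1) k0 / L) N (ρ + (I.2.1 : ℕ) * (1 + 2 * η) * τ) τ
        (φ I.1 I.2.2 + sgnPhase (f I.1) (dot (m I.1) k0 / L)) Γ k).re| ≤
      (β + 2 * t * β * ∑ i, |f i| + 2 * ε₂ * (1 + t) * β * ∑ i, |f i|) +
        B * ((∑ i, (n i : ℝ)) * (4 / (√N * τ * η))) := by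
  have hLr : (0 : ℝ) < L := by exact_mod_cast hL
  have h12 : 0 < 1 - 2 * δ := by linarith
  have h2 : 0 < √N := Real.sqrt_pos.2 hN
  have hμ : ∀ i, (dot (m i) k0 / L : ℝ) ≠ 0 := fun i =>
    div_ne_zero (by exact_mod_cast hd i) hLr.ne'
  rw [Fintype.sum_sigma]
  simp only [Fintype.sum_prod_type]
  rw [Finset.sum_comm, Complex.re_sum, Finset.mul_sum]
  refine sum_slots _ (fun b => -η / 2 < (k / N - ρ) / τ - (b : ℕ) * (1 + 2 * η) ∧
    (k / N - ρ) / τ - (b : ℕ) * (1 + 2 * η) < -η / 2 + (1 + 2 * η)) _ _ (by positivity)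
    (by positivity) (fun b b' => slot_unique _ _ _ (by positivity) b b') (fun b => ?_)
    (fun b hb' => (two_re_le _).trans ?_)
  · obtain ⟨w, θ, hw0, hw1, H⟩ := hb ((k / N - (ρ + (b : ℕ) * (1 + 2 * η) * τ)) / τ)
    have := block_sum m f hF n c α hα L hL st hst k0 (ν b) φ hφ δ ((1 - 2 * δ) * N * τ)
      (by positivity) k w θ ε₂ hw0 hw1
      (fun i => osc Γ ((dot (m i) k0 / L : ℝ) * (1 - 2 * δ) * N * τ)
        ((k / N - (ρ + (b : ℕ) * (1 + 2 * η) * τ)) / τ))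
      (fun i => by
        have := H _ (hlam i)
        simpa only [mul_assoc] using this)
      (fun i => √(|(dot (m i) k0 / L : ℝ)| * (1 - 2 * δ) / τ)) β t hβ ht ha
    simpa only [term] using this
  · have h : ∀ i (p tgt : ℝ), ‖term δ p (dot (m i) k0 / L) N (ρ + (b : ℕ) * (1 + 2 * η) * τ) τ tgt Γ k‖
        ≤ 1 / (√N * τ * (η / 2)) := fun i p tgt =>
      term_far hΓ hg hg' hpos p tgt hδ' (hμ i) hN hτ (by positivity) (fun y hy => by
        have e : (k / N - (ρ + (b : ℕ) * (1 + 2 * η) * τ)) / τ =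
            (k / N - ρ) / τ - (b : ℕ) * (1 + 2 * η) := by
          field_simp; ring
        have m0 := mono_of_deriv hg hpos hy.1
        have m1 := mono_of_deriv hg hpos hy.2
        rw [e, le_abs]
        rw [not_and_or, not_lt, not_lt] at hb'
        rcases hb' with hf | hf
        · right; linarith
        · left; linarith)
    have h3 : ∀ x : ℝ, x ≤ (∑ i, (n i : ℝ)) * (1 / (√N * τ * (η / 2))) →
        2 * x ≤ (∑ i, (n i : ℝ)) * (4 / (√N * τ * η)) := fun x hx => by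
      calc _ ≤ 2 * ((∑ i, (n i : ℝ)) * (1 / (√N * τ * (η / 2)))) := by gcongr
        _ = _ := by field_simp; ring
    refine h3 _ ?_
    rw [Finset.sum_mul]
    refine (norm_sum_le _ _).trans (Finset.sum_le_sum fun i _ => ?_)
    refine (norm_sum_le _ _).trans ?_
    refine (Finset.sum_le_card_nsmul _ _ _ fun j _ => h i _ _).trans ?_
    simp

end Crest.Agent.R75
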